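import Vale.Agent.P027M.F.Defs
import Vale.Agent.P022.H916.Ram

/-! # P027 route M, block F, row TRA: all Frobenius elements at a good prime have the same trace -/

set_option linter.all false

noncomputable section

namespace Vale.Agent.P027M.F

open NumberField Vale.Agent.P022
open scoped Pointwise

namespace Tra

theorem int_mem {l : ℕ} (hl : l.Prime) {P : Ideal (𝓞 Qb)} (hP : P.IsPrime) (h : (l : 𝓞 Qb) ∈ P)
    (n : ℤ) : (n : 𝓞 Qb) ∈ P ↔ (l : ℤ) ∣ n := by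
  constructor
  · intro hn
    by_contra hd
    obtain ⟨a, b, h4⟩ := ((Nat.prime_iff_prime_int.1 hl).irreducible.coprime_iff_not_dvd.2 hd).map
      (Int.castRingHom (𝓞 Qb))
    exact hP.one_notMem (h4 ▸ P.add_mem (P.mul_mem_left a (by simpa using h)) (P.mul_mem_left b hn))
  · rintro ⟨k, rfl⟩
    push_cast
    exact P.mul_mem_right _ h

/-- `GQ` is transitive on the primes over `l` -/
theorem trans {l : ℕ} (hl : l.Prime) {P Q : Ideal (𝓞 Qb)} (hP : P.IsPrime) (hQ : Q.IsPrime)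
    (h : (l : 𝓞 Qb) ∈ P) (h' : (l : 𝓞 Qb) ∈ Q) : ∃ g : GQ, Q = g • P := by
  obtain ⟨g, hg⟩ := H916.exists_smul (algebraMap ℚ Qb) hP hQ (by
    ext y
    obtain ⟨n, rfl⟩ := Rat.ringOfIntegersEquiv.symm.surjective y
    rw [eq_intCast Rat.ringOfIntegersEquiv.symm n]
    change RingOfIntegers.mapRingHom _ _ ∈ P ↔ RingOfIntegers.mapRingHom _ _ ∈ Q
    rw [map_intCast, int_mem hl hP h, int_mem hl hQ h'])
  exact ⟨g, hg⟩

theorem tr_eq {N : ℕ} {ρ : GQ →* TW.M2 O3} (hu : UnrA N ρ) {l : ℕ} (hl : GoodP N l) {φ φ' : GQ}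
    (h : IsFrob l φ) (h' : IsFrob l φ') : (ρ φ).trace = (ρ φ').trace := by
  obtain ⟨P, hP, h1, h2⟩ := h
  obtain ⟨Q, hQ, h3, h4⟩ := h'
  obtain ⟨g, rfl⟩ := trans hl.1 hP hQ h1 h3
  have h5 : ρ (g * φ * g⁻¹ * φ'⁻¹) = 1 := by
    refine hu l _ hl hQ h3 _ fun x => ?_
    have h6 := Ideal.smul_mem_pointwise_smul g _ P (h2 (g⁻¹ • φ'⁻¹ • x))
    have h7 := h4 (φ'⁻¹ • x)
    rw [smul_sub, smul_pow', smul_inv_smul] at h6
    rw [smul_inv_smul] at h7
    have h8 := Ideal.sub_mem _ h6 h7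
    rw [sub_sub_sub_cancel_right] at h8
    rw [mul_smul, mul_smul, mul_smul]
    exact h8
  have h9 : ρ φ' = ρ g * ρ φ * ρ g⁻¹ := by
    rw [← map_mul, ← map_mul, ← one_mul (ρ φ'), ← h5, ← map_mul, inv_mul_cancel_right]
  rw [h9, Matrix.trace_mul_cycle, ← map_mul, inv_mul_cancel, map_one, one_mul]

end Tra

open Classical in
/-- [F.TRA] -/
theorem tra : TRA := by
  intro N ρ hu
  refine ⟨fun l => if h : ∃ φ, IsFrob l φ then (ρ h.choose).trace else 0, fun l φ hl hφ => ?_⟩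
  have h : ∃ φ, IsFrob l φ := ⟨φ, hφ⟩
  simp only [dif_pos h]
  exact Tra.tr_eq hu hl hφ h.choose_spec

end Vale.Agent.P027M.F
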