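import Vale.Agent.P027M.F.ChiDefs
import Vale.Agent.P022.H651.FCH
import Vale.Agent.P022.H565.Fre
import Vale.Agent.P022.H269.Nrm

/-! # P027M, block F5: the Gaussian field as a number field -/

set_option linter.all false

noncomputable section

namespace Vale.Agent.P027M.F

open NumberField IsDedekindDomain Vale.Agent.P022 Vale.Agent.P022.C

/-- `gi` as a ring homomorphism -/
def giH {R : Type*} [CommRing R] (i : R) (hi : i ^ 2 = -1) : GaussianInt →+* R :=
  Zsqrtd.lift ⟨i, by rw [← sq, hi]; simp⟩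

theorem giH_apply {R : Type*} [CommRing R] (i : R) (hi : i ^ 2 = -1) (z : GaussianInt) :
    giH i hi z = gi i z := rfl

theorem gi_map {R S : Type*} [CommRing R] [CommRing S] (f : R →+* S) (i : R) (z : GaussianInt) :
    f (gi i z) = gi (f i) z := by simp [gi]

theorem gi_gI {R : Type*} [CommRing R] (i : R) : gi i gI = i := by simp [gi, gI]

theorem gi_self (z : GaussianInt) : gi gI z = z := by
  ext <;> simp [gi, gI]

theorem gI_sq : gI ^ 2 = -1 := by decide

theorem giH_inj {R : Type*} [CommRing R] [IsDomain R] [CharZero R] (i : R) (hi : i ^ 2 = -1) :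
    Function.Injective (giH i hi) := by
  rw [injective_iff_map_eq_zero]
  intro z hz
  have h1 : giH i hi (z * star z) = 0 := by rw [map_mul, hz, zero_mul]
  rw [← Zsqrtd.norm_eq_mul_conj, map_intCast] at h1
  exact GaussianInt.norm_eq_zero.1 (by exact_mod_cast h1)

/-- the standard basis -/
def gb : Module.Basis (Fin 2) ℤ GaussianInt :=
  Module.Basis.ofEquivFun
    { toFun := fun z => ![z.re, z.im]
      invFun := fun v => ⟨v 0, v 1⟩
      map_add' := fun a b => by ext j; fin_cases j <;> simp
      map_smul' := fun n a => by ext j; fin_cases j <;> simp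
      left_inv := fun z => rfl
      right_inv := fun v => by ext j; fin_cases j <;> rfl }

theorem gb_repr (z : GaussianInt) : gb.repr z 0 = z.re ∧ gb.repr z 1 = z.im := ⟨rfl, rfl⟩

theorem gb_zero : gb 0 = 1 := by
  apply gb.repr.injective
  ext j
  fin_cases j <;> simp [gb_repr]

theorem gb_one : gb 1 = ⟨0, 1⟩ := by
  apply gb.repr.injective
  ext j
  fin_cases j <;> simp [gb_repr]

theorem gnorm (a : GaussianInt) : Algebra.norm ℤ a = a.norm := by
  rw [Algebra.norm_eq_matrix_det gb, Matrix.det_fin_two]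
  simp only [Algebra.leftMulMatrix_eq_repr_mul, gb_zero, gb_one, gb_repr]
  simp [Zsqrtd.norm_def]

/-- the Gaussian field -/
def KK : Type := FractionRing GaussianInt

instance : Field KK := inferInstanceAs (Field (FractionRing GaussianInt))
instance : Algebra GaussianInt KK :=
  inferInstanceAs (Algebra GaussianInt (FractionRing GaussianInt))
instance : IsFractionRing GaussianInt KK :=
  inferInstanceAs (IsFractionRing GaussianInt (FractionRing GaussianInt))
instance : CharZero KK := charZero_of_injective_algebraMap (IsFractionRing.injective GaussianInt KK)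

theorem gfin : Module.Finite ℤ GaussianInt := Module.Finite.of_basis gb

instance : NumberField KK := by
  classical
  have := gfin
  have h : Module.Finite ℚ KK := by
    refine ⟨⟨{1, algebraMap GaussianInt KK gI}, ?_⟩⟩
    rw [eq_top_iff]
    rintro x -
    obtain ⟨a, b, hb, rfl⟩ := IsFractionRing.div_surjective (A := GaussianInt) x
    have hb0 : b ≠ 0 := nonZeroDivisors.ne_zero hb
    have hn : (b.norm : KK) ≠ 0 := by
      exact_mod_cast (GaussianInt.norm_eq_zero.not.2 hb0)
    have hb1 : algebraMap GaussianInt KK b ≠ 0 := by simpa using hb0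
    have h1 : algebraMap GaussianInt KK b * algebraMap GaussianInt KK (star b) = b.norm := by
      rw [← map_mul, ← Zsqrtd.norm_eq_mul_conj, map_intCast]
    have h2 : algebraMap GaussianInt KK (a * star b) =
        (a * star b).re + (a * star b).im * algebraMap GaussianInt KK gI := by
      conv_lhs => rw [← gi_self (a * star b), gi_map]
      rfl
    rw [Finset.coe_pair, Submodule.mem_span_pair]
    refine ⟨(a * star b).re / b.norm, (a * star b).im / b.norm, ?_⟩
    rw [Algebra.smul_def, Algebra.smul_def, map_div₀, map_div₀]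
    simp only [map_intCast]
    rw [eq_div_iff hb1]
    rw [map_mul] at h2
    field_simp
    linear_combination (-algebraMap GaussianInt KK b) * h2 + algebraMap GaussianInt KK a * h1
  exact ⟨⟩

/-- the ring of integers of the Gaussian field -/
def eK : 𝓞 KK ≃+* GaussianInt :=
  haveI := gfin
  RingOfIntegers.equiv GaussianInt

theorem eK_coe (z : GaussianInt) : ((eK.symm z : 𝓞 KK) : KK) = algebraMap GaussianInt KK z := by
  haveI := gfin
  exact IsIntegralClosure.algebraMap_equiv ℤ GaussianInt KK (𝓞 KK) z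

theorem KK_real : IsEmpty (KK →+* ℝ) := by
  refine ⟨fun φ => ?_⟩
  have h : φ (algebraMap GaussianInt KK gI) ^ 2 = -1 := by
    rw [← map_pow, ← map_pow, gI_sq]; simp
  nlinarith [sq_nonneg (φ (algebraMap GaussianInt KK gI))]

theorem absNorm_eK (z : GaussianInt) :
    Ideal.absNorm (Ideal.span {eK.symm z}) = z.norm.natAbs := by
  rw [Ideal.absNorm_span_singleton, ← gnorm]
  congr 1
  exact Algebra.norm_eq_of_algEquiv (R := ℤ) eK.symm.toIntAlgEquiv z

variable {i : 𝓞 Qb}

theorem coe_sq (hi : i ^ 2 = -1) : (i : Qb) ^ 2 = -1 := by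
  have := congrArg (fun x : 𝓞 Qb => (x : Qb)) hi
  simpa using this

/-- the embedding of the Gaussian field -/
def jK (hi : i ^ 2 = -1) : KK →+* Qb :=
  IsFractionRing.lift (giH_inj (i : Qb) (coe_sq hi))

theorem jK_alg (hi : i ^ 2 = -1) (z : GaussianInt) :
    jK hi (algebraMap GaussianInt KK z) = gi (i : Qb) z := by
  rw [jK, IsFractionRing.lift_algebraMap]; rfl

theorem gi_coe (z : GaussianInt) : ((gi i z : 𝓞 Qb) : Qb) = gi (i : Qb) z :=
  gi_map (algebraMap (𝓞 Qb) Qb) i z

theorem jK_int (hi : i ^ 2 = -1) (z : GaussianInt) :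
    RingOfIntegers.mapRingHom (jK hi) (eK.symm z) = gi i z := by
  ext
  rw [gi_coe, ← jK_alg hi, ← eK_coe]
  rfl

theorem gi_fix {g : GQ} (h : g i = i) (z : GaussianInt) : g (gi (i : Qb) z) = gi (i : Qb) z := by
  simp [gi, h]

theorem mem_GK (hi : i ^ 2 = -1) (g : GQ) : g ∈ GK (jK hi) ↔ g i = i := by
  constructor
  · intro h
    have := h (algebraMap GaussianInt KK gI)
    rwa [jK_alg, gi_gI] at this
  · intro h x
    obtain ⟨a, b, hb, rfl⟩ := IsFractionRing.div_surjective (A := GaussianInt) x
    rw [map_div₀, map_div₀, jK_alg, jK_alg, gi_fix h, gi_fix h]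

theorem mem_below (hi : i ^ 2 = -1) (P : Ideal (𝓞 Qb)) (z : GaussianInt) :
    eK.symm z ∈ below (jK hi) P ↔ gi i z ∈ P := by
  rw [below, Ideal.mem_comap, jK_int]

/-- the place of a Gaussian prime -/
def vP {π : GaussianInt} (h : Prime π) : HeightOneSpectrum (𝓞 KK) :=
  ⟨Ideal.span {eK.symm π},
    (Ideal.span_singleton_prime (by simpa using h.ne_zero)).2 ((MulEquiv.prime_iff eK.symm).2 h),
    by simpa using h.ne_zero⟩

theorem mem_vP {π : GaussianInt} (h : Prime π) (z : GaussianInt) :
    eK.symm z ∈ (vP h).asIdeal ↔ π ∣ z := by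
  show eK.symm z ∈ Ideal.span {eK.symm π} ↔ _
  rw [Ideal.mem_span_singleton, map_dvd_iff]

theorem exists_vP (v : HeightOneSpectrum (𝓞 KK)) : ∃ (π : GaussianInt) (h : Prime π), v = vP h := by
  have hp : IsPrincipalIdealRing (𝓞 KK) :=
    IsPrincipalIdealRing.of_surjective eK.symm.toRingHom eK.symm.surjective
  obtain ⟨x, hx⟩ := (IsPrincipalIdealRing.principal v.asIdeal).principal
  have hx' : v.asIdeal = Ideal.span {x} := hx
  have hx0 : x ≠ 0 := by
    rintro rfl
    exact v.ne_bot (by simpa using hx')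
  have h1 : Prime x := (Ideal.span_singleton_prime hx0).1 (hx' ▸ v.isPrime)
  refine ⟨eK x, (MulEquiv.prime_iff eK).2 h1, HeightOneSpectrum.ext ?_⟩
  show v.asIdeal = Ideal.span {eK.symm (eK x)}
  rw [RingEquiv.symm_apply_apply, hx']

theorem below_eq (hi : i ^ 2 = -1) {π : GaussianInt} (h : Prime π) {P : Ideal (𝓞 Qb)}
    (hP : P.IsPrime) (hm : gi i π ∈ P) : below (jK hi) P = (vP h).asIdeal := by
  have h1 : (below (jK hi) P).IsPrime := Ideal.IsPrime.comap _
  refine ((vP h).isMaximal.eq_of_le h1.ne_top ?_).symm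
  show Ideal.span {eK.symm π} ≤ _
  rw [Ideal.span_singleton_le_iff_mem, mem_below]
  exact hm

theorem frI_iff (hi : i ^ 2 = -1) {π : GaussianInt} (h : Prime π) (P : Ideal (𝓞 Qb))
    (g : GK (jK hi)) : FrI (jK hi) (vP h) P g ↔ FrG i π P g := by
  have hn : Ideal.absNorm (vP h).asIdeal = π.norm.natAbs := absNorm_eK π
  constructor
  · rintro ⟨h1, h2, h3⟩
    refine ⟨h1, ?_, (mem_GK hi _).1 g.2, by rwa [hn] at h3⟩
    rw [← mem_below hi, h2, mem_vP]
  · rintro ⟨h1, h2, -, h4⟩
    exact ⟨h1, below_eq hi h h1 h2, by rwa [hn]⟩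

theorem exists_frG (hi : i ^ 2 = -1) {π : GaussianInt} (h : Prime π) : ∃ P g, FrG i π P g := by
  obtain ⟨P, g, hg⟩ := H651.exists_frI (jK hi) (vP h)
  exact ⟨P, g, (frI_iff hi h P g).1 hg⟩

open Classical in
theorem ordv_prime {π : GaussianInt} (h : Prime π) (v : HeightOneSpectrum (𝓞 KK)) :
    ordv v ((eK.symm π : 𝓞 KK) : KK) = if v = vP h then 1 else 0 := by
  split_ifs with hv
  · subst hv
    refine H269.ordv_eq_one _ ((mem_vP h π).2 dvd_rfl) fun h2 => ?_
    have h3 : eK.symm π ∈ Ideal.span {eK.symm (π ^ 2)} := by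
      rw [map_pow, ← Ideal.span_singleton_pow]; exact h2
    rw [Ideal.mem_span_singleton, map_dvd_iff] at h3
    obtain ⟨c, hc⟩ := h3
    have h4 : π * (π * c) = π * 1 := by rw [mul_one]; linear_combination -hc
    exact h.not_unit (IsUnit.of_mul_eq_one _ (mul_left_cancel₀ h.ne_zero h4))
  · refine H269.ordv_eq_zero _ fun h2 => hv (HeightOneSpectrum.ext ?_)
    refine ((vP h).isMaximal.eq_of_le v.isPrime.ne_top ?_).symm
    show Ideal.span {eK.symm π} ≤ _
    rwa [Ideal.span_singleton_le_iff_mem]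

end Vale.Agent.P027M.F
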