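import Vale.Agent.P027M.F.ChiDefs

/-!
# P027, route M, block F8 and F.pts: the arithmetic data and the Kummer functions of `E[3]`
-/

set_option linter.all false

noncomputable section

namespace Vale.Agent.P027M.F

/-- the arithmetic data of a standard parameter: `c = N(β) z ^ 4`, `m` is the radical of `β` -/
structure Dat (g : ℚ) where
  β : GaussianInt
  m : GaussianInt
  z : ℚ
  hz : z ≠ 0
  hc : c3 g = (β.norm : ℚ) * z ^ 4
  normm : m.norm = (7 * 19 * Vis g : ℕ)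
  m_dvd : m ∣ β
  dvd_m : β ∣ m ^ 3
  mod8 : β.norm % 8 = 1
  cop2 : IsCoprime m 2
  cop3 : IsCoprime m 3
  visp : ∀ p ∈ visSet g, p.Prime ∧ 3 < p ∧ (p % 8 = 1 ∨ p = 7 ∨ p = 19)
  vis1 : ∀ p ∈ visSet g, p % 8 = 1 → ∃ (π β' : GaussianInt) (e : ℕ), π.norm = p ∧ 1 ≤ e ∧ e ≤ 3 ∧
    β = π ^ e * β' ∧ ¬ π ∣ β' ∧ ¬ star π ∣ β ∧ padicValInt p β.norm = e
  vis2 : ∀ p : ℕ, p = 7 ∨ p = 19 → p ∈ visSet g ∧ padicValInt p β.norm = 2 ∧
    ∃ β' : GaussianInt, β = p * β' ∧ ¬ (p : GaussianInt) ∣ β'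
  hg : g ≠ 0
  hp1 : g + 1 ≠ 0
  hm3 : 3 - g ≠ 0
  hm1 : g - 1 ≠ 0
  hp3 : g + 3 ≠ 0

/-- row ARITH -/
def ARITH : Prop := ∀ g : ℚ, Std g → Nonempty (Dat g)

section

variable {k F : Type*} [Field k] [Field F] [Algebra k F]

/-- the slope of the tangent at the point `p` of `y^2 = x^3 - D x` -/
def tg (D : k) (p : k × k) : k := (3 * p.1 ^ 2 - D) / (2 * p.2)

/-- the line through `p` with slope `l`, as a function of the generic point `(N, Y)` -/
def ln (N Y : F) (l : k) (p : k × k) : F :=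
  Y - algebraMap k F p.2 - algebraMap k F l * (N - algebraMap k F p.1)

/-- the tangent at `p` : its divisor is `3 (p) - 3 (∞)` -/
def hP (D : k) (N Y : F) (p : k × k) : F := ln N Y (tg D p) p

end

/-- row PTA: the two identities -/
def PTA : Prop := ∀ (k F : Type) [Field k] [Field F] [Algebra k F] (i D : k) (N Y : F)
  (p : k × k), (6 : k) ≠ 0 → i ^ 2 = -1 → D ≠ 0 → Pt D p →
  Y ^ 2 = N ^ 3 - algebraMap k F D * N →
  hP D N Y p * hP D N Y (p.1, -p.2) = (N - algebraMap k F p.1) ^ 3 ∧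
  hP D (-N) (algebraMap k F i * Y) p = algebraMap k F i * hP D N Y (-p.1, -i * p.2) ∧
  hP D N Y p * hP D N Y (-p.1, i * p.2) * (N - algebraMap k F (mu i p).1) ^ 3 =
    ln N Y (sl i p) p ^ 3 * hP D N Y (mu i p)

/-- row PTC: the tangent is not a cube in the function field of the curve -/
def PTC : Prop := ∀ (k F : Type) [Field k] [Field F] [Algebra k F] [IsAlgClosed k] (D : k)
  (N Y u : F) (p : k × k), (6 : k) ≠ 0 → D ≠ 0 → Pt D p → Transcendental k N →
  Y ^ 2 = N ^ 3 - algebraMap k F D * N → u ∈ IntermediateField.adjoin k ({N, Y} : Set F) →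
  u ^ 3 ≠ hP D N Y p

end Vale.Agent.P027M.F
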