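import Vale.Agent.P027M.F.Sub0
import Vale.Agent.P027M.F.ArDefs
import Vale.Agent.P027M.K.TT
import Vale.Agent.P027M.O
import Vale.Agent.P027M.TW.Glue
import Vale.Agent.P027M.D.Atlas
import Vale.Agent.P027M.B.AJ

/-! # P027 route M, block F: the data, the model, the output `GalA` and the rows
(paper: `notes/P027/F.md`) -/

set_option linter.all false

noncomputable section

namespace Vale.Agent.P027M.F

open NumberField Polynomial IntermediateField Vale.Agent.P022 Vale.Agent.P019P P025H816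
  _root_.P027M.K

namespace Par

variable {k : Type} [Field k] [IsAlgClosed k] (P : Par k)

/-- `τ` as a semilinear automorphism -/
def sT : SL k P.FF := ⟨P.tau, 1, P.tau_c⟩
/-- `ρ` as a semilinear automorphism -/
def sR : SL k P.FF := ⟨P.rho, 1, P.rho_c⟩
/-- `ι` as a semilinear automorphism -/
def sI : SL k P.FF := ⟨P.iota, 1, P.iota_c⟩

/-- the Tate module of the Galois closure -/
abbrev H : Type := TT 3 k P.FF

/-- `τ` on the Tate module -/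
def aT : P.H ≃ₗ[ℤ_[3]] P.H := act 3 k P.FF P.sT
/-- `ρ` on the Tate module -/
def aR : P.H ≃ₗ[ℤ_[3]] P.H := act 3 k P.FF P.sR
/-- `ι` on the Tate module -/
def aI : P.H ≃ₗ[ℤ_[3]] P.H := act 3 k P.FF P.sI

/-- a basis over `O3` of the part `ι ^ 2 = -1`, `1 + ρ + ρ ^ 2 = 0`, adapted to `τ` -/
structure Bas (emb : (Fin 2 → O3) →ₗ[ℤ_[3]] P.H) : Prop where
  inj : Function.Injective emb
  rng : ∀ x, (∃ v, emb v = x) ↔ P.aI (P.aI x) = -x ∧ x + P.aR x + P.aR (P.aR x) = 0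
  mi : ∀ v, emb ((iO : O3) • v) = P.aI (emb v)
  mw : ∀ v, emb ((wO : O3) • v) = P.aI (P.aR (emb v) - P.aR (P.aR (emb v)))
  tau : ∀ v, ∃ u, P.aT (emb v) = emb (![-v 0, v 1] + (wO : O3) • u)

end Par

/-- the level -/
def lev (g : ℚ) : ℕ := 2 ^ 16 * (7 * 19 * Vis g)

/-- **the configuration**: arithmetic data, the family over `Qb`, the descent data -/
structure Cfg (g : ℚ) where
  d : Dat g
  i : 𝓞 Qb
  P : Par Qb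
  T : Tw P
  s : GQ →* T.Sig
  hi : i ^ 2 = -1
  P_i : P.i = i
  P_g : P.g = g
  P_D : P.D = gi (i : Qb) (d.β ^ 3)
  hs : ∀ (σ : GQ) (x : Qb), (s σ : RingAut Qb) x = σ x

namespace Cfg

variable {g : ℚ} (X : Cfg g)

/-- the integer whose fourth root cuts out `χ / χ ^ c` -/
def c : ℤ := -3 * (X.d.β ^ 3).norm

/-- the twisted Galois action on `FF` -/
def r : GQ →* RingAut X.P.FF := X.T.rr.comp X.s

theorem r_c (σ : GQ) (a : Qb) : X.r σ (X.P.ι a) = X.P.ι (σ a) := by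
  rw [← X.hs]; exact Tw.rr_c _ a

/-- the twisted Galois action, in `SL` -/
def R : GQ →* SL Qb X.P.FF := X.r.codRestrict _ fun σ => ⟨σ.toRingEquiv, X.r_c σ⟩

theorem fx {σ : GQ} (h : σ (X.i : Qb) = X.i) : X.T.Fx (X.s σ) :=
  Tw.fx_of (by rw [X.hs, X.P_i, h])

theorem sw {σ : GQ} (h : σ (X.i : Qb) ≠ X.i) : X.T.Sw (X.s σ) :=
  Tw.sw_of (by rwa [X.hs, X.P_i])

/-- the action on the curve `C` (meaningful on the stabiliser of `i`) -/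
def rC (σ : GQ) : X.P.FC ≃+* X.P.FC := X.P.res X.P.FC (X.r σ)

theorem rC_coe {σ : GQ} (h : σ (X.i : Qb) = X.i) (z : X.P.FC) :
    (X.rC σ z : X.P.FF) = X.r σ z := X.P.res_coe (X.P.stab_FC (Tw.rr_tau_fx (X.fx h))) z

theorem rC_m {σ : GQ} (h : σ (X.i : Qb) = X.i) : X.rC σ X.P.mC = X.P.mC :=
  Subtype.ext ((X.rC_coe h _).trans (Tw.rr_M1 (X.fx h)))

theorem rC_w {σ : GQ} (h : σ (X.i : Qb) = X.i) : X.rC σ X.P.wC = X.P.wC :=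
  Subtype.ext ((X.rC_coe h _).trans (Tw.rr_W (X.fx h)))

theorem rC_semi {I : Subgroup GQ} (h : ∀ σ ∈ I, σ (X.i : Qb) = X.i) : D.Semi I X.rC :=
  fun σ hσ a => Subtype.ext ((X.rC_coe (h σ hσ) _).trans (X.r_c σ a))

end Cfg

/-- **the model**: `ρ` is the matrix of the twisted action in an adapted basis -/
structure Mod {g : ℚ} (X : Cfg g) (ρ : GQ →* TW.M2 O3)
    (emb : (Fin 2 → O3) →ₗ[ℤ_[3]] X.P.H) : Prop where
  bas : X.P.Bas emb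
  act : ∀ σ v, emb ((ρ σ).mulVec v) = act 3 Qb X.P.FF (X.R σ) (emb v)

/-- the representation modulo `3 ^ j` on vectors -/
def vec (ρ : GQ →* TW.M2 O3) (j : ℕ) (σ : GQ) (v : Fin 2 → La j) : Fin 2 → La j :=
  ((ρ σ).map (toLa j)).mulVec v

/-- open kernel modulo `3 ^ j` -/
def Opn (ρ : GQ →* TW.M2 O3) : Prop :=
  ∀ j, ∃ U : Subgroup GQ, IsOpen (U : Set GQ) ∧ ∀ u ∈ U, (ρ u).map (toLa j) = 1

/-- residually diagonal on the stabiliser of `i`, antidiagonal outside -/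
def Shp (i : 𝓞 Qb) (ρ : GQ →* TW.M2 O3) : Prop :=
  (∀ σ : GQ, σ (i : Qb) = i → res3 (ρ σ 0 1) = 0 ∧ res3 (ρ σ 1 0) = 0) ∧
    ∀ σ : GQ, σ (i : Qb) ≠ i → res3 (ρ σ 0 0) = 0 ∧ res3 (ρ σ 1 1) = 0

section

variable {g : ℚ} (X : Cfg g) (ρ : GQ →* TW.M2 O3)

/-- what acts trivially on the Kummer classes of `C` acts trivially -/
def Lnk : Prop := ∀ I : Subgroup GQ, (∀ σ ∈ I, σ (X.i : Qb) = X.i) →
  (∀ n, D.Triv I X.rC (3 ^ n)) → ∀ σ ∈ I, ρ σ = 1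

/-- flatness comes from `C` -/
def Flt : Prop := ∀ (O : ValuationSubring Qb) (I : Subgroup GQ), (∀ σ ∈ I, σ (X.i : Qb) = X.i) →
  (∀ n, D.FlK O I X.rC (3 ^ n)) → ∀ j, D.Fl O I (vec ρ j)

/-- the determinant is the cyclotomic character up to a fourth root of unity -/
def Det4 : Prop := ∀ σ : GQ,
  (ρ σ).det ^ 4 = algebraMap ℤ_[3] O3 (cyc0 3 Qb σ.toRingEquiv : ℤ_[3]) ^ 4

/-- the first residual character is the character on the points of order three -/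
def Chi : Prop := ∀ θ, IsChi X.i (X.d.β ^ 3) θ → ∀ σ : GQ, σ (X.i : Qb) = X.i →
  res3 (ρ σ 0 0) = (1 - i9) ^ (θ σ).val

/-- the geometric properties of `ρ` -/
structure Geo : Prop where
  opn : Opn ρ
  lnk : Lnk X ρ
  flt : Flt X ρ
  det4 : Det4 ρ
  shp : Shp X.i ρ
  chi : Chi X ρ

/-- the input from block D -/
structure DOut : Prop where
  unr : ∀ (l n : ℕ) (P : Ideal (𝓞 Qb)), GoodP (lev g) l → P.IsPrime → (l : 𝓞 Qb) ∈ P → ¬ l ∣ n →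
    D.Triv (D.inr P) X.rC n
  vis : ∀ (l n : ℕ) (P : Ideal (𝓞 Qb)) (δ : Qb), l.Prime → l % 8 = 1 → l ∣ lev g → P.IsPrime →
    (l : 𝓞 Qb) ∈ P → ¬ l ∣ n → δ ^ 4 = l → D.Triv (D.inr P ⊓ MulAction.stabilizer GQ δ) X.rC n
  flat : ∀ (P : Ideal (𝓞 Qb)) (O : ValuationSubring Qb), P.IsPrime → (3 : 𝓞 Qb) ∈ P →
    D.Over P O → ∀ n, D.FlK O (D.inr P) X.rC (3 ^ n)

end

/-- the finite part `ξ`, of modulus `M`, of a Hecke character of type `(1, 0)`, and the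
nebentypus `ε` of its theta series -/
structure Hk (N : ℕ) (ε : ZMod N →* GaussianInt) (M : GaussianInt)
    (ξ : GaussianInt →* GaussianInt) : Prop where
  lev : (N : ℤ) = 4 * M.norm
  pos : 0 < N
  per : ∀ a b, M ∣ a - b → ξ a = ξ b
  four : ∀ a, IsCoprime a M → ξ a ^ 4 = 1
  zero : ∀ a, ¬ IsCoprime a M → ξ a = 0
  ii : ξ gI = gI
  two : (128 : GaussianInt) ∣ M
  three : ¬ 3 ∣ N
  eps : ∀ n : ℕ, ε n = (ZMod.χ₄ n : ℤ) * star (ξ n)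
  eps4 : ∀ u : (ZMod N)ˣ, ε u ^ 4 = 1
  even : ε (-1) = 1

/-- the residual traces -/
structure ResTr (N : ℕ) (ξ : GaussianInt →* GaussianInt) (a : ℕ → O3) : Prop where
  spl : ∀ (l : ℕ) (π : GaussianInt), GoodP N l → π.norm = l →
    res3 (a l) = gi i9 (π * star (ξ π) + star π * star (ξ (star π)))
  ine : ∀ l, GoodP N l → l % 4 = 3 → res3 (a l) = 0

/-- the input of block S -/
structure SIn (i : 𝓞 Qb) (N : ℕ) (c : ℤ) (ρ : GQ →* TW.M2 O3) : Prop where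
  neg : c < 0
  d3 : 3 ∣ c
  d9 : ¬ 9 ∣ c
  m8 : c % 8 = 5
  val : ∀ l : ℕ, l.Prime → 3 < l → l ∣ N → ¬ 4 ∣ padicValInt l c ∧
    (l % 12 = 7 ∨ (l % 8 = 1 ∧ ¬ l ^ 2 ∣ N))
  rel : ∃ b : Qb, b ^ 4 = c ∧ ∀ (σ : GQ) (e : ℕ), σ (i : Qb) = i → σ b = (i : Qb) ^ e * b →
    res3 (ρ σ 0 0) = i9 ^ e * res3 (ρ σ 1 1)

/-- unramified at the good primes -/
def UnrA (N : ℕ) (ρ : GQ →* TW.M2 O3) : Prop :=
  ∀ (l : ℕ) (P : Ideal (𝓞 Qb)), GoodP N l → P.IsPrime → (l : 𝓞 Qb) ∈ P → ∀ z, S.Inert P z → ρ z = 1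

/-- the determinant at Frobenius elements -/
def DetF (N : ℕ) (ε : ZMod N →* GaussianInt) (ρ : GQ →* TW.M2 O3) : Prop :=
  ∀ (l : ℕ) (φ : GQ), GoodP N l → IsFrob l φ → (ρ φ).det = (l : O3) * gi (iO : O3) (ε l)

/-- the determinant at all elements -/
def DetG (N : ℕ) (ε : ZMod N →* GaussianInt) (ρ : GQ →* TW.M2 O3) : Prop :=
  ∀ (σ : GQ) (n : ℕ), (∀ ζ : Qb, ζ ^ N = 1 → σ ζ = ζ ^ n) →
    (ρ σ).det = algebraMap ℤ_[3] O3 (cyc0 3 Qb σ.toRingEquiv : ℤ_[3]) * gi (iO : O3) (ε n)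

/-- inertia at the visible primes -/
def VisA (N : ℕ) (ρ : GQ →* TW.M2 O3) : Prop :=
  ∀ (l : ℕ) (P : Ideal (𝓞 Qb)), l.Prime → l % 8 = 1 → l ∣ N → P.IsPrime → (l : 𝓞 Qb) ∈ P →
    ∀ z, S.Inert P z → (ρ z).trace = 1 + (ρ z).det ∧ ((ρ z).det = 1 → ρ z = 1)

/-- **the output of block F** -/
structure GalA (i : 𝓞 Qb) (N : ℕ) (ε : ZMod N →* GaussianInt) (M : GaussianInt)
    (ξ : GaussianInt →* GaussianInt) (c : ℤ) (a : ℕ → O3) (ρ : GQ →* TW.M2 O3) : Prop where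
  hi : i ^ 2 = -1
  hk : Hk N ε M ξ
  opn : Opn ρ
  unr : UnrA N ρ
  tr : ∀ (l : ℕ) (φ : GQ), GoodP N l → IsFrob l φ → (ρ φ).trace = a l
  det : DetF N ε ρ
  detg : DetG N ε ρ
  res : ResTr N ξ a
  resid : ∃ c0, TW.Resid res3 ρ c0
  shp : Shp i ρ
  sin : SIn i N c ρ
  vis : VisA N ρ
  flat : ∀ (P : Ideal (𝓞 Qb)) (O : ValuationSubring Qb), P.IsPrime → (3 : 𝓞 Qb) ∈ P →
    D.Over P O → ∀ j, D.Fl O (D.inr P) (vec ρ j)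

/-- **the top statement of block F** -/
def GALA : Prop := ∀ (g : ℚ) (X : Cfg g), Std g → ∃ (ρ : GQ →* TW.M2 O3)
  (emb : (Fin 2 → O3) →ₗ[ℤ_[3]] X.P.H) (ε : ZMod (lev g) →* GaussianInt) (M : GaussianInt)
  (ξ : GaussianInt →* GaussianInt) (a : ℕ → O3), Mod X ρ emb ∧ GalA X.i (lev g) ε M ξ X.c a ρ

/-! ### rows: arithmetic and fields -/

/-- [F.CFG] -/
def CFG : Prop := ∀ g : ℚ, Std g → Nonempty (Cfg g)

/-- [D.OUT] -/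
def DOUT : Prop := ∀ (g : ℚ) (X : Cfg g), Std g → DOut X

/-- [F.SUB] degrees and Galois groups -/
def SUB : Prop := ∀ (k : Type) [Field k] [IsAlgClosed k] (P : Par k),
  (IsGalois P.FC P.FF ∧ IsGalois P.FE P.FF ∧ IsGalois P.FM P.FF ∧ IsGalois P.FN P.FF) ∧
  (Module.finrank P.FC P.FF = 2 ∧ Module.finrank P.FE P.FF = 6 ∧ Module.finrank P.FM P.FF = 4 ∧
    Module.finrank P.FN P.FF = 12) ∧
  (∀ σ : P.FF ≃ₐ[P.FC] P.FF, σ.toRingEquiv = 1 ∨ σ.toRingEquiv = P.tau) ∧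
  (∀ σ : P.FF ≃ₐ[P.FE] P.FF, ∃ (b : Fin 2) (c : Fin 3),
    σ.toRingEquiv = P.tau ^ (b : ℕ) * P.rho ^ (c : ℕ)) ∧
  (∀ σ : P.FF ≃ₐ[P.FM] P.FF, ∃ a b : Fin 2,
    σ.toRingEquiv = (P.iota * P.iota) ^ (a : ℕ) * P.tau ^ (b : ℕ)) ∧
  (∀ σ : P.FF ≃ₐ[P.FN] P.FF, ∃ (a b : Fin 2) (c : Fin 3),
    σ.toRingEquiv = (P.iota * P.iota) ^ (a : ℕ) * P.tau ^ (b : ℕ) * P.rho ^ (c : ℕ)) ∧
  (∀ (a a' b b' : Fin 2) (c c' : Fin 3),
    (P.iota * P.iota) ^ (a : ℕ) * P.tau ^ (b : ℕ) * P.rho ^ (c : ℕ) =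
      (P.iota * P.iota) ^ (a' : ℕ) * P.tau ^ (b' : ℕ) * P.rho ^ (c' : ℕ) →
    a = a' ∧ b = b' ∧ c = c') ∧
  k⟮P.mM⟯ = ⊤ ∧ k⟮P.nN⟯ = ⊤ ∧ Module.finrank k⟮P.mC⟯ P.FC = 2 ∧ Module.finrank k⟮P.nE⟯ P.FE = 2

/-- [F.HYP] -/
def HYP : Prop := ∀ (k : Type) [Field k] [IsAlgClosed k] (P : Par k),
  B.Hyp P.fP P.mC P.wC ∧ Module.finrank k⟮P.mC⟯ P.FC = 2

/-- [F.GEN] -/
def GENS : Prop := ∀ (k : Type) [Field k] [IsAlgClosed k] (P : Par k),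
  gen k P.FC = 3 ∧ gen k P.FE = 1 ∧ gen k P.FM = 0 ∧ gen k P.FN = 0

/-- [F.OPEN] -/
def OPEN : Prop := ∀ (g : ℚ) (X : Cfg g) (f : X.P.FF), IsOpen {σ : GQ | X.r σ f = f}

/-- [F.PTSE] the classes of the points of order three -/
def PTSE : Prop := ∀ (k : Type) [Field k] [IsAlgClosed k] (P : Par k),
  ∃ pt : k × k → Pc k P.FE, ∀ p, Pt P.D p → pt p ≠ 0 ∧ 3 • pt p = 0 ∧
    (∀ θ : SL k P.FE, res0 θ = 1 → (θ : P.FE ≃+* P.FE) P.nE = -P.nE →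
      (θ : P.FE ≃+* P.FE) P.yE = algebraMap k P.FE P.i * P.yE →
      pt (mu P.i p) = pt p - actP θ (pt p)) ∧
    ∀ θ : SL k P.FE, (θ : P.FE ≃+* P.FE) P.nE = P.nE → (θ : P.FE ≃+* P.FE) P.yE = P.yE →
      actP θ (pt p) = pt (res0 θ p.1, res0 θ p.2)

/-! ### rows: the model -/

/-- [F.BAS] -/
def BAS : Prop := ∀ (k : Type) [Field k] [IsAlgClosed k] (P : Par k), ∃ emb, P.Bas emb

/-- [F.MOD] from `BAS` -/
def MOD : Prop := ∀ (g : ℚ) (X : Cfg g), ∃ ρ emb, Mod X ρ emb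

/-- [F.OPN] from `OPEN` -/
def OPN : Prop := ∀ (g : ℚ) (X : Cfg g) ρ emb, Mod X ρ emb → Opn ρ

/-- [F.LNK] from `SUB` -/
def LNK : Prop := ∀ (g : ℚ) (X : Cfg g) ρ emb, Mod X ρ emb → Lnk X ρ

/-- [F.FLT] from `SUB`, `D.Spec_FLM` -/
def FLT : Prop := ∀ (g : ℚ) (X : Cfg g) ρ emb, Mod X ρ emb → Flt X ρ

/-- [F.SHP] -/
def SHP : Prop := ∀ (g : ℚ) (X : Cfg g) ρ emb, Mod X ρ emb → Shp X.i ρ

/-- [F.CHI1] from `SUB`, `PTSE`, `ALG`, `SHP` -/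
def CHI1 : Prop := ∀ (g : ℚ) (X : Cfg g) ρ emb, Mod X ρ emb → Chi X ρ

/-- [F.DET4] from `SHP`, `CHI1` and the rows on `θ` -/
def DET4 : Prop := ∀ (g : ℚ) (X : Cfg g) ρ emb, Mod X ρ emb → Det4 ρ

/-! ### rows: the glue -/

/-- [F.UNRA] -/
def UNRA : Prop := ∀ (g : ℚ) (X : Cfg g) ρ, Geo X ρ → DOut X → UnrA (lev g) ρ ∧
  ∀ (P : Ideal (𝓞 Qb)) (O : ValuationSubring Qb), P.IsPrime → (3 : 𝓞 Qb) ∈ P →
    D.Over P O → ∀ j, D.Fl O (D.inr P) (vec ρ j)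

/-- [F.TRA] all Frobenius elements at a good prime have the same trace -/
def TRA : Prop := ∀ (N : ℕ) (ρ : GQ →* TW.M2 O3), UnrA N ρ →
  ∃ a : ℕ → O3, ∀ (l : ℕ) (φ : GQ), GoodP N l → IsFrob l φ → (ρ φ).trace = a l

/-- [F.RES] residual traces and determinants; from `CHI`, `XI`, `RECG` -/
def RES : Prop := ∀ (g : ℚ) (X : Cfg g) (ρ : GQ →* TW.M2 O3) (a : ℕ → O3), Shp X.i ρ → Chi X ρ →
  (∀ (l : ℕ) (φ : GQ), GoodP (lev g) l → IsFrob l φ → (ρ φ).trace = a l) →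
  ∃ (ε : ZMod (lev g) →* GaussianInt) (M : GaussianInt) (ξ : GaussianInt →* GaussianInt),
    Hk (lev g) ε M ξ ∧ ResTr (lev g) ξ a ∧
    ∀ (l : ℕ) (φ : GQ), GoodP (lev g) l → IsFrob l φ → res3 (ρ φ).det = (l : k9) * gi i9 (ε l)

/-- [F.DET] from `TW.Spec_DENS` -/
def DET : Prop := ∀ (N : ℕ) (ε : ZMod N →* GaussianInt) (M : GaussianInt)
  (ξ : GaussianInt →* GaussianInt) (ρ : GQ →* TW.M2 O3), Hk N ε M ξ → Opn ρ → Det4 ρ →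
  (∀ (l : ℕ) (φ : GQ), GoodP N l → IsFrob l φ → res3 (ρ φ).det = (l : k9) * gi i9 (ε l)) →
  DetF N ε ρ ∧ DetG N ε ρ

/-- [F.SIN] from `CHI`, `TWI` -/
def SIN : Prop := ∀ (g : ℚ) (X : Cfg g) (ρ : GQ →* TW.M2 O3), Shp X.i ρ → Chi X ρ →
  SIn X.i (lev g) X.c ρ

/-- [F.RSD] -/
def RSD : Prop := ∀ (i : 𝓞 Qb) (N : ℕ) (c : ℤ) (ρ : GQ →* TW.M2 O3), i ^ 2 = -1 → Shp i ρ →
  SIn i N c ρ → ∃ c0, TW.Resid res3 ρ c0

/-- [F.VIS] from `CHI`, `TWI` -/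
def VIS : Prop := ∀ (g : ℚ) (X : Cfg g) (ρ : GQ →* TW.M2 O3), Geo X ρ → DOut X → VisA (lev g) ρ

theorem gala (h2 : DOUT) (h3 : MOD) (h4 : OPN) (h5 : LNK) (h6 : FLT) (h7 : SHP)
    (h8 : CHI1) (h9 : DET4) (k1 : UNRA) (k2 : TRA) (k3 : RES) (k4 : DET) (k5 : SIN) (k6 : RSD)
    (k7 : VIS) : GALA := by
  intro g X hg
  obtain ⟨ρ, emb, hm⟩ := h3 g X
  have G : Geo X ρ := ⟨h4 g X ρ emb hm, h5 g X ρ emb hm, h6 g X ρ emb hm, h9 g X ρ emb hm,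
    h7 g X ρ emb hm, h8 g X ρ emb hm⟩
  have Do := h2 g X hg
  obtain ⟨u, fl⟩ := k1 g X ρ G Do
  obtain ⟨a, ha⟩ := k2 _ ρ u
  obtain ⟨ε, M, ξ, hk, rt, rd⟩ := k3 g X ρ a G.shp G.chi ha
  obtain ⟨d1, d2⟩ := k4 _ ε M ξ ρ hk G.opn G.det4 rd
  have si := k5 g X ρ G.shp G.chi
  exact ⟨ρ, emb, ε, M, ξ, a, hm, X.hi, hk, G.opn, u, ha, d1, d2, rt,
    k6 _ _ _ ρ X.hi G.shp si, G.shp, si, k7 g X ρ G Do, fl⟩

end Vale.Agent.P027M.F
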