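import Vale.Agent.P027M.F.Defs

/-! # P027 route M, block F: degrees and Galois groups of `FF` over its subfields -/

set_option linter.all false

noncomputable section

namespace Vale.Agent.P027M.F

open Polynomial IntermediateField Module

namespace SubP

section gen

variable {k F : Type} [Field k] [Field F] [Algebra k F]

theorem tower (S : IntermediateField k F) (x : S) :
    finrank k⟮x⟯ S * finrank S F = finrank k⟮(x : F)⟯ F := by
  rw [finrank_mul_finrank]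
  have h : k⟮x⟯.map (IsScalarTower.toAlgHom k S F) = k⟮(x : F)⟯ := by
    rw [adjoin_map, Set.image_singleton]
    rfl
  refine Algebra.finrank_eq_of_equiv_equiv
    ((k⟮x⟯.equivMap (IsScalarTower.toAlgHom k S F)).trans (equivOfEq h)).toRingEquiv
    (RingEquiv.refl F) ?_
  ext y
  rfl

/-- an automorphism which fixes `S` -/
def toAlg (S : IntermediateField k F) (e : RingAut F) (h : ∀ z ∈ S, e z = z) : F ≃ₐ[S] F :=
  AlgEquiv.ofRingEquiv (f := e) fun z => h z z.2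

theorem card_le (S : IntermediateField k F) [FiniteDimensional S F] {I : Type} [Fintype I]
    (e : I → RingAut F) (hinj : Function.Injective e) (h : ∀ i, ∀ z ∈ S, e i z = z) :
    Fintype.card I ≤ finrank S F := by
  refine le_trans ?_ (AlgEquiv.card_le (F := S) (K := F))
  exact Fintype.card_le_of_injective (fun i => toAlg S (e i) (h i)) fun i j hij =>
    hinj (congrArg AlgEquiv.toRingEquiv hij)

theorem art (S : IntermediateField k F) [FiniteDimensional S F] {I : Type} [Fintype I]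
    (e : I → RingAut F) (hinj : Function.Injective e) (h : ∀ i, ∀ z ∈ S, e i z = z)
    (hle : finrank S F ≤ Fintype.card I) :
    IsGalois S F ∧ finrank S F = Fintype.card I ∧ ∀ σ : F ≃ₐ[S] F, ∃ i, σ.toRingEquiv = e i := by
  have h1 : Function.Injective fun i => toAlg S (e i) (h i) := fun i j hij =>
    hinj (congrArg AlgEquiv.toRingEquiv hij)
  have h2 := Fintype.card_le_of_injective _ h1
  have h3 := AlgEquiv.card_le (F := S) (K := F)
  refine ⟨IsGalois.of_card_aut_eq_finrank S F (by rw [Nat.card_eq_fintype_card]; omega),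
    by omega, fun σ => ?_⟩
  obtain ⟨i, hi⟩ := ((Fintype.bijective_iff_injective_and_card _).2 ⟨h1, by omega⟩).2 σ
  exact ⟨i, by rw [← hi]; rfl⟩

theorem art2 (S : IntermediateField k F) [FiniteDimensional S F] (x : S)
    [FiniteDimensional k⟮(x : F)⟯ F] {I : Type} [Fintype I] [Nonempty I]
    (e : I → RingAut F) (hinj : Function.Injective e) (h : ∀ i, ∀ z ∈ S, e i z = z) (d : ℕ)
    (hle : finrank k⟮(x : F)⟯ F ≤ d * Fintype.card I) (hd : d = 1 ∨ d = 2 ∧ k⟮x⟯ ≠ ⊤) :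
    (IsGalois S F ∧ finrank S F = Fintype.card I ∧ ∀ σ : F ≃ₐ[S] F, ∃ i, σ.toRingEquiv = e i) ∧
      finrank k⟮x⟯ S = d := by
  have ht := tower S x
  have hp : 0 < finrank k⟮(x : F)⟯ F := finrank_pos
  have hc := card_le S e hinj h
  have hI : 0 < Fintype.card I := Fintype.card_pos
  have h0 : finrank k⟮x⟯ S ≠ 0 := by
    intro h0
    rw [h0, zero_mul] at ht
    omega
  have h1 : d ≤ finrank k⟮x⟯ S := by
    rcases hd with rfl | ⟨rfl, hd⟩
    · omega
    · have := mt finrank_eq_one_iff_eq_top.1 hd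
      omega
  have hd0 : 0 < d := by omega
  rw [← ht] at hle
  exact ⟨art S e hinj h (Nat.le_of_mul_le_mul_left ((Nat.mul_le_mul_right _ h1).trans hle) hd0),
    le_antisymm (Nat.le_of_mul_le_mul_right ((Nat.mul_le_mul_left _ hc).trans hle) hI) h1⟩

theorem pow_fix {e : RingAut F} {z : F} (h : e z = z) (n : ℕ) : (e ^ n) z = z := by
  induction n with
  | zero => rfl
  | succ n ih => rw [pow_succ]; show (e ^ n) (e z) = z; rw [h, ih]

theorem pow_neg {e : RingAut F} {z : F} (h : e z = -z) (n : ℕ) : (e ^ n) z = (-1) ^ n * z := by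
  induction n with
  | zero => rw [pow_zero, pow_zero, one_mul]; rfl
  | succ n ih => rw [pow_succ]; show (e ^ n) (e z) = _; rw [h, map_neg, ih]; ring

theorem sign_inj (h2 : (2 : F) ≠ 0) {z : F} (hz : z ≠ 0) {a b : Fin 2}
    (h : (-1) ^ (a : ℕ) * z = (-1) ^ (b : ℕ) * z) : a = b := by
  have h1 : z ≠ -z := fun h => mul_ne_zero h2 hz (by linear_combination h)
  fin_cases a <;> fin_cases b
  · rfl
  · exact absurd (by simpa using h) h1
  · exact absurd (by simpa using h.symm) h1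
  · rfl

theorem mem_of_top (S : IntermediateField k F) (x : S) (h : k⟮x⟯ = ⊤) {y : F} (hy : y ∈ S) :
    y ∈ k⟮(x : F)⟯ := by
  have h1 : k⟮x⟯.map S.val = k⟮(x : F)⟯ := by
    rw [adjoin_map, Set.image_singleton]
    rfl
  rw [← h1, h]
  exact ⟨⟨y, hy⟩, trivial, rfl⟩

end gen

variable {k : Type} [Field k] [IsAlgClosed k] (P : Par k)

theorem le_four {K : Type} [Field K] [Algebra K P.FF] (S : IntermediateField K P.FF)
    (hk : ∀ a : k, algebraMap k P.FF a ∈ S) (hM : P.M1 ∈ S) :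
    finrank S P.FF ≤ 4 ∧ FiniteDimensional S P.FF := by
  have h4 : FiniteDimensional (RatFunc k) P.FF :=
    Module.finite_of_finrank_pos (by rw [P.finrank_FF]; norm_num)
  have h1 : ∀ p : k[X], aeval P.M1 p ∈ S := by
    intro p
    induction p using Polynomial.induction_on with
    | C u => rw [aeval_C]; exact hk u
    | add p q hp hq => rw [map_add]; exact S.add_mem hp hq
    | monomial n u ih => rw [pow_succ, ← mul_assoc, map_mul, aeval_X]; exact S.mul_mem ih hM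
  have hm : ∀ u : RatFunc k, algebraMap _ P.FF u ∈ S := by
    intro u
    rw [← RatFunc.num_div_denom u, map_div₀, P.poly_eq, P.poly_eq]
    exact S.div_mem (h1 _) (h1 _)
  letI : Algebra (RatFunc k) S := ((algebraMap (RatFunc k) P.FF).codRestrict S hm).toAlgebra
  haveI : IsScalarTower (RatFunc k) S P.FF := IsScalarTower.of_algebraMap_eq fun _ => rfl
  refine ⟨?_, Module.Finite.of_restrictScalars_finite (RatFunc k) _ _⟩
  have h2 := finrank_mul_finrank (RatFunc k) S P.FF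
  rw [P.finrank_FF] at h2
  exact Nat.le_of_dvd (by norm_num) (Dvd.intro_left _ h2)

theorem m_le : finrank k⟮P.M1⟯ P.FF ≤ 4 :=
  (le_four P _ (fun a => IntermediateField.algebraMap_mem _ a) (mem_adjoin_simple_self k _)).1

theorem n_le : finrank k⟮P.N⟯ P.FF ≤ 12 := by
  let n : k⟮P.N⟯ := AdjoinSimple.gen k P.N
  let q : k⟮P.N⟯[X] := X ^ 3 + (C (-n) * X ^ 2 + C (-algebraMap k _ (P.c * P.g0)) * X +
    C (n * algebraMap k _ P.g0))
  have hd : (C (-n) * X ^ 2 + C (-algebraMap k _ (P.c * P.g0)) * X +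
      C (n * algebraMap k _ P.g0) : k⟮P.N⟯[X]).degree < (3 : ℕ) :=
    degree_quadratic_le.trans_lt (by norm_num)
  have hmon : q.Monic := monic_X_pow_add hd
  have hdeg : q.natDegree = 3 := by
    apply natDegree_eq_of_degree_eq_some
    rw [degree_add_eq_left_of_degree_lt (by rwa [degree_X_pow]), degree_X_pow]
  have hev : aeval P.M1 q = 0 := by
    have h1 := P.N_eq
    rw [eq_div_iff (sq_sub_ne P.M1_tr' P.g0)] at h1
    have h2 : algebraMap k⟮P.N⟯ P.FF n = P.N := rfl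
    simp only [q, map_add, map_mul, map_pow, aeval_X, aeval_C, map_neg, h2,
      ← IsScalarTower.algebraMap_apply]
    linear_combination -h1
  have hint : IsIntegral k⟮P.N⟯ P.M1 := ⟨q, hmon, hev⟩
  have h3 : finrank k⟮P.N⟯ k⟮P.N⟯⟮P.M1⟯ ≤ 3 := by
    rw [adjoin.finrank hint, ← hdeg]
    exact natDegree_le_natDegree (minpoly.min _ _ hmon hev)
  have h4 := (le_four P k⟮P.N⟯⟮P.M1⟯ (fun a => by
    rw [IsScalarTower.algebraMap_apply k k⟮P.N⟯ P.FF]
    exact IntermediateField.algebraMap_mem _ _) (mem_adjoin_simple_self _ _)).1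
  rw [← finrank_mul_finrank k⟮P.N⟯ k⟮P.N⟯⟮P.M1⟯ P.FF]
  exact Nat.mul_le_mul h3 h4

/-- the twelve automorphisms -/
def au (a b : Fin 2) (c : Fin 3) : RingAut P.FF :=
  (P.iota * P.iota) ^ (a : ℕ) * P.tau ^ (b : ℕ) * P.rho ^ (c : ℕ)

theorem au_inj {a a' b b' : Fin 2} {c c' : Fin 3} (h : au P a b c = au P a' b' c') :
    a = a' ∧ b = b' ∧ c = c' := by
  have hY : ∀ a b c, au P a b c P.Y = (-1) ^ (a : ℕ) * P.Y := fun a b c => by
    rw [au, P.mul_ap, P.mul_ap, pow_fix P.rho_Y, pow_fix P.tau_Y, pow_neg P.iota2_Y]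
  have hi : (P.iota * P.iota) P.De = P.De := by
    rw [P.mul_ap, P.iota_De, map_neg, P.iota_De, neg_neg]
  have hD : ∀ a b c, au P a b c P.De = (-1) ^ (b : ℕ) * P.De := fun a b c => by
    rw [au, P.mul_ap, P.mul_ap, pow_fix P.rho_De, pow_neg P.tau_De, map_mul, map_pow, map_neg,
      map_one, pow_fix hi]
  have ha : a = a' := sign_inj P.two_ne P.Y_ne (by rw [← hY a b c, ← hY a' b' c', h])
  have hb : b = b' := sign_inj P.two_ne P.De_ne (by rw [← hD a b c, ← hD a' b' c', h])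
  subst ha hb
  refine ⟨rfl, rfl, ?_⟩
  have h1 : (P.rho ^ (c : ℕ)) P.M1 = (P.rho ^ (c' : ℕ)) P.M1 := by
    rw [mul_left_cancel (show _ * P.rho ^ (c : ℕ) = _ * P.rho ^ (c' : ℕ) from h)]
  have e1 := P.M2_ne_M3
  have e2 : P.M3 ≠ P.M1 := fun h => e1 (P.rho.injective (by rw [P.rho_M2, P.rho_M3, h]))
  have e3 : P.M1 ≠ P.M2 := fun h => e1 (by rw [← P.rho_M1, ← P.rho_M2, h])
  have v0 : (P.rho ^ 0) P.M1 = P.M1 := rfl
  have v1 : (P.rho ^ 1) P.M1 = P.M2 := by rw [pow_one, P.rho_M1]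
  have v2 : (P.rho ^ 2) P.M1 = P.M3 := by rw [pow_two, P.mul_ap, P.rho_M1, P.rho_M2]
  fin_cases c <;> fin_cases c'
  · rfl
  · exact absurd (v0.symm.trans (h1.trans v1)) e3
  · exact absurd (v0.symm.trans (h1.trans v2)) e2.symm
  · exact absurd (v1.symm.trans (h1.trans v0)) e3.symm
  · rfl
  · exact absurd (v1.symm.trans (h1.trans v2)) e1
  · exact absurd (v2.symm.trans (h1.trans v0)) e2
  · exact absurd (v2.symm.trans (h1.trans v1)) e1.symm
  · rfl

theorem au_fix {z : P.FF} (a b : Fin 2) (c : Fin 3) (ha : a = 0 ∨ P.iota (P.iota z) = z)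
    (hb : P.tau z = z) (hc : c = 0 ∨ P.rho z = z) : au P a b c z = z := by
  have h1 : (P.rho ^ (c : ℕ)) z = z := by
    rcases hc with rfl | hc
    exacts [rfl, pow_fix hc _]
  have h2 : ((P.iota * P.iota) ^ (a : ℕ)) z = z := by
    rcases ha with rfl | ha
    exacts [rfl, pow_fix ha _]
  rw [au, P.mul_ap, P.mul_ap, h1, pow_fix hb, h2]

theorem finM : FiniteDimensional k⟮P.M1⟯ P.FF := (Vale.Agent.P019P.finite_of_notMem P.M1_nc).2

theorem finN : FiniteDimensional k⟮P.N⟯ P.FF := (Vale.Agent.P019P.finite_of_notMem P.N_nc).2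

theorem Y_not : P.Y ∉ k⟮P.N⟯ := by
  intro h
  have h1 : k⟮P.N⟯ ≤ P.FN := adjoin_simple_le_iff.2 P.nN.2
  have h2 : (P.iota * P.iota) P.Y = P.Y := (P.mem_FN.1 (h1 h)).2.2
  rw [P.iota2_Y] at h2
  exact mul_ne_zero P.two_ne P.Y_ne (by linear_combination -h2)

theorem Y_not' : P.Y ∉ k⟮P.M1⟯ := by
  intro h
  have h1 : k⟮P.M1⟯ ≤ P.FM := adjoin_simple_le_iff.2 P.mM.2
  have h2 : (P.iota * P.iota) P.Y = P.Y := (P.mem_FM.1 (h1 h)).2
  rw [P.iota2_Y] at h2
  exact mul_ne_zero P.two_ne P.Y_ne (by linear_combination -h2)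

end SubP

open SubP in
theorem sub : SUB := by
  intro k _ _ P
  have i1 : FiniteDimensional k⟮(P.mC : P.FF)⟯ P.FF := finM P
  have i2 : FiniteDimensional k⟮(P.nE : P.FF)⟯ P.FF := finN P
  have i3 : FiniteDimensional k⟮(P.mM : P.FF)⟯ P.FF := finM P
  have i4 : FiniteDimensional k⟮(P.nN : P.FF)⟯ P.FF := finN P
  obtain ⟨⟨c1, c2, c3⟩, c4⟩ := art2 P.FC P.mC (fun b : Fin 2 => au P 0 b 0)
    (fun b b' h => (au_inj P h).2.1)
    (fun b z hz => au_fix P _ _ _ (Or.inl rfl) (P.mem_FC.1 hz) (Or.inl rfl)) 2 (m_le P)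
    (Or.inr ⟨rfl, fun h => Y_not' P (mem_of_top P.FC P.mC h (P.mem_FC.2 P.tau_Y))⟩)
  obtain ⟨⟨e1, e2, e3⟩, e4⟩ := art2 P.FE P.nE (fun b : Fin 2 × Fin 3 => au P 0 b.1 b.2)
    (fun b b' h => Prod.ext (au_inj P h).2.1 (au_inj P h).2.2)
    (fun b z hz => au_fix P _ _ _ (Or.inl rfl) (P.mem_FE.1 hz).1 (Or.inr (P.mem_FE.1 hz).2)) 2
    (n_le P) (Or.inr ⟨rfl, fun h => Y_not P (mem_of_top P.FE P.nE h P.yE.2)⟩)
  obtain ⟨⟨m1, m2, m3⟩, m4⟩ := art2 P.FM P.mM (fun b : Fin 2 × Fin 2 => au P b.1 b.2 0)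
    (fun b b' h => Prod.ext (au_inj P h).1 (au_inj P h).2.1)
    (fun b z hz => au_fix P _ _ _ (Or.inr (P.mem_FM.1 hz).2) (P.mem_FM.1 hz).1 (Or.inl rfl)) 1
    (m_le P) (Or.inl rfl)
  obtain ⟨⟨n1, n2, n3⟩, n4⟩ := art2 P.FN P.nN
    (fun b : Fin 2 × Fin 2 × Fin 3 => au P b.1 b.2.1 b.2.2)
    (fun b b' h => Prod.ext (au_inj P h).1 (Prod.ext (au_inj P h).2.1 (au_inj P h).2.2))
    (fun b z hz => au_fix P _ _ _ (Or.inr (P.mem_FN.1 hz).2.2) (P.mem_FN.1 hz).1
      (Or.inr (P.mem_FN.1 hz).2.1)) 1 (n_le P) (Or.inl rfl)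
  refine ⟨⟨c1, e1, m1, n1⟩, ⟨c2, e2, m2, n2⟩, fun σ => ?_, fun σ => ?_, fun σ => ?_, fun σ => ?_,
    fun a a' b b' c c' h => au_inj P h, finrank_eq_one_iff_eq_top.1 m4,
    finrank_eq_one_iff_eq_top.1 n4, c4, e4⟩
  · obtain ⟨b, hb⟩ := c3 σ
    rw [hb]
    fin_cases b
    · left; simp [au]
    · right; simp [au]
  · obtain ⟨b, hb⟩ := e3 σ
    exact ⟨b.1, b.2, by rw [hb]; simp [au]⟩
  · obtain ⟨b, hb⟩ := m3 σ
    exact ⟨b.1, b.2, by rw [hb]; simp [au]⟩
  · obtain ⟨b, hb⟩ := n3 σ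
    exact ⟨b.1, b.2.1, b.2.2, hb⟩

end Vale.Agent.P027M.F
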