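import Vale.Agent.P027M.F.Fld

/-! # P027 route M, block F: symmetric generators of `FF`, second universal property -/

namespace Vale.Agent.P027M.F

open Polynomial

variable {k : Type*} [Field k]

/-- the relations between three roots `A B C'` of the cubic and a point `(N, Y)`, `N = A + B + C'`,
of the elliptic curve; `c`, `G`, `D` are the constants `c`, `g0`, `D`. -/
structure Rel {L : Type*} [Field L] (c G D A B C' Y : L) : Prop where
  e2 : A * B + B * C' + C' * A = -(c * G)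
  e3 : A * B * C' = -(G * (A + B + C'))
  eY : Y ^ 2 = (A + B + C') ^ 3 - D * (A + B + C')

theorem sq_sub_ne {L : Type*} [Field L] {s : k →+* L} {A : L}
    (hA : ∀ p : k[X], p ≠ 0 → eval₂ s A p ≠ 0) (a : k) : A ^ 2 - s a ≠ 0 := by
  have := hA (X ^ 2 - C a) (X_pow_sub_C_ne_zero (by norm_num) a)
  rwa [eval₂_sub, eval₂_pow, eval₂_X, eval₂_C] at this

theorem ne_zero_of_tr {L : Type*} [Field L] {s : k →+* L} {A : L}
    (hA : ∀ p : k[X], p ≠ 0 → eval₂ s A p ≠ 0) : A ≠ 0 := by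
  have := hA X X_ne_zero
  rwa [eval₂_X] at this

theorem keyY {L : Type*} [Field L] {A c G g b2 d2 : L} (h1 : A ^ 2 - G ≠ 0)
    (h6 : b2 = g ^ 2 * d2) (h7 : 2 * g + d2 = 2 * c + b2) (h8 : g ^ 2 + 2 * g * d2 = c ^ 2 + 2 * b2) :
    (A * (A ^ 2 - c * G) / (A ^ 2 - G)) ^ 3 - b2 * G * (A * (A ^ 2 - c * G) / (A ^ 2 - G)) =
      A * (A ^ 2 - G) * (A ^ 2 - c * G) * (A ^ 2 - d2 * G) * (A ^ 2 - g * G) ^ 2 /
        ((A ^ 2 - G) ^ 2) ^ 2 := by
  have h : A ^ 2 * (A ^ 2 - c * G) ^ 2 - b2 * G * (A ^ 2 - G) ^ 2 =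
      (A ^ 2 - g * G) ^ 2 * (A ^ 2 - d2 * G) := by
    linear_combination (A ^ 4 * G) * h7 - A ^ 2 * G ^ 2 * h8 - G ^ 3 * h6
  field_simp
  linear_combination A * (A ^ 2 - c * G) * h

namespace Par

variable (P : Par k) [IsAlgClosed k]

/-- the constants in `FF` -/
noncomputable abbrev ι (a : k) : P.FF := algebraMap k P.FF a

/-- second root -/
noncomputable def M2 : P.FF :=
  ((1 - P.ι P.c) * P.ι P.g0 * P.M1 + P.Z) / (2 * (P.M1 ^ 2 - P.ι P.g0))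
/-- third root -/
noncomputable def M3 : P.FF :=
  ((1 - P.ι P.c) * P.ι P.g0 * P.M1 - P.Z) / (2 * (P.M1 ^ 2 - P.ι P.g0))
/-- the `y`-coordinate of the elliptic curve -/
noncomputable def Y : P.FF :=
  P.W * (P.M1 ^ 2 - P.ι (P.g * P.g0)) / (P.M1 ^ 2 - P.ι P.g0) ^ 2
/-- the `x`-coordinate of the elliptic curve -/
noncomputable def N : P.FF := P.M1 + P.M2 + P.M3
/-- the square root of the discriminant -/
noncomputable def De : P.FF := (P.M1 - P.M2) * (P.M2 - P.M3) * (P.M3 - P.M1)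

theorem M1_tr' (p : k[X]) (hp : p ≠ 0) : eval₂ (algebraMap k P.FF) P.M1 p ≠ 0 := by
  intro h
  exact hp ((injective_iff_map_eq_zero _).1 (transcendental_iff_injective.1 P.M1_tr) p h)

theorem two_ne : (2 : P.FF) ≠ 0 := by
  have := (map_ne_zero (algebraMap k P.FF)).2 P.h2
  rwa [map_ofNat] at this

theorem W_sq' : P.W ^ 2 = P.M1 * (P.M1 ^ 2 - P.ι P.g0) * (P.M1 ^ 2 - P.ι P.c * P.ι P.g0) *
    (P.M1 ^ 2 - P.ι P.d2 * P.ι P.g0) := by
  rw [W_sq, fP]; simp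

theorem Z_sq' : P.Z ^ 2 = 4 * P.ι P.g0 * (P.M1 ^ 2 - P.ι P.d1 * P.ι P.g0) *
    (P.M1 ^ 2 - P.ι P.d2 * P.ι P.g0) := by
  rw [Z_sq, dP]; simp [map_ofNat]

theorem N_eq : P.N = P.M1 * (P.M1 ^ 2 - P.ι P.c * P.ι P.g0) / (P.M1 ^ 2 - P.ι P.g0) := by
  have h1 := sq_sub_ne P.M1_tr' P.g0
  have h2 := P.two_ne
  unfold N M2 M3
  field_simp
  ring

theorem M2_mul_M3 : P.M2 * P.M3 =
    P.ι P.g0 * (P.ι P.c * P.ι P.g0 - P.M1 ^ 2) / (P.M1 ^ 2 - P.ι P.g0) := by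
  have h1 := sq_sub_ne P.M1_tr' P.g0
  have h2 := P.two_ne
  have h3 := P.Z_sq'
  have h4 := congrArg P.ι P.d1_mul_d2
  have h5 := congrArg P.ι P.d1_add_d2
  simp only [map_mul, map_add, map_sub, map_pow, map_ofNat, map_one] at h4 h5
  unfold M2 M3
  field_simp
  linear_combination -h3 - 4 * P.ι P.g0 ^ 3 * h4 + P.ι P.g0 ^ 2 * P.M1 ^ 2 * h5

theorem M2_add_M3 : P.M2 + P.M3 = (1 - P.ι P.c) * P.ι P.g0 * P.M1 / (P.M1 ^ 2 - P.ι P.g0) := by
  have h1 := sq_sub_ne P.M1_tr' P.g0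
  have h2 := P.two_ne
  unfold M2 M3
  field_simp
  ring

theorem rel : Rel (P.ι P.c) (P.ι P.g0) (P.ι P.D) P.M1 P.M2 P.M3 P.Y := by
  have h1 := sq_sub_ne P.M1_tr' P.g0
  have hN : P.M1 + P.M2 + P.M3 = _ := P.N_eq
  refine ⟨?_, ?_, ?_⟩
  · have : P.M1 * P.M2 + P.M2 * P.M3 + P.M3 * P.M1 = P.M1 * (P.M2 + P.M3) + P.M2 * P.M3 := by ring
    rw [this, M2_add_M3, M2_mul_M3]
    field_simp
    ring
  · rw [mul_assoc, M2_mul_M3, hN]
    field_simp
    ring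
  · have h3 := P.W_sq'
    have h4 := congrArg P.ι P.b2_eq
    have h5 := congrArg P.ι P.crit1
    have h6 := congrArg P.ι P.crit2
    simp only [map_mul, map_add, map_pow, map_ofNat] at h4 h5 h6
    rw [hN, Y, D, div_pow, mul_pow, h3]
    simp only [map_mul]
    exact (keyY h1 h4 h5 h6).symm

theorem Z_eq : P.Z = (P.M1 ^ 2 - P.ι P.g0) * (P.M2 - P.M3) := by
  have h1 := sq_sub_ne P.M1_tr' P.g0
  have h2 := P.two_ne
  unfold M2 M3
  field_simp
  ring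

theorem W_eq : P.W = P.Y * (P.M1 ^ 2 - P.ι P.g0) ^ 2 / (P.M1 ^ 2 - P.ι (P.g * P.g0)) := by
  have h1 := sq_sub_ne P.M1_tr' P.g0
  have h2 := sq_sub_ne P.M1_tr' (P.g * P.g0)
  unfold Y
  field_simp

theorem M3_eq : P.M3 = (1 - P.ι P.c) * P.ι P.g0 * P.M1 / (P.M1 ^ 2 - P.ι P.g0) - P.M2 := by
  rw [← M2_add_M3]; ring

/-- induction with the symmetric generators -/
theorem FF_ind' (S : Subfield P.FF) (hk : ∀ a : k, algebraMap k P.FF a ∈ S) (h1 : P.M1 ∈ S)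
    (h2 : P.M2 ∈ S) (hY : P.Y ∈ S) (z : P.FF) : z ∈ S := by
  have hs : ∀ a : k, P.M1 ^ 2 - P.ι a ∈ S := fun a => S.sub_mem (S.pow_mem h1 2) (hk a)
  have h3 : P.M3 ∈ S := by
    rw [M3_eq]
    exact S.sub_mem (S.div_mem (S.mul_mem (S.mul_mem (S.sub_mem S.one_mem (hk _)) (hk _)) h1)
      (hs _)) h2
  refine P.FF_ind S hk h1 ?_ ?_ z
  · rw [W_eq]; exact S.div_mem (S.mul_mem hY (S.pow_mem (hs _) 2)) (hs _)
  · rw [Z_eq]; exact S.mul_mem (hs _) (S.sub_mem h2 h3)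

/-- ring homomorphisms on `FF` are determined by the constants, `M1`, `M2`, `Y` -/
theorem hom_ext {L : Type*} [Field L] {φ ψ : P.FF →+* L}
    (hk : ∀ a : k, φ (algebraMap k P.FF a) = ψ (algebraMap k P.FF a)) (h1 : φ P.M1 = ψ P.M1)
    (h2 : φ P.M2 = ψ P.M2) (hY : φ P.Y = ψ P.Y) : φ = ψ :=
  RingHom.ext fun z => P.FF_ind' (RingHom.eqLocusField φ ψ) hk h1 h2 hY z

/-- **the universal property** -/
theorem exists_hom {L : Type*} [Field L] (s : k →+* L) (A B C' Y' : L)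
    (hA : ∀ p : k[X], p ≠ 0 → eval₂ s A p ≠ 0) (h : Rel (s P.c) (s P.g0) (s P.D) A B C' Y') :
    ∃ φ : P.FF →+* L, (∀ a, φ (algebraMap k P.FF a) = s a) ∧
      φ P.M1 = A ∧ φ P.M2 = B ∧ φ P.M3 = C' ∧ φ P.Y = Y' := by
  have h1 := sq_sub_ne hA P.g0
  have h2 := sq_sub_ne hA (P.g * P.g0)
  have h22 : (2 : L) ≠ 0 := by
    have := (map_ne_zero s).2 P.h2
    rwa [map_ofNat] at this
  obtain ⟨e2, e3, eY⟩ := h
  have hS : (B + C') * (A ^ 2 - s P.g0) = (1 - s P.c) * s P.g0 * A := by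
    linear_combination A * e2 - e3
  have hT : B * C' * (A ^ 2 - s P.g0) = s P.g0 * (s P.c * s P.g0 - A ^ 2) := by
    linear_combination A * e3 - s P.g0 * e2
  have hN : (A + B + C') * (A ^ 2 - s P.g0) = A * (A ^ 2 - s P.c * s P.g0) := by
    linear_combination hS
  have hN' : A + B + C' = A * (A ^ 2 - s P.c * s P.g0) / (A ^ 2 - s P.g0) := by
    rw [eq_div_iff h1]; exact hN
  have h4 := congrArg s P.d1_mul_d2
  have h5 := congrArg s P.d1_add_d2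
  have h6 := congrArg s P.b2_eq
  have h7 := congrArg s P.crit1
  have h8 := congrArg s P.crit2
  simp only [map_mul, map_add, map_sub, map_pow, map_ofNat, map_one] at h4 h5 h6 h7 h8
  obtain ⟨φ, f0, f1, fW, fZ⟩ := P.exists_hom0 s A
    (Y' * (A ^ 2 - s P.g0) ^ 2 / (A ^ 2 - s (P.g * P.g0))) ((A ^ 2 - s P.g0) * (B - C')) hA
    (by
      rw [div_pow, mul_pow, eY, hN', fP, D, map_mul, keyY h1 h6 h7 h8]
      simp only [eval₂_mul, eval₂_sub, eval₂_pow, eval₂_X, eval₂_C]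
      simp only [map_mul] at h2 ⊢
      rw [div_mul_cancel₀ _ (pow_ne_zero _ (pow_ne_zero _ h1)),
        mul_div_cancel_right₀ _ (pow_ne_zero _ h2)])
    (by
      rw [dP]
      simp only [eval₂_mul, eval₂_sub, eval₂_pow, eval₂_X, eval₂_C]
      simp only [map_mul, map_ofNat]
      linear_combination ((B + C') * (A ^ 2 - s P.g0) + (1 - s P.c) * s P.g0 * A) * hS -
        4 * (A ^ 2 - s P.g0) * hT - 4 * s P.g0 ^ 3 * h4 + s P.g0 ^ 2 * A ^ 2 * h5)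
  refine ⟨φ, f0, f1, ?_, ?_, ?_⟩
  · unfold M2
    simp only [map_div₀, map_add, map_mul, map_sub, map_pow, map_one, map_ofNat, f0, f1, fZ]
    field_simp
    linear_combination -hS
  · unfold M3
    simp only [map_div₀, map_mul, map_sub, map_pow, map_one, map_ofNat, f0, f1, fZ]
    field_simp
    linear_combination -hS
  · unfold Y
    rw [map_div₀, map_mul, fW]
    simp only [map_sub, map_pow, f0, f1]
    field_simp

end Par

end Vale.Agent.P027M.F
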