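import Vale.Agent.P027M.F.Mate1
import Vale.Agent.P027M.F.Sub
import Vale.Agent.P027M.D.Fc
import Vale.Agent.P027M.X.HDefs

/-! # P027 route M, block F: the correspondence `H` is `push ∘ ρ ∘ pull` -/

set_option linter.all false

noncomputable section

namespace Vale.Agent.P027M.F.Mate

open Polynomial Vale.Agent.P019P P025H492 P025H816 _root_.P027M.K X B

section rel

variable {L : Type*} [Field L] {c G D A B C' Y : L}

theorem rel_sum (h : F.Rel c G D A B C' Y) : (B + C') * (A ^ 2 - G) = (1 - c) * G * A := by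
  linear_combination A * h.e2 - h.e3

theorem rel_prod (h : F.Rel c G D A B C' Y) : B * C' * (A ^ 2 - G) = G * (c * G - A ^ 2) := by
  linear_combination A * h.e3 - G * h.e2

theorem rel_ne (h : F.Rel c G D A B C' Y) (hc : c - 1 ≠ 0) (hG : G ≠ 0) : A ^ 2 - G ≠ 0 := by
  intro e
  have h1 := rel_sum h
  rw [e, mul_zero] at h1
  have h2 : A = 0 := (mul_eq_zero.1 h1.symm).resolve_left
    (mul_ne_zero (fun e' => hc (by linear_combination -e')) hG)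
  exact hG (by rw [h2] at e; linear_combination -e)

theorem rel_scale (h : F.Rel c G (D * G) A B C' Y) (r : L) :
    F.Rel c (r ^ 4 * G) (D * (r ^ 4 * G)) (r ^ 2 * A) (r ^ 2 * B) (r ^ 2 * C') (r ^ 3 * Y) :=
  ⟨by linear_combination r ^ 4 * h.e2, by linear_combination r ^ 6 * h.e3,
    by linear_combination r ^ 6 * h.eY⟩

end rel

variable {k : Type} [Field k] [IsAlgClosed k] (P : Par k)

/-- the same curve with the twist multiplied by a fourth power -/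
def sc {r : k} (hr : r ≠ 0) : Par k :=
  { P with g0 := r ^ 4 * P.g0, hg0 := mul_ne_zero (pow_ne_zero 4 hr) P.hg0 }

theorem rel_Y {T A B C' Y : k} (hT : T ≠ 0) (h : F.Rel P.c T (P.b2 * T) A B C' Y) :
    Y ^ 2 * ((A ^ 2 - T) ^ 2) ^ 2 = (fG P.g T).eval A * (A ^ 2 - P.g * T) ^ 2 := by
  have h1 := rel_ne h P.c_ne_one hT
  have h2 : A + B + C' = A * (A ^ 2 - P.c * T) / (A ^ 2 - T) := by
    rw [eq_div_iff h1]; linear_combination rel_sum h
  rw [h.eY, h2, keyY h1 P.b2_eq P.crit1 P.crit2, div_mul_cancel₀ _ (pow_ne_zero _ (pow_ne_zero _ h1))]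
  simp only [fG, eval_mul, eval_sub, eval_pow, eval_X, eval_C]
  rfl

/-- [HYPS] the scaled model -/
theorem hyps {r : k} (hr : r ≠ 0) : Hyp (fG P.g (r ^ 4 * P.g0))
    (algebraMap k P.FC (r ^ 2) * P.mC) (algebraMap k P.FC (r ^ 7) * P.wC) := by
  have h := D.Fc.hypC P
  have hr' : algebraMap k P.FC r ≠ 0 := (_root_.map_ne_zero _).2 hr
  have hc : ∀ p : k[X], aeval (algebraMap k P.FC (r ^ 2) * P.mC) (p.comp (C (r ^ 2)⁻¹ * X)) =
      aeval P.mC p := fun p => by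
    rw [aeval_comp, map_mul, aeval_C, aeval_X, ← mul_assoc, ← map_mul,
      inv_mul_cancel₀ (pow_ne_zero 2 hr), map_one, one_mul]
  refine ⟨P.h2, (D.Fc.hypC (sc P hr)).deg, (D.Fc.hypC (sc P hr)).sep, fun ha => h.tr ?_, ?_,
    fun z => ?_⟩
  · have := (isAlgebraic_algebraMap (A := P.FC) (r ^ 2)⁻¹).mul ha
    rwa [← mul_assoc, ← map_mul, inv_mul_cancel₀ (pow_ne_zero 2 hr), map_one, one_mul] at this
  · rw [mul_pow, h.sq]
    simp only [fG, Par.fP, map_mul, map_sub, map_pow, aeval_X, aeval_C]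
    show _ = _ * _ * (_ - algebraMap k P.FC P.c * _) * (_ - algebraMap k P.FC P.d2 * _)
    ring
  · obtain ⟨a, b, c, hc0, e⟩ := h.top z
    refine ⟨a.comp (C (r ^ 2)⁻¹ * X), C (r ^ 7)⁻¹ * b.comp (C (r ^ 2)⁻¹ * X),
      c.comp (C (r ^ 2)⁻¹ * X), fun e0 => PtsAux.ne0 h hc0 (by rw [← hc, e0, map_zero]), ?_⟩
    rw [map_mul, hc, hc, hc, e, aeval_C, map_inv₀, map_pow]
    field_simp

/-- `τ` as an automorphism over `FC` -/
def tC : P.FF ≃ₐ[P.FC] P.FF := SubP.toAlg P.FC P.tau fun _ hz => P.mem_FC.1 hz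

theorem autSL_tC : autSL k (tC P) = P.sT := rfl

theorem sum_FC {G : Type*} [AddCommMonoid G] (f : (P.FF ≃ₐ[P.FC] P.FF) → G) :
    ∑ σ, f σ = f 1 + f (tC P) := by
  classical
  have h1 : (1 : P.FF ≃ₐ[P.FC] P.FF) ≠ tC P := fun e =>
    P.M2_ne_M3 ((DFunLike.congr_fun e P.M2).trans P.tau_M2)
  rw [← Finset.sum_pair h1]
  refine Finset.sum_congr (Finset.ext fun σ => ?_) fun _ _ => rfl
  simp only [Finset.mem_univ, Finset.mem_insert, Finset.mem_singleton, true_iff]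
  rcases (sub k P).2.2.1 σ with e | e
  · exact Or.inl (AlgEquiv.ext fun z => DFunLike.congr_fun e z)
  · exact Or.inr (AlgEquiv.ext fun z => DFunLike.congr_fun e z)

instance galFC : IsGalois P.FC P.FF := (sub k P).1.1

/-- `j N y = y + τ y` -/
theorem pull_push (y : Pc k P.FF) : pullP P.FF (pushP P.FC y) = y + actP P.sT y := by
  rw [pullP_pushP, sum_FC, map_one, actP_one, autSL_tC]

theorem tau_pull (x : Pc k P.FC) : actP P.sT (pullP P.FF x) = pullP P.FF x := by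
  refine (actP_pullP (θ := P.sT) (s := RingEquiv.refl _) (s₀ := RingEquiv.refl k) (fun _ => rfl)
    (fun z => P.mem_FC.1 z.2) x).trans (congrArg _ ?_)
  obtain ⟨D, rfl⟩ := QuotientAddGroup.mk_surjective x
  exact (semiP_mk _ D).trans (congrArg _ Finsupp.mapDomain_id)

theorem push_tau (y : Pc k P.FF) : pushP P.FC (actP P.sT y) = pushP P.FC y := pushP_aut (tC P) y

theorem push_pull2 (x : Pc k P.FC) : pushP P.FC (pullP P.FF x) = 2 • x := by
  rw [pushP_pullP, (sub k P).2.1.1]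

theorem sT_sR : P.sT * P.sR = P.sR * P.sR * P.sT := Subtype.ext P.tau_rho

/-- the correspondence on all classes -/
def hP : Pc k P.FC →+ Pc k P.FC := (pushP P.FC).comp ((actP P.sR).comp (pullP P.FF))

theorem hP_apply (x : Pc k P.FC) : hP P x = pushP P.FC (actP P.sR (pullP P.FF x)) := rfl

/-- `j H = (ρ + ρ ^ 2) j` -/
theorem pull_hP (x : Pc k P.FC) : pullP P.FF (hP P x) =
    actP P.sR (pullP P.FF x) + actP P.sR (actP P.sR (pullP P.FF x)) := by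
  rw [hP_apply, pull_push, ← actP_mul, sT_sR, actP_mul, actP_mul, tau_pull]

/-- the law `1 + ρ + ρ ^ 2 = 0` on the pull back of the part `H = -1` -/
theorem law {x : Pc k P.FC} (h : hP P x = -x) :
    pullP P.FF x + actP P.sR (pullP P.FF x) + actP P.sR (actP P.sR (pullP P.FF x)) = 0 := by
  rw [add_assoc, ← pull_hP, h, map_neg, add_neg_cancel]

theorem dgP_hP (x : Pc k P.FC) : dgP (hP P x) = 2 * dgP x := by
  rw [hP_apply, dgP_pushP, dgP_actP, dgP_pullP, (sub k P).2.1.1]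
  rfl

theorem hP_single (Q : Plk k P.FF) :
    hP P (QuotientAddGroup.mk (Finsupp.single (down P.FC Q) 1)) =
      QuotientAddGroup.mk (Finsupp.single (down P.FC (pl P.sR Q)) 1) +
      QuotientAddGroup.mk (Finsupp.single (down P.FC (pl (P.sR * P.sT) Q)) 1) := by
  rw [← push_single, ← pushP_mk, hP_apply, pull_push, map_add, map_add, ← actP_mul, actP_mk,
    actP_mk, pushP_mk, pushP_mk, Finsupp.mapDomain_single, Finsupp.mapDomain_single, push_single,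
    push_single]

theorem val_wv {Q : Plk k P.FF} {g T a y : k} {A Y : P.FF} (hA : Val Q A a) (hY : Val Q Y y)
    (h : a ^ 2 - g * T ≠ 0) : Val Q (wv (P.ι g) (P.ι T) A Y) (wv g T a y) :=
  val_div (hY.mul (((hA.pow 2).sub (Val.const Q T)).pow 2))
    ((hA.pow 2).sub ((Val.const Q g).mul (Val.const Q T))) h

theorem w_eq {r : k} (hr : r ≠ 0) : P.ι (r ^ 7) * P.W =
    wv (P.ι P.g) (P.ι (r ^ 4 * P.g0)) (P.ι r ^ 2 * P.M1) (P.ι r ^ 3 * P.Y) := by
  have h1 := sq_sub_ne P.M1_tr' (P.g * P.g0)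
  have h2 := P.ι_ne hr
  rw [map_mul] at h1
  rw [P.W_eq, wv]
  simp only [map_mul, map_pow]
  rw [show (P.ι r ^ 2 * P.M1) ^ 2 - P.ι P.g * (P.ι r ^ 4 * P.ι P.g0) =
      P.ι r ^ 4 * (P.M1 ^ 2 - P.ι P.g * P.ι P.g0) by ring]
  field_simp

theorem mate {r : k} (hr : r ≠ 0) (h : Hyp (fG P.g (r ^ 4 * P.g0))
    (algebraMap k P.FC (r ^ 2) * P.mC) (algebraMap k P.FC (r ^ 7) * P.wC)) {θ : SL k P.FF}
    (h0 : res0 θ = 1) {M : P.FF} (hM : (θ : P.FF ≃+* P.FF) M = P.M1)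
    (hY : (θ : P.FF ≃+* P.FF) P.Y = P.Y) {Q : Plk k P.FF} {x y : k}
    (vM : Val Q (P.ι r ^ 2 * M) x) (vY : Val Q (P.ι r ^ 3 * P.Y) y)
    (hx : x ^ 2 - P.g * (r ^ 4 * P.g0) ≠ 0) :
    ofPc h (QuotientAddGroup.mk (Finsupp.single (down P.FC (pl θ Q)) 1)) =
      cl _ (x, wv P.g (r ^ 4 * P.g0) x y) := by
  have h1 := val_pl θ vM
  have h2 := val_pl θ vY
  rw [map_mul, map_pow, res0_spec, h0] at h1 h2
  rw [hM] at h1
  rw [hY] at h2
  have h3 := val_wv P (g := P.g) (T := r ^ 4 * P.g0) h1 h2 hx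
  have h4 : Val (down P.FC (pl θ Q)) (algebraMap k P.FC (r ^ 2) * P.mC) x :=
    val_down.2 (by rw [map_pow]; exact h1)
  have h5 : Val (down P.FC (pl θ Q)) (algebraMap k P.FC (r ^ 7) * P.wC)
      (wv P.g (r ^ 4 * P.g0) x y) := val_down.2 (by
    rw [show algebraMap P.FC P.FF (algebraMap k P.FC (r ^ 7) * P.wC) = _ from w_eq P hr]
    exact h3)
  rw [ofPc_mk, aff_single, if_pos (val_ord h4), vl_eq h4, vl_eq h5, one_smul]

theorem res_sR : res0 P.sR = 1 := res0_eq (s := 1) P.rho_c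

theorem res_sT : res0 P.sT = 1 := res0_eq (s := 1) P.tau_c

theorem res_sI : res0 P.sI = 1 := res0_eq (s := 1) P.iota_c

theorem res_RT : res0 (P.sR * P.sT) = 1 := by rw [map_mul, res_sR, res_sT, mul_one]

theorem vals {r : k} (hr : r ≠ 0) {A B C' Y : k} {Q : Plk k P.FF}
    (hR : F.Rel P.c (r ^ 4 * P.g0) (P.b2 * (r ^ 4 * P.g0)) A B C' Y)
    (hA : A ^ 2 - P.g * (r ^ 4 * P.g0) ≠ 0) (v1 : Val Q (P.ι r ^ 2 * P.M1) A)
    (vW : Val Q (P.ι (r ^ 7) * P.W) (wv P.g (r ^ 4 * P.g0) A Y)) :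
    Val Q (P.ι r ^ 3 * P.Y) Y ∧ (Val Q (P.ι r ^ 2 * P.M2) B ∧ Val Q (P.ι r ^ 2 * P.M3) C' ∨
      Val Q (P.ι r ^ 2 * P.M2) C' ∧ Val Q (P.ι r ^ 2 * P.M3) B) := by
  have a1 := rel_ne hR P.c_ne_one (mul_ne_zero (pow_ne_zero 4 hr) P.hg0)
  have R0 := P.rel
  rw [show P.ι P.D = P.ι P.b2 * P.ι P.g0 from map_mul _ _ _] at R0
  have R := rel_scale R0 (P.ι r)
  have e : P.ι r ^ 4 * algebraMap k P.FF P.g0 = algebraMap k P.FF (r ^ 4 * P.g0) := by
    rw [map_mul, map_pow]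
  rw [e] at R
  rw [w_eq P hr] at vW
  generalize r ^ 4 * P.g0 = T at *
  generalize P.ι r ^ 2 * P.M1 = M1, P.ι r ^ 2 * P.M2 = M2, P.ι r ^ 2 * P.M3 = M3,
    P.ι r ^ 3 * P.Y = Y' at *
  have d1 := (v1.pow 2).sub (Val.const Q T)
  have dg := (v1.pow 2).sub ((Val.const Q P.g).mul (Val.const Q T))
  have n1 := (d1.unit a1).1
  have n2 := (dg.unit hA).1
  have vY := val_div (vW.mul dg) (d1.pow 2) (pow_ne_zero 2 a1)
  rw [wv, wv, div_mul_cancel₀ _ n2, div_mul_cancel₀ _ hA,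
    mul_div_cancel_right₀ _ (pow_ne_zero 2 n1), mul_div_cancel_right₀ _ (pow_ne_zero 2 a1)] at vY
  have vs := val_div ((((Val.one Q).sub (Val.const Q P.c)).mul (Val.const Q T)).mul v1) d1 a1
  have vp := val_div ((Val.const Q T).mul
    (((Val.const Q P.c).mul (Val.const Q T)).sub (v1.pow 2))) d1 a1
  rw [← rel_sum R, ← rel_sum hR, mul_div_cancel_right₀ _ n1, mul_div_cancel_right₀ _ a1] at vs
  rw [← rel_prod R, ← rel_prod hR, mul_div_cancel_right₀ _ n1, mul_div_cancel_right₀ _ a1] at vp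
  exact ⟨vY, val_pair P.h2 vs vp⟩

theorem hop_pt {r : k} (hr : r ≠ 0) (h : Hyp (fG P.g (r ^ 4 * P.g0))
    (algebraMap k P.FC (r ^ 2) * P.mC) (algebraMap k P.FC (r ^ 7) * P.wC)) {A B C' Y : k}
    (hR : F.Rel P.c (r ^ 4 * P.g0) (P.b2 * (r ^ 4 * P.g0)) A B C' Y)
    (h1 : (fG P.g (r ^ 4 * P.g0)).eval A ≠ 0) (h2 : A ^ 2 - P.g * (r ^ 4 * P.g0) ≠ 0) :
    ofPc h (hP P (QuotientAddGroup.mk
      (Finsupp.single (plc h (A, wv P.g (r ^ 4 * P.g0) A Y)) 1))) =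
      cl _ (B, wv P.g (r ^ 4 * P.g0) B Y) + cl _ (C', wv P.g (r ^ 4 * P.g0) C' Y) := by
  have hT0 : r ^ 4 * P.g0 ≠ 0 := mul_ne_zero (pow_ne_zero 4 hr) P.hg0
  have hY : Y ≠ 0 := fun e => mul_ne_zero h1 (pow_ne_zero 2 h2) (by
    rw [← rel_Y P hT0 hR, e]; ring)
  have ng : ∀ {A B C' : k}, F.Rel P.c (r ^ 4 * P.g0) (P.b2 * (r ^ 4 * P.g0)) A B C' Y →
      A ^ 2 - P.g * (r ^ 4 * P.g0) ≠ 0 :=
    fun hR e => mul_ne_zero (pow_ne_zero 2 hY) (pow_ne_zero 2 (pow_ne_zero 2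
      (rel_ne hR P.c_ne_one hT0))) (by rw [rel_Y P hT0 hR, e]; ring)
  have hp : (wv P.g (r ^ 4 * P.g0) A Y) ^ 2 = (fG P.g (r ^ 4 * P.g0)).eval A := by
    rw [wv, div_pow, mul_pow, rel_Y P hT0 hR, mul_div_cancel_right₀ _ (pow_ne_zero 2 h2)]
  obtain ⟨p1, p2, p3⟩ := plc_spec h (p := (A, wv P.g (r ^ 4 * P.g0) A Y)) hp
  obtain ⟨Q, hQ⟩ := exists_eq_down (L := P.FF) (plc h (A, wv P.g (r ^ 4 * P.g0) A Y))
  have v1 := val_vl p1
  have vW := val_vl (h.pts.pt _ p1).1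
  rw [p2, hQ, val_down, map_pow] at v1
  rw [p3, hQ, val_down] at vW
  obtain ⟨vY, hv⟩ := vals P hr hR h2 v1 vW
  have m3 := fun x v => mate P hr h (res_sR P) P.rho_M3 P.rho_Y (x := x) v vY
  have m2 := fun x v => mate P hr h (res_RT P) (M := P.M2)
    ((congrArg P.rho P.tau_M2).trans P.rho_M3) ((congrArg P.rho P.tau_Y).trans P.rho_Y)
    (x := x) v vY
  rw [hQ, hP_single, map_add]
  rcases hv with ⟨vb, vc⟩ | ⟨vc, vb⟩
  · rw [m3 _ vc (ng hR.rot.rot), m2 _ vb (ng hR.rot), add_comm]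
  · rw [m3 _ vb (ng hR.rot), m2 _ vc (ng hR.rot.rot)]

/-- **[HOP]** -/
theorem hop {r : k} (hr : r ≠ 0) (h : Hyp (fG P.g (r ^ 4 * P.g0))
    (algebraMap k P.FC (r ^ 2) * P.mC) (algebraMap k P.FC (r ^ 7) * P.wC)) :
    ∃ H, IsH P.g (r ^ 4 * P.g0) H ∧
      ∀ x, toPc h (H x) = pushP P.FC (actP P.sR (pullP P.FF (toPc h x))) := by
  classical
  refine ⟨(ofPc h).comp ((hP P).comp (toPc h)), ⟨(fG P.g (r ^ 4 * P.g0) *
    (X ^ 2 - C (P.g * (r ^ 4 * P.g0)))).roots.toFinset,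
    -ofPc h (hP P (QuotientAddGroup.mk (Finsupp.single (oo h) 1))), fun A B C' Y hR hA => ?_⟩,
    fun x => toPc_ofPc h (y := hP P (toPc h x)) (by rw [dgP_hP, dgP_toPc, mul_zero])⟩
  rw [Multiset.mem_toFinset, mem_roots (mul_ne_zero (PtsAux.F0 h)
    (X_pow_sub_C_ne_zero two_pos _)), IsRoot.def, eval_mul, mul_eq_zero, not_or, eval_sub,
    eval_pow, eval_X, eval_C] at hA
  rw [AddMonoidHom.comp_apply, AddMonoidHom.comp_apply, toPc_cl, dpt, QuotientAddGroup.mk_sub,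
    map_sub, map_sub, hop_pt P hr h hR hA.1 hA.2, sub_eq_add_neg]

end Vale.Agent.P027M.F.Mate
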