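import Vale.Agent.P027M.F.ChiDefs

/-!
# P027, route M, block F5: the algebra of the eight points of order three
-/

set_option linter.all false

noncomputable section

namespace Vale.Agent.P027M.F

open NumberField Vale.Agent.P022

namespace AlgAux

variable {k : Type} [Field k] {i D : k} {p : k × k}

lemma two_ne (h6 : (6 : k) ≠ 0) : (2 : k) ≠ 0 := by
  intro h
  apply h6
  linear_combination 3 * h

lemma three_ne (h6 : (6 : k) ≠ 0) : (3 : k) ≠ 0 := by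
  intro h
  apply h6
  linear_combination 2 * h

lemma x_ne (hD : D ≠ 0) (h : Pt D p) : p.1 ≠ 0 := by
  intro h0
  have := h.q
  rw [h0] at this
  apply hD
  apply pow_eq_zero_iff (two_ne_zero) |>.mp
  linear_combination -this

lemma u_ne (h6 : (6 : k) ≠ 0) (hD : D ≠ 0) (h : Pt D p) : p.1 ^ 2 - D ≠ 0 := by
  intro h0
  have h2 := two_ne h6
  have : (2 * D) ^ 2 = 0 := by
    linear_combination -h.q + (3 * p.1 ^ 2 - 3 * D) * h0
  exact mul_ne_zero h2 hD ((pow_eq_zero_iff two_ne_zero).mp this)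

lemma y_ne (h6 : (6 : k) ≠ 0) (hD : D ≠ 0) (h : Pt D p) : p.2 ≠ 0 := by
  intro h0
  have := h.e
  rw [h0] at this
  apply mul_ne_zero (x_ne hD h) (u_ne h6 hD h)
  linear_combination -this

lemma mu1 (h6 : (6 : k) ≠ 0) (hi : i ^ 2 = -1) (hD : D ≠ 0) (h : Pt D p) :
    (mu i p).1 = -i * (p.1 ^ 2 - D) / (2 * p.1) := by
  have h2 := two_ne h6
  have hx := x_ne hD h
  show ((1 - i) * p.2 / (2 * p.1)) ^ 2 = _
  field_simp
  linear_combination (p.2 ^ 2) * hi - 2 * i * h.e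

lemma mu2 (h6 : (6 : k) ≠ 0) (hi : i ^ 2 = -1) (hD : D ≠ 0) (h : Pt D p) :
    (mu i p).2 = -(1 + i) * p.2 * (p.1 ^ 2 + D) / (2 * p.1) ^ 2 := by
  have h2 := two_ne h6
  have hx := x_ne hD h
  have h1 : sl i p ^ 2 = -i * (p.1 ^ 2 - D) / (2 * p.1) := mu1 h6 hi hD h
  show sl i p * (p.1 - sl i p ^ 2) - p.2 = _
  rw [h1]
  unfold sl
  field_simp
  linear_combination (p.2 * (D - p.1 ^ 2)) * hi

lemma mu1_sq (h6 : (6 : k) ≠ 0) (hi : i ^ 2 = -1) (hD : D ≠ 0) (h : Pt D p) :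
    (mu i p).1 ^ 2 = 2 * D - p.1 ^ 2 := by
  have h2 := two_ne h6
  have hx := x_ne hD h
  rw [mu1 h6 hi hD h]
  field_simp
  linear_combination (p.1 ^ 2 - D) ^ 2 * hi + h.q

lemma b_sq (h6 : (6 : k) ≠ 0) (hD : D ≠ 0) (h : Pt D p) :
    ((p.1 ^ 2 + D) / (2 * p.1)) ^ 2 = p.1 ^ 2 - D := by
  have h2 := two_ne h6
  have hx := x_ne hD h
  field_simp
  linear_combination -h.q

lemma pt_mu (h6 : (6 : k) ≠ 0) (hi : i ^ 2 = -1) (hD : D ≠ 0) (h : Pt D p) : Pt D (mu i p) := by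
  have h2 := two_ne h6
  have hx := x_ne hD h
  have hs := mu1_sq h6 hi hD h
  constructor
  · have : (mu i p).1 ^ 4 = (2 * D - p.1 ^ 2) ^ 2 := by rw [← hs]; ring
    rw [this, hs]
    linear_combination h.q
  · have e1 : (mu i p).1 ^ 3 - D * (mu i p).1 = (mu i p).1 * (D - p.1 ^ 2) := by
      linear_combination (mu i p).1 * hs
    have e2 : (mu i p).2 ^ 2 = (1 + i) ^ 2 * p.2 ^ 2 * ((p.1 ^ 2 + D) / (2 * p.1)) ^ 2 /
        (2 * p.1) ^ 2 := by
      rw [mu2 h6 hi hD h]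
      field_simp
    rw [e1, e2, b_sq h6 hD h, h.e, mu1 h6 hi hD h]
    field_simp
    linear_combination (p.1 ^ 2 - D) ^ 2 * hi

lemma b_mu (h6 : (6 : k) ≠ 0) (hi : i ^ 2 = -1) (hD : D ≠ 0) (h : Pt D p) :
    ((mu i p).1 ^ 2 + D) / (2 * (mu i p).1) = i * ((p.1 ^ 2 + D) / (2 * p.1)) := by
  have h2 := two_ne h6
  have hx := x_ne hD h
  have hx1 := x_ne hD (pt_mu h6 hi hD h)
  have hs := mu1_sq h6 hi hD h
  have h1 : 2 * p.1 * (mu i p).1 = -i * (p.1 ^ 2 - D) := by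
    rw [mu1 h6 hi hD h]
    field_simp
  rw [hs, div_eq_iff (mul_ne_zero h2 hx1)]
  apply mul_left_cancel₀ (mul_ne_zero hx hx)
  have e : p.1 * p.1 * (i * ((p.1 ^ 2 + D) / (2 * p.1)) * (2 * (mu i p).1)) =
      i * (p.1 ^ 2 + D) * (2 * p.1 * (mu i p).1) / 2 := by
    field_simp
  rw [e, h1, eq_div_iff h2]
  linear_combination (p.1 ^ 4 - D ^ 2) * hi - h.q

lemma mu_mu (h6 : (6 : k) ≠ 0) (hi : i ^ 2 = -1) (hD : D ≠ 0) (h : Pt D p) :
    mu i (mu i p) = (-p.1, -i * p.2) := by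
  have h2 := two_ne h6
  have hx := x_ne hD h
  have hp := pt_mu h6 hi hD h
  have hx1 := x_ne hD hp
  have hs := mu1_sq h6 hi hD h
  have h1 : 2 * p.1 * (mu i p).1 = -i * (p.1 ^ 2 - D) := by
    rw [mu1 h6 hi hD h]
    field_simp
  apply Prod.ext
  · rw [mu1 h6 hi hD hp, div_eq_iff (mul_ne_zero h2 hx1), hs]
    linear_combination h1
  · have e : (mu i (mu i p)).2 = -(1 + i) * (mu i p).2 *
        (((mu i p).1 ^ 2 + D) / (2 * (mu i p).1)) / (2 * (mu i p).1) := by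
      rw [mu2 h6 hi hD hp]
      field_simp
    have e2 : (mu i p).2 * (i * ((p.1 ^ 2 + D) / (2 * p.1))) =
        -(1 + i) * i * p.2 * ((p.1 ^ 2 + D) / (2 * p.1)) ^ 2 / (2 * p.1) := by
      rw [mu2 h6 hi hD h]
      field_simp
    rw [e, b_mu h6 hi hD h, mul_assoc, e2, b_sq h6 hD h, div_eq_iff (mul_ne_zero h2 hx1),
      mu1 h6 hi hD h]
    field_simp
    linear_combination (p.2 * (p.1 ^ 2 - D) * i) * hi

lemma pt_iter (h6 : (6 : k) ≠ 0) (hi : i ^ 2 = -1) (hD : D ≠ 0) (h : Pt D p) (n : ℕ) :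
    Pt D ((mu i)^[n] p) := by
  induction n with
  | zero => exact h
  | succ n ih => rw [Function.iterate_succ_apply']; exact pt_mu h6 hi hD ih

lemma it2 (h6 : (6 : k) ≠ 0) (hi : i ^ 2 = -1) (hD : D ≠ 0) (h : Pt D p) (n : ℕ) :
    (mu i)^[2 * n] p = ((-1) ^ n * p.1, (-i) ^ n * p.2) := by
  induction n with
  | zero => simp
  | succ n ih =>
    have hp := pt_iter h6 hi hD h (2 * n)
    rw [show 2 * (n + 1) = 2 * n + 1 + 1 by ring, Function.iterate_succ_apply',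
      Function.iterate_succ_apply', mu_mu h6 hi hD hp, ih]
    apply Prod.ext <;> simp only <;> ring

lemma half (h6 : (6 : k) ≠ 0) (hi : i ^ 2 = -1) (hD : D ≠ 0) (h : Pt D p) {q : k × k}
    (hq : Pt D q) (hx : q.1 ^ 2 = p.1 ^ 2) : ∃ m : ℕ, m < 4 ∧ q = (mu i)^[2 * m] p := by
  rcases sq_eq_sq_iff_eq_or_eq_neg.mp hx with h1 | h1
  · have h2 : q.2 ^ 2 = p.2 ^ 2 := by rw [hq.e, h.e, h1]
    rcases sq_eq_sq_iff_eq_or_eq_neg.mp h2 with h3 | h3
    · exact ⟨0, by norm_num, Prod.ext h1 h3⟩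
    · refine ⟨2, by norm_num, ?_⟩
      rw [it2 h6 hi hD h]
      apply Prod.ext
      · simp only; linear_combination h1
      · simp only; linear_combination h3 - p.2 * hi
  · have h2 : q.2 ^ 2 = (i * p.2) ^ 2 := by
      rw [mul_pow, hi, hq.e, h.e, h1]; ring
    rcases sq_eq_sq_iff_eq_or_eq_neg.mp h2 with h3 | h3
    · refine ⟨3, by norm_num, ?_⟩
      rw [it2 h6 hi hD h]
      apply Prod.ext
      · simp only; linear_combination h1
      · simp only; linear_combination h3 + i * p.2 * hi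
    · refine ⟨1, by norm_num, ?_⟩
      rw [it2 h6 hi hD h]
      apply Prod.ext
      · simp only; linear_combination h1
      · simp only; linear_combination h3

lemma trans (h6 : (6 : k) ≠ 0) (hi : i ^ 2 = -1) (hD : D ≠ 0) (h : Pt D p) {q : k × k}
    (hq : Pt D q) : ∃ n : ZMod 8, q = (mu i)^[n.val] p := by
  have h3 := three_ne h6
  have hs := mu1_sq h6 hi hD h
  have key : ∃ n : ℕ, n < 8 ∧ q = (mu i)^[n] p := by
    have e : 3 * ((q.1 ^ 2 - p.1 ^ 2) * (q.1 ^ 2 - (mu i p).1 ^ 2)) = 0 := by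
      rw [hs]
      linear_combination hq.q - h.q
    rcases mul_eq_zero.mp ((mul_eq_zero.mp e).resolve_left h3) with h1 | h1
    · obtain ⟨m, hm, hqm⟩ := half h6 hi hD h hq (sub_eq_zero.mp h1)
      exact ⟨2 * m, by omega, hqm⟩
    · obtain ⟨m, hm, hqm⟩ := half h6 hi hD (pt_mu h6 hi hD h) hq (sub_eq_zero.mp h1)
      exact ⟨2 * m + 1, by omega, by rw [Function.iterate_succ_apply]; exact hqm⟩
  obtain ⟨n, hn, hqn⟩ := key
  exact ⟨n, by rw [ZMod.val_cast_of_lt hn]; exact hqn⟩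

lemma per (h6 : (6 : k) ≠ 0) (hi : i ^ 2 = -1) (hD : D ≠ 0) (h : Pt D p) :
    Function.minimalPeriod (mu i) p = 8 := by
  haveI : Fact (Nat.Prime 2) := ⟨Nat.prime_two⟩
  have h8 : Function.IsPeriodicPt (mu i) (2 ^ (2 + 1)) p := by
    show (mu i)^[2 * 4] p = p
    rw [it2 h6 hi hD h]
    apply Prod.ext
    · simp only; ring
    · simp only; linear_combination (i ^ 2 - 1) * p.2 * hi
  have h4 : ¬ Function.IsPeriodicPt (mu i) (2 ^ 2) p := by
    intro hc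
    have hc' : (mu i)^[2 * 2] p = p := hc
    rw [it2 h6 hi hD h] at hc'
    have h2 := congrArg Prod.snd hc'
    simp only at h2
    apply mul_ne_zero (two_ne h6) (y_ne h6 hD h)
    linear_combination -h2 + p.2 * hi
  exact Function.minimalPeriod_eq_prime_pow h4 h8

lemma dist (h6 : (6 : k) ≠ 0) (hi : i ^ 2 = -1) (hD : D ≠ 0) (h : Pt D p) (a b : ℕ) :
    (mu i)^[a] p = (mu i)^[b] p ↔ (a : ZMod 8) = b := by
  have hp := per h6 hi hD h
  rw [ZMod.natCast_eq_natCast_iff', ← Function.iterate_mod_minimalPeriod_eq (n := a),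
    ← Function.iterate_mod_minimalPeriod_eq (n := b),
    Function.iterate_eq_iterate_iff_of_lt_minimalPeriod, hp]
  · rw [hp]; exact Nat.mod_lt _ (by norm_num)
  · rw [hp]; exact Nat.mod_lt _ (by norm_num)

end AlgAux

open AlgAux in
theorem alg : ALG := by
  intro k _ i D p h6 hi hD h
  have h2 := two_ne h6
  have hx := x_ne hD h
  have hp := pt_mu h6 hi hD h
  refine ⟨hx, y_ne h6 hD h, hp, mu_mu h6 hi hD h, ?_, mu1_sq h6 hi hD h, ?_, ?_,
    b_mu h6 hi hD h, ?_, fun q hq => trans h6 hi hD h hq, dist h6 hi hD h⟩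
  · have hi' : (-i) ^ 2 = -1 := by rw [neg_sq, hi]
    show _ = mu i (mu i (mu i p))
    rw [mu_mu h6 hi hD hp]
    apply Prod.ext
    · simp only
      rw [mu1 h6 hi' hD h, mu1 h6 hi hD h]
      ring
    · simp only
      rw [mu2 h6 hi' hD h, mu2 h6 hi hD h]
      field_simp
      linear_combination (-(p.2 * (p.1 ^ 2 + D))) * hi
  · have e4 : p.2 ^ 4 = (p.1 ^ 3 - D * p.1) ^ 2 := by rw [← h.e]; ring
    rw [mu2 h6 hi hD h, e4]
    field_simp
    linear_combination (4 * (1 + i) * p.2 * (3 * p.1 ^ 4 + 4 * D ^ 2)) * h.q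
  · have e4 : p.2 ^ 4 = (p.1 ^ 3 - D * p.1) ^ 2 := by rw [← h.e]; ring
    have e3 : 3 * p.2 ^ 4 = 4 * D ^ 2 * p.1 ^ 2 := by
      rw [e4]
      linear_combination p.1 ^ 2 * h.q
    linear_combination (9 * p.2 ^ 4 + 12 * D ^ 2 * p.1 ^ 2 - 24 * D ^ 3) * e3 + 16 * D ^ 4 * h.q
  · have e : ((p.1 ^ 2 + D) / (2 * p.1)) ^ 4 = (p.1 ^ 2 - D) ^ 2 := by
      rw [← b_sq h6 hD h]; ring
    rw [e]
    linear_combination h.q

end Vale.Agent.P027M.F
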