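import Vale.Agent.P027M.F.ChiDefs

/-!
# P027, route M, block F5: the character exists, is unramified outside `6 D`, and is unique
-/

set_option linter.all false

noncomputable section

namespace Vale.Agent.P027M.F

open NumberField Vale.Agent.P022

namespace ChiAux

/-- the action on points -/
def act (g : GQ) (p : Qb × Qb) : Qb × Qb := (g p.1, g p.2)

theorem act_mu {i : Qb} {g : GQ} (h : g i = i) (p : Qb × Qb) :
    act g (mu i p) = mu i (act g p) := by
  simp only [act, mu, sl, map_pow, map_sub, map_mul, map_div₀, map_one, map_ofNat, h]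

theorem act_it {i : Qb} {g : GQ} (h : g i = i) (n : ℕ) (p : Qb × Qb) :
    act g ((mu i)^[n] p) = (mu i)^[n] (act g p) :=
  (Function.Semiconj.iterate_right (f := act g) (act_mu h) n) p

theorem fix_gi {i : Qb} {g : GQ} (h : g i = i) (D : GaussianInt) : g (gi i D) = gi i D := by
  simp only [gi, map_add, map_mul, map_intCast, h]

theorem act_pt {d : Qb} {g : GQ} (h : g d = d) {p : Qb × Qb} (hp : Pt d p) : Pt d (act g p) :=
  ⟨by simpa only [act, map_pow, map_sub, map_mul, map_ofNat, map_zero, h] using congrArg g hp.q,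
    by simpa only [act, map_pow, map_sub, map_mul, h] using congrArg g hp.e⟩

theorem gi_ne {i : Qb} (hi : i ^ 2 = -1) {D : GaussianInt} (hD : D ≠ 0) : gi i D ≠ 0 := by
  intro h
  have h1 : ((D.re ^ 2 + D.im ^ 2 : ℤ) : Qb) = 0 := by
    unfold gi at h
    push_cast
    linear_combination ((D.re : Qb) - D.im * i) * h + (D.im : Qb) ^ 2 * hi
  have h2 : D.re ^ 2 + D.im ^ 2 = 0 := by exact_mod_cast h1
  refine hD (Zsqrtd.ext ?_ ?_)
  · show D.re = 0
    nlinarith
  · show D.im = 0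
    nlinarith

theorem ex_pt (d : Qb) : ∃ p : Qb × Qb, Pt d p := by
  obtain ⟨r, hr⟩ := IsAlgClosed.exists_pow_nat_eq (3 : Qb) two_pos
  obtain ⟨x, hx⟩ := IsAlgClosed.exists_pow_nat_eq (d + 2 / 3 * r * d) two_pos
  obtain ⟨y, hy⟩ := IsAlgClosed.exists_pow_nat_eq (x ^ 3 - d * x) two_pos
  refine ⟨(x, y), ?_, hy⟩
  show 3 * x ^ 4 - 6 * d * x ^ 2 - d ^ 2 = 0
  linear_combination (3 * x ^ 2 - 3 * d + 2 * r * d) * hx + 4 / 3 * d ^ 2 * hr

theorem inert {δ : 𝓞 Qb} {P : Ideal (𝓞 Qb)} (hP : P.IsPrime) (h6 : 6 * δ ∉ P) {g : GQ}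
    (hδ : g δ = δ) (hg : ∀ x : 𝓞 Qb, g • x - x ∈ P) {p : Qb × Qb} (hp : Pt (δ : Qb) p) :
    act g p = p := by
  have iδ : IsIntegral ℤ (δ : Qb) := δ.2
  have c : ∀ n : ℕ, IsIntegral ℤ (n : Qb) := fun n => by
    simpa using isIntegral_algebraMap (R := ℤ) (A := Qb) (x := (n : ℤ))
  have r1 : ((3 * p.1) ^ 2 - 9 * (δ : Qb)) ^ 2 = 108 * (δ : Qb) ^ 2 := by
    linear_combination 27 * hp.q
  have r2 : (9 * p.2) ^ 2 = 3 * (3 * p.1) * ((3 * p.1) ^ 2 - 9 * (δ : Qb)) := by
    linear_combination 81 * hp.e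
  have i0 : IsIntegral ℤ ((3 * p.1) ^ 2 - 9 * (δ : Qb)) :=
    IsIntegral.of_pow two_pos (by rw [r1]; exact (c 108).mul (iδ.pow 2))
  have i1 : IsIntegral ℤ (3 * p.1) :=
    IsIntegral.of_pow two_pos (by simpa using i0.add ((c 9).mul iδ))
  have i2 : IsIntegral ℤ (9 * p.2) :=
    IsIntegral.of_pow two_pos (by rw [r2]; exact ((c 3).mul i1).mul i0)
  let a : 𝓞 Qb := ⟨3 * p.1, i1⟩
  let y : 𝓞 Qb := ⟨9 * p.2, i2⟩
  have s1 : (a ^ 2 - 9 * δ) ^ 2 = 108 * δ ^ 2 := RingOfIntegers.ext r1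
  have s2 : y ^ 2 = 3 * a * (a ^ 2 - 9 * δ) := RingOfIntegers.ext r2
  have gδ : g • δ = δ := RingOfIntegers.ext hδ
  have t1 : ((g • a) ^ 2 - 9 * δ) ^ 2 = 108 * δ ^ 2 := by
    have := congrArg (MulSemiringAction.toRingHom GQ (𝓞 Qb) g) s1
    simpa only [map_pow, map_sub, map_mul, map_ofNat, MulSemiringAction.toRingHom_apply, gδ]
      using this
  have t2 : (g • y) ^ 2 = 3 * g • a * ((g • a) ^ 2 - 9 * δ) := by
    have := congrArg (MulSemiringAction.toRingHom GQ (𝓞 Qb) g) s2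
    simpa only [map_pow, map_sub, map_mul, map_ofNat, MulSemiringAction.toRingHom_apply, gδ]
      using this
  have n2 : (2 : 𝓞 Qb) ∉ P := fun h => h6 (by
    rw [show 6 * δ = 3 * δ * 2 by ring]
    exact P.mul_mem_left _ h)
  have n3 : (3 : 𝓞 Qb) ∉ P := fun h => h6 (by
    rw [show 6 * δ = 2 * δ * 3 by ring]
    exact P.mul_mem_left _ h)
  have nb : a ^ 2 - 9 * δ ∉ P := fun h => h6 (hP.mem_of_pow_mem 3 (by
    rw [show (6 * δ) ^ 3 = 2 * δ * (a ^ 2 - 9 * δ) * (a ^ 2 - 9 * δ) by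
      linear_combination -2 * δ * s1]
    exact P.mul_mem_left _ h))
  have na : a ∉ P := fun h => h6 (hP.mem_of_pow_mem 3 (by
    rw [show (6 * δ) ^ 3 = 8 * δ * (a ^ 3 - 18 * δ * a) * a by linear_combination -8 * δ * s1]
    exact P.mul_mem_left _ h))
  have ny : y ∉ P := fun h => by
    have : 3 * a * (a ^ 2 - 9 * δ) ∈ P := by
      rw [← s2, pow_two]
      exact P.mul_mem_left _ h
    rcases hP.mem_or_mem this with k | k
    · exact (hP.mem_or_mem k).elim n3 na
    · exact nb k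
  have pm : ∀ z : 𝓞 Qb, z ∉ P → (g • z) ^ 2 = z ^ 2 → g • z = z := by
    intro z hz e
    refine (sq_eq_sq_iff_eq_or_eq_neg.1 e).resolve_right fun k => ?_
    have := P.neg_mem (hg z)
    rw [k, show -(-z - z) = 2 * z by ring] at this
    exact (hP.mem_or_mem this).elim n2 hz
  have ea : g • a = a := by
    refine pm a na ?_
    have e : ((g • a) ^ 2 - a ^ 2) * ((g • a) ^ 2 + a ^ 2 - 18 * δ) = 0 := by
      linear_combination t1 - s1
    refine sub_eq_zero.1 ((mul_eq_zero.1 e).resolve_right fun k => ?_)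
    have : 2 * (a ^ 2 - 9 * δ) ∈ P := by
      rw [show 2 * (a ^ 2 - 9 * δ) = -(g • a + a) * (g • a - a) by linear_combination k]
      exact P.mul_mem_left _ (hg a)
    exact (hP.mem_or_mem this).elim n2 nb
  have ey : g • y = y := pm y ny (by rw [t2, ea, s2])
  have fa : g (3 * p.1) = 3 * p.1 := congrArg (fun z : 𝓞 Qb => (z : Qb)) ea
  have fy : g (9 * p.2) = 9 * p.2 := congrArg (fun z : 𝓞 Qb => (z : Qb)) ey
  rw [map_mul, map_ofNat] at fa fy
  exact Prod.ext (mul_left_cancel₀ (by norm_num) fa) (mul_left_cancel₀ (by norm_num) fy)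

end ChiAux

open ChiAux

theorem chi (alg : ALG) : CHI := by
  intro i D hi hD
  have hI : (i : Qb) ^ 2 = -1 := by exact_mod_cast congrArg (fun z : 𝓞 Qb => (z : Qb)) hi
  obtain ⟨p, hp⟩ := ex_pt (gi (i : Qb) D)
  obtain ⟨-, -, -, -, -, -, -, -, -, -, a1, a2⟩ :=
    alg Qb i _ p (by norm_num) hI (gi_ne hI hD) hp
  have key : ∀ θ, IsChi i D θ → ∀ (g : GQ) (n : ℕ), g i = i → act g p = (mu (i : Qb))^[n] p →
      θ g = n := fun θ h g n hg e => by
    have := (a2 _ _).1 ((h g hg p hp).symm.trans e)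
    rwa [ZMod.natCast_zmod_val] at this
  refine ⟨⟨p, hp⟩, ?_, fun θ h => ⟨⟨fun g g' hg hg' => ?_, ?_⟩, fun P hP h6 g hg hin => ?_,
    fun θ' h' g hg => ?_⟩⟩
  · have e : ∀ g : GQ, ∃ n : ZMod 8, g i = i → act g p = (mu (i : Qb))^[n.val] p := fun g => by
      by_cases hg : g i = i
      · obtain ⟨n, hn⟩ := a1 _ (act_pt (fix_gi hg D) hp)
        exact ⟨n, fun _ => hn⟩
      · exact ⟨0, fun k => absurd k hg⟩
    choose θ hθ using e
    refine ⟨θ, fun g hg q hq => ?_⟩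
    obtain ⟨n, rfl⟩ := a1 q hq
    show act g _ = _
    rw [act_it hg, hθ g hg, ← Function.iterate_add_apply, ← Function.iterate_add_apply, add_comm]
  · rw [key θ h (g * g') ((θ g').val + (θ g).val) (by rw [AlgEquiv.mul_apply, hg', hg]) (by
      show act g (act g' p) = _
      rw [show act g' p = _ from h g' hg' p hp, act_it hg, show act g p = _ from h g hg p hp,
        Function.iterate_add_apply])]
    push_cast
    rw [ZMod.natCast_zmod_val, ZMod.natCast_zmod_val, add_comm]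
  · haveI : Algebra.IsAlgebraic ℚ Qb := AlgebraicClosure.isAlgebraic ℚ
    haveI : Algebra.IsIntegral ℚ Qb := Algebra.IsAlgebraic.isIntegral
    refine ⟨MulAction.stabilizer GQ (i : Qb) ⊓
      (MulAction.stabilizer GQ p.1 ⊓ MulAction.stabilizer GQ p.2),
      (stabilizer_isOpen_of_isIntegral _).inter
        ((stabilizer_isOpen_of_isIntegral _).inter (stabilizer_isOpen_of_isIntegral _)),
      fun g hg => ⟨hg.1, ?_⟩⟩
    exact (key θ h g 0 hg.1 (Prod.ext hg.2.1 hg.2.2)).trans Nat.cast_zero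
  · have e : ((gi i D : 𝓞 Qb) : Qb) = gi (i : Qb) D := by simp [gi]
    refine (key θ h g 0 hg (inert (δ := gi i D) hP (fun k => h6 ?_) ?_ hin ?_)).trans Nat.cast_zero
    · convert k using 1
      simp [gi]
      ring
    · rw [e]
      exact fix_gi hg D
    · rw [e]
      exact hp
  · rw [key θ h g _ hg (h' g hg p hp), ZMod.natCast_zmod_val]

end Vale.Agent.P027M.F
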