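import Vale.Agent.P027M.F.ChiDefs

/-!
# P027, route M, block F5: three Frobenius values and the parity
-/

set_option linter.all false

noncomputable section

namespace Vale.Agent.P027M.F

open NumberField Vale.Agent.P022 Polynomial

namespace FrobAux

/-- the multiplier of the ordinate -/
def cc {R : Type*} [CommRing R] (n : ℕ) (i v : R) : R :=
  (-i) ^ (n / 2) * if n % 2 = 0 then 144 else (1 + i) * (180 - v)

section
variable {κ : Type*} [CommRing κ] [IsDomain κ]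

theorem f5 (ι v : κ) (h5 : (5 : κ) = 0) (hι : ι = 3) (hv : v ^ 2 - 216 * v - 3888 = 0) (n : ℕ)
    (hn : n < 8) (h : 144 * v = cc n ι v) : n = 5 := by
  subst hι
  by_contra h0
  apply one_ne_zero (α := κ)
  unfold cc at h
  interval_cases n <;> simp only [Nat.reduceDiv, Nat.reduceMod, if_true, one_ne_zero, if_false,
    not_true] at h h0 <;> grind

theorem f7 (ι v : κ) (h5 : (5 : κ) = 0) (hι : ι = 2) (hv : v ^ 2 - 216 * v - 3888 = 0) (n : ℕ)
    (hn : n < 8) (h : 144 * v = cc n ι v) : n = 7 := by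
  subst hι
  by_contra h0
  apply one_ne_zero (α := κ)
  unfold cc at h
  interval_cases n <;> simp only [Nat.reduceDiv, Nat.reduceMod, if_true, one_ne_zero, if_false,
    not_true] at h h0 <;> grind

theorem f2 (ι v : κ) (h5 : (13 : κ) = 0) (hι : ι = 5) (hv : v ^ 2 - 216 * v - 3888 = 0) (n : ℕ)
    (hn : n < 8) (h : 144 * v ^ 3 = cc n ι v) : n = 2 := by
  subst hι
  by_contra h0
  apply one_ne_zero (α := κ)
  unfold cc at h
  interval_cases n <;> simp only [Nat.reduceDiv, Nat.reduceMod, if_true, one_ne_zero, if_false,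
    not_true] at h h0 <;> grind

theorem par (w γ : κ) (h3 : (3 : κ) ≠ 0) (hw : w ^ 2 + w + 1 = 0) (N : ℕ) (h : γ = w ^ N) :
    (γ = w → N % 3 = 1) ∧ (γ = -1 - w → N % 3 ≠ 1) := by
  have h1 : w ^ 3 = 1 := by linear_combination (w - 1) * hw
  rw [pow_eq_pow_mod N h1] at h
  refine ⟨fun e => ?_, fun e hN => h3 ?_⟩
  · by_contra hN
    apply h3
    have : N % 3 = 0 ∨ N % 3 = 2 := by omega
    rcases this with h2 | h2 <;> rw [h2, e] at h
    · linear_combination hw - (w + 2) * h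
    · linear_combination 4 * hw - (2 * w + 1) * (hw + h)
  · rw [hN, e] at h
    linear_combination 4 * hw + (2 * w + 1) * h

end

theorem six : (6 : Qb) ≠ 0 := by norm_num

theorem iter (ha : ALG) {i D : Qb} (hi : i ^ 2 = -1) (hD : D ≠ 0) {p : Qb × Qb} (hp : Pt D p)
    (n : ℕ) : Pt D ((mu i)^[n] p) := by
  induction n with
  | zero => exact hp
  | succ n ih => rw [Function.iterate_succ_apply']; exact (ha Qb i D _ six hi hD ih).2.2.1

theorem ysnd (ha : ALG) {i : Qb} (hi : i ^ 2 = -1) {p : Qb × Qb} (hp : Pt 1 p) (n : ℕ) :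
    144 * (3 * ((mu i)^[n] p).2) = cc n i ((3 * p.2) ^ 4) * (3 * p.2) := by
  induction n using Nat.twoStepInduction with
  | zero => simp [cc]
  | one =>
    have h := (ha Qb i 1 p six hi one_ne_zero hp).2.2.2.2.2.2.1
    simp only [cc, Function.iterate_one, Nat.reduceDiv, Nat.reduceMod, one_ne_zero, if_false]
    linear_combination 27 * h
  | more n ih _ =>
    have h := (ha Qb i 1 _ six hi one_ne_zero (iter ha hi one_ne_zero hp n)).2.2.2.1
    rw [Function.iterate_succ_apply', Function.iterate_succ_apply', h]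
    unfold cc at ih ⊢
    rw [Nat.add_div_right _ two_pos, Nat.add_mod_right, pow_succ]
    linear_combination (-i) * ih

theorem xsq (ha : ALG) {i D : Qb} (hi : i ^ 2 = -1) (hD : D ≠ 0) {p : Qb × Qb} (hp : Pt D p)
    (n : ℕ) : ((mu i)^[n] p).1 ^ 2 - D = (-1) ^ n * (p.1 ^ 2 - D) := by
  induction n with
  | zero => simp
  | succ n ih =>
    rw [Function.iterate_succ_apply', (ha Qb i D _ six hi hD (iter ha hi hD hp n)).2.2.2.2.2.1,
      pow_succ (-1 : Qb)]
    linear_combination -ih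

theorem coe_sq {i : 𝓞 Qb} (hi : i ^ 2 = -1) : (i : Qb) ^ 2 = -1 := by
  have := congrArg (fun x : 𝓞 Qb => (x : Qb)) hi
  simpa using this

theorem red {P : Ideal (𝓞 Qb)} {x y : 𝓞 Qb} (h : x - y ∈ P) :
    Ideal.Quotient.mk P x = Ideal.Quotient.mk P y := Ideal.Quotient.eq.2 h

/-- the congruence for the ordinate -/
theorem ord (ha : ALG) (hc : CHI) {i : 𝓞 Qb} {θ : GQ → ZMod 8} {P : Ideal (𝓞 Qb)} {g : GQ}
    (hi : i ^ 2 = -1) (hθ : IsChi i 1 θ) (hP : P.IsPrime) (hg : g i = i) {N : ℕ}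
    (h6 : (3888 : 𝓞 Qb ⧸ P) ≠ 0) (hF : ∀ x : 𝓞 Qb, g • x - x ^ (4 * N + 1) ∈ P) :
    ∃ v : 𝓞 Qb ⧸ P, v ^ 2 - 216 * v - 3888 = 0 ∧
      144 * v ^ N = cc (θ g).val (Ideal.Quotient.mk P i) v := by
  obtain ⟨⟨p, hp⟩, -⟩ := hc i 1 hi one_ne_zero
  have h1 := hθ g hg p hp
  have e1 : gi (i : Qb) 1 = 1 := by simp [gi]
  rw [e1] at hp
  have h8 := (ha Qb i 1 p six (coe_sq hi) one_ne_zero hp).2.2.2.2.2.2.2.1
  have hy : (3 * p.2) ^ 8 - 216 * (3 * p.2) ^ 4 - 3888 = 0 := by linear_combination 243 * h8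
  have hint : IsIntegral ℤ (3 * p.2) := by
    refine ⟨X ^ 8 - (C 216 * X ^ 4 + C 3888), monic_X_pow_sub (lt_of_le_of_lt (b := 4) ?_ ?_), ?_⟩
    · compute_degree
    · norm_num
    · simp only [eval₂_sub, eval₂_add, eval₂_mul, eval₂_C, eval₂_X_pow]
      simp only [eq_intCast, Int.cast_ofNat]
      linear_combination hy
  let y : 𝓞 Qb := ⟨3 * p.2, hint⟩
  have hy' : y ^ 8 - 216 * y ^ 4 - 3888 = 0 := RingOfIntegers.ext (by
    simp only [map_sub, map_mul, map_pow, map_ofNat, map_zero]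
    exact hy)
  have h2 : 144 * g • y = cc (θ g).val i (y ^ 4) * y := RingOfIntegers.ext (by
    have h3 := ysnd ha (coe_sq hi) hp (θ g).val
    rw [← h1] at h3
    have h4 : algebraMap (𝓞 Qb) Qb (g • y) = 3 * g p.2 := by
      show g (3 * p.2) = _
      rw [map_mul, map_ofNat]
    simp only [cc, map_sub, map_mul, map_pow, map_ofNat, map_add, map_one, map_neg, apply_ite, h4]
    simp only [cc, mul_ite] at h3
    exact h3)
  have h3 := congrArg (Ideal.Quotient.mk P) h2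
  have h4 := congrArg (Ideal.Quotient.mk P) hy'
  rw [map_mul, red (hF y)] at h3
  simp only [cc, map_sub, map_mul, map_pow, map_ofNat, map_add, map_one, map_neg, map_zero,
    apply_ite (Ideal.Quotient.mk P)] at h3 h4
  refine ⟨Ideal.Quotient.mk P y ^ 4, by linear_combination h4, mul_right_cancel₀
    (b := Ideal.Quotient.mk P y) (fun h0 => h6 ?_) ?_⟩
  · rw [h0] at h4
    linear_combination -h4
  · unfold cc
    rw [← h3, ← pow_mul, mul_assoc, ← pow_succ]

theorem val_eq {a : ZMod 8} {n : ℕ} (h : a.val = n) : a = n := by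
  rw [← h, ZMod.natCast_zmod_val]

theorem three_ne {i : 𝓞 Qb} (hi : i ^ 2 = -1) {π : GaussianInt} (hπ : Prime π) (h6 : ¬ π ∣ 6)
    {P : Ideal (𝓞 Qb)} (hP : P.IsPrime) (h : gi i π ∈ P) : (3 : 𝓞 Qb ⧸ P) ≠ 0 := by
  intro h3
  have h1 : ¬ π ∣ 3 := fun hd => h6 (hd.trans ⟨2, by norm_num⟩)
  obtain ⟨a, b, e⟩ := hπ.irreducible.coprime_iff_not_dvd.2 h1
  let φ : GaussianInt →+* 𝓞 Qb := Zsqrtd.lift ⟨i, by rw [← pow_two, hi]; simp⟩
  have h2 := congrArg (fun z => Ideal.Quotient.mk P (φ z)) e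
  have h4 : Ideal.Quotient.mk P (φ π) = 0 := Ideal.Quotient.eq_zero_iff_mem.2 h
  simp only [map_add, map_mul, map_ofNat, map_one, h3, h4, mul_zero, add_zero] at h2
  exact zero_ne_one h2

theorem gi_ne {i : Qb} (hi : i ^ 2 = -1) {D : GaussianInt} (hD : D ≠ 0) : gi i D ≠ 0 := by
  intro h
  apply hD
  have h1 : ((D.re * D.re + D.im * D.im : ℤ) : Qb) = 0 := by
    unfold gi at h
    push_cast
    linear_combination ((D.re : Qb) - D.im * i) * h + (D.im : Qb) ^ 2 * hi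
  have h2 : D.re * D.re + D.im * D.im = 0 := by exact_mod_cast h1
  exact Zsqrtd.ext (show D.re = 0 by nlinarith) (show D.im = 0 by nlinarith)

theorem parity (ha : ALG) (hc : CHI) {i : 𝓞 Qb} {θ : GQ → ZMod 8} {P : Ideal (𝓞 Qb)} {g : GQ}
    (hi : i ^ 2 = -1) {D : GaussianInt} (hD : D ≠ 0) (hθ : IsChi i D θ) (hP : P.IsPrime)
    (hg : g i = i) {N : ℕ} (h3 : (3 : 𝓞 Qb ⧸ P) ≠ 0) (hF : ∀ x : 𝓞 Qb, g • x - x ^ N ∈ P) :
    (θ g).val % 2 = 0 ↔ N % 3 = 1 := by
  obtain ⟨⟨p, hp⟩, -⟩ := hc i D hi hD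
  have h1 := hθ g hg p hp
  have hi' := coe_sq hi
  have d0 := gi_ne hi' hD
  have gd : g (gi (i : Qb) D) = gi (i : Qb) D := by simp [gi, hg]
  set d := gi (i : Qb) D with hd
  have h2 := xsq ha hi' d0 hp (θ g).val
  rw [← h1] at h2
  set s : Qb := 3 * (p.1 ^ 2 - d) / (2 * d) with hs
  have s2 : s ^ 2 = 3 := by
    rw [hs]
    field_simp
    linear_combination hp.q
  have gs : g s = (-1) ^ (θ g).val * s := by
    rw [hs, map_div₀, map_mul, map_mul, map_sub, map_pow, gd, map_ofNat, map_ofNat, h2]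
    ring
  have hw : ((-1 + i * s) / 2) ^ 2 + (-1 + i * s) / 2 + 1 = 0 := by
    linear_combination (s ^ 2 / 4) * hi' - (1 / 4) * s2
  have hint : IsIntegral ℤ ((-1 + (i : Qb) * s) / 2) := by
    refine ⟨X ^ 2 + (X + 1), monic_X_pow_add (lt_of_le_of_lt (b := 1) ?_ ?_), ?_⟩
    · compute_degree
    · norm_num
    · simp only [eval₂_add, eval₂_X_pow, eval₂_X, eval₂_one]
      linear_combination hw
  let w : 𝓞 Qb := ⟨(-1 + i * s) / 2, hint⟩
  have hw' : w ^ 2 + w + 1 = 0 := RingOfIntegers.ext (by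
    simp only [map_add, map_pow, map_one, map_zero]
    exact hw)
  have gw : algebraMap (𝓞 Qb) Qb (g • w) = (-1 + i * ((-1) ^ (θ g).val * s)) / 2 := by
    show g ((-1 + i * s) / 2) = _
    rw [map_div₀, map_add, map_mul, map_neg, map_one, map_ofNat, hg, gs]
  have h4 := congrArg (Ideal.Quotient.mk P) hw'
  simp only [map_add, map_pow, map_one, map_zero] at h4
  obtain ⟨k1, k2⟩ := par _ (Ideal.Quotient.mk P (g • w)) h3 h4 N (by rw [red (hF w), map_pow])
  refine ⟨fun h => k1 (congrArg _ (RingOfIntegers.ext ?_)), fun h => ?_⟩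
  · show algebraMap (𝓞 Qb) Qb (g • w) = (-1 + i * s) / 2
    rw [gw, (Nat.even_iff.2 h).neg_one_pow, one_mul]
  · by_contra h5
    refine k2 ?_ h
    have e : g • w = -1 - w := RingOfIntegers.ext (by
      simp only [map_sub, map_neg, map_one]
      show algebraMap (𝓞 Qb) Qb (g • w) = -1 - (-1 + i * s) / 2
      rw [gw, (Nat.odd_iff.2 (by omega)).neg_one_pow]
      ring)
    rw [e, map_sub, map_neg, map_one]

end FrobAux

open FrobAux in
theorem frob (ha : ALG) (hc : CHI) : FROB := by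
  intro i θ P g hi
  have hι := congrArg (Ideal.Quotient.mk P) hi
  rw [map_pow, map_neg, map_one] at hι
  refine ⟨fun hθ => ⟨?_, ?_, ?_⟩, fun D π hD hθ hπ h6 hF => ?_⟩
  · rintro ⟨hP, h1, hg, hF⟩
    have h2 := Ideal.Quotient.eq_zero_iff_mem.2 h1
    simp only [gi, map_add, map_mul, map_intCast, Int.cast_neg, Int.cast_one, Int.cast_ofNat,
      map_neg, map_one, map_ofNat] at h2
    have h5 : (5 : 𝓞 Qb ⧸ P) = 0 := by
      linear_combination (-2 * Ideal.Quotient.mk P i - 1) * h2 + 4 * hι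
    obtain ⟨v, k1, k2⟩ := ord ha hc hi hθ hP hg (N := 1)
      (fun h => one_ne_zero (α := 𝓞 Qb ⧸ P) (by linear_combination 2 * h - 1555 * h5)) hF
    exact val_eq (f5 (Ideal.Quotient.mk P i) v h5 (by linear_combination 3 * h2 - Ideal.Quotient.mk P i * h5) k1 _
      (ZMod.val_lt _) (by rw [← k2, pow_one]))
  · rintro ⟨hP, h1, hg, hF⟩
    have h2 := Ideal.Quotient.eq_zero_iff_mem.2 h1
    simp only [gi, map_add, map_mul, map_intCast, Int.cast_neg, Int.cast_one, Int.cast_ofNat,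
      map_neg, map_one, map_ofNat] at h2
    have h5 : (5 : 𝓞 Qb ⧸ P) = 0 := by
      linear_combination (2 * Ideal.Quotient.mk P i - 1) * h2 + 4 * hι
    obtain ⟨v, k1, k2⟩ := ord ha hc hi hθ hP hg (N := 1)
      (fun h => one_ne_zero (α := 𝓞 Qb ⧸ P) (by linear_combination 2 * h - 1555 * h5)) hF
    exact val_eq (f7 (Ideal.Quotient.mk P i) v h5 (by linear_combination 2 * h2 + Ideal.Quotient.mk P i * h5) k1 _
      (ZMod.val_lt _) (by rw [← k2, pow_one]))
  · rintro ⟨hP, h1, hg, hF⟩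
    have h2 := Ideal.Quotient.eq_zero_iff_mem.2 h1
    simp only [gi, map_add, map_mul, map_intCast, Int.cast_neg, Int.cast_one, Int.cast_ofNat,
      map_neg, map_one, map_ofNat] at h2
    have h5 : (13 : 𝓞 Qb ⧸ P) = 0 := by
      linear_combination (3 - 2 * Ideal.Quotient.mk P i) * h2 + 4 * hι
    obtain ⟨v, k1, k2⟩ := ord ha hc hi hθ hP hg (N := 3)
      (fun h => one_ne_zero (α := 𝓞 Qb ⧸ P) (by linear_combination h - 299 * h5)) hF
    exact val_eq (f2 _ v h5
      (by linear_combination 7 * h2 - (Ideal.Quotient.mk P i + 2) * h5) k1 _ (ZMod.val_lt _) k2)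
  · obtain ⟨hP, h1, hg, hF⟩ := hF
    have h2 := parity ha hc hi hD hθ hP hg (three_ne hi hπ h6 hP h1) hF
    have h3 : ∀ a : ZMod 8, 4 * a = 0 ↔ a.val % 2 = 0 := by decide
    have h4 : 0 ≤ π.norm := GaussianInt.norm_nonneg π
    rw [h3, h2]
    omega

end Vale.Agent.P027M.F
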