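import Vale.Agent.P027M.F.ChiDefs

/-!
# P027, route M, block F5: quartic twists and conjugation of the character
-/

set_option linter.all false

noncomputable section

namespace Vale.Agent.P027M.F

open NumberField Vale.Agent.P022

namespace Twi

section alg

variable {k : Type} [Field k]

/-- scaling of a point -/
def sc (d : k) (p : k × k) : k × k := (d ^ 2 * p.1, d ^ 3 * p.2)

theorem sc_sc (d d' : k) (p : k × k) : sc d (sc d' p) = sc (d * d') p := by
  simp only [sc, Prod.mk.injEq]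
  constructor <;> ring

theorem sc_pt {d D : k} {p : k × k} (hd : d ^ 4 = D) (h : Pt 1 p) : Pt D (sc d p) := by
  subst hd
  refine ⟨?_, ?_⟩
  · simp only [sc]
    linear_combination d ^ 8 * h.q
  · simp only [sc]
    linear_combination d ^ 6 * h.e

theorem mu_sc (i : k) {d : k} (hd : d ≠ 0) (p : k × k) : mu i (sc d p) = sc d (mu i p) := by
  have e : sl i (sc d p) = d * sl i p := by
    simp only [sl, sc]
    by_cases h : 2 * p.1 = 0
    · rw [show 2 * (d ^ 2 * p.1) = d ^ 2 * (2 * p.1) by ring, h]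
      simp
    · have h1 : p.1 ≠ 0 := right_ne_zero_of_mul h
      have h2 : (2 : k) ≠ 0 := left_ne_zero_of_mul h
      field_simp
  unfold mu
  rw [e]
  simp only [sc, Prod.mk.injEq]
  constructor <;> ring

theorem it_sc (i : k) {d : k} (hd : d ≠ 0) (n : ℕ) (p : k × k) :
    (mu i)^[n] (sc d p) = sc d ((mu i)^[n] p) := by
  induction n with
  | zero => rfl
  | succ n ih => rw [Function.iterate_succ_apply', Function.iterate_succ_apply', ih, mu_sc i hd]

variable (A : ALG) {i D : k} (h6 : (6 : k) ≠ 0) (hi : i ^ 2 = -1) (hD : D ≠ 0)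

include A h6 hi hD

theorem it_pt {p : k × k} (h : Pt D p) (n : ℕ) : Pt D ((mu i)^[n] p) := by
  induction n with
  | zero => exact h
  | succ n ih =>
    rw [Function.iterate_succ_apply']
    exact (A k i D _ h6 hi hD ih).2.2.1

theorem it_two {p : k × k} (h : Pt D p) (e : ℕ) : (mu i)^[2 * e] p = sc (i ^ e) p := by
  induction e with
  | zero => simp [sc]
  | succ e ih =>
    rw [show 2 * (e + 1) = 2 * e + 1 + 1 by ring, Function.iterate_succ_apply',
      Function.iterate_succ_apply', (A k i D _ h6 hi hD (it_pt A h6 hi hD h _)).2.2.2.1, ih]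
    simp only [sc, Prod.mk.injEq]
    constructor
    · linear_combination (-(i ^ e) ^ 2 * p.1) * hi
    · linear_combination (-(i ^ e) ^ 3 * i * p.2) * hi

theorem it_neg {p : k × k} (h : Pt D p) (n : ℕ) : (mu (-i))^[n] p = (mu i)^[3 * n] p := by
  induction n with
  | zero => rfl
  | succ n ih =>
    rw [Function.iterate_succ_apply', ih,
      (A k i D _ h6 hi hD (it_pt A h6 hi hD h _)).2.2.2.2.1, ← Function.iterate_add_apply]
    congr 1
    ring

theorem it_b {p : k × k} (h : Pt D p) (n : ℕ) :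
    (((mu i)^[n] p).1 ^ 2 + D) / (2 * ((mu i)^[n] p).1) = i ^ n * ((p.1 ^ 2 + D) / (2 * p.1)) := by
  induction n with
  | zero => simp
  | succ n ih =>
    rw [Function.iterate_succ_apply',
      (A k i D _ h6 hi hD (it_pt A h6 hi hD h _)).2.2.2.2.2.2.2.2.1, ih]
    ring

theorem it_inj {p : k × k} (h : Pt D p) {a b : ℕ} (e : (mu i)^[a] p = (mu i)^[b] p) :
    (a : ZMod 8) = b :=
  ((A k i D _ h6 hi hD h).2.2.2.2.2.2.2.2.2.2.2 a b).1 e

end alg

/-- the action on points -/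
def ac (g : GQ) (p : Qb × Qb) : Qb × Qb := (g p.1, g p.2)

theorem ac_mu (g : GQ) (i : Qb) (p : Qb × Qb) : ac g (mu i p) = mu (g i) (ac g p) := by
  simp [ac, mu, sl, map_ofNat]

theorem ac_it (g : GQ) (i : Qb) (n : ℕ) (p : Qb × Qb) :
    ac g ((mu i)^[n] p) = (mu (g i))^[n] (ac g p) := by
  induction n with
  | zero => rfl
  | succ n ih => rw [Function.iterate_succ_apply', Function.iterate_succ_apply', ac_mu, ih]

theorem ac_pt (g : GQ) {D : Qb} {p : Qb × Qb} (h : Pt D p) : Pt (g D) (ac g p) :=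
  ⟨by simpa [ac, map_ofNat] using congrArg g h.q, by simpa [ac] using congrArg g h.e⟩

theorem gi_norm {i : Qb} (hi : i ^ 2 = -1) (D : GaussianInt) :
    gi i D * gi i (star D) = (D.norm : Qb) := by
  simp only [gi, Zsqrtd.re_star, Zsqrtd.im_star, Zsqrtd.norm_def]
  push_cast
  linear_combination (-(D.im : Qb) ^ 2) * hi

theorem gi_ne {i : Qb} (hi : i ^ 2 = -1) {D : GaussianInt} (hD : D ≠ 0) : gi i D ≠ 0 := fun h => by
  have := gi_norm hi D
  rw [h, zero_mul] at this
  exact hD (GaussianInt.norm_eq_zero.1 (by exact_mod_cast this.symm))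

theorem root4 {i b : Qb} (hi : i ^ 2 = -1) {g : GQ} (hb : g (b ^ 4) = b ^ 4) :
    ∃ e : ℕ, e < 4 ∧ g b = i ^ e * b := by
  rw [map_pow] at hb
  have h2 : (g b - b) * (g b - i * b) * ((g b + b) * (g b + i * b)) = 0 := by
    linear_combination hb - (g b ^ 2 - b ^ 2) * b ^ 2 * hi
  rcases mul_eq_zero.1 h2 with k | k <;> rcases mul_eq_zero.1 k with k | k
  · exact ⟨0, by norm_num, by linear_combination k⟩
  · exact ⟨1, by norm_num, by linear_combination k⟩
  · exact ⟨2, by norm_num, by linear_combination k - b * hi⟩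
  · exact ⟨3, by norm_num, by linear_combination k - i * b * hi⟩

theorem gi_fix {i : Qb} {g : GQ} (h : g i = i) (D : GaussianInt) : g (gi i D) = gi i D := by
  simp [gi, h]

theorem pow_inj {i : Qb} (hi : i ^ 2 = -1) {m n : ℕ} (h : i ^ m = i ^ n) :
    (2 * m : ZMod 8) = 2 * n := by
  have h4 : i ^ 4 = 1 := by linear_combination (i ^ 2 - 1) * hi
  have o : (1 : Qb) ≠ -1 := by norm_num
  have pr : IsPrimitiveRoot i 4 := IsPrimitiveRoot.mk_of_lt i (by norm_num) h4 fun l h0 h1 e => by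
    interval_cases l
    · exact o (by linear_combination -(i + 1) * e + hi)
    · exact o (by linear_combination -e + hi)
    · exact o (by linear_combination (i - 1) * e + (1 + i - i ^ 2) * hi)
  rw [pow_eq_pow_mod m h4, pow_eq_pow_mod n h4] at h
  have e := pr.pow_inj (Nat.mod_lt _ (by norm_num)) (Nat.mod_lt _ (by norm_num)) h
  have : ((2 * m : ℕ) : ZMod 8) = (2 * n : ℕ) := (ZMod.natCast_eq_natCast_iff' _ _ _).2 (by omega)
  exact_mod_cast this

theorem one (A : ALG) (C : CHI) {i : 𝓞 Qb} {D : GaussianInt} {θ θ₁ : GQ → ZMod 8}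
    (hi : i ^ 2 = -1) (hD : D ≠ 0) (h : IsChi i D θ) (h₁ : IsChi i 1 θ₁) (δ : Qb) (g : GQ) (e : ℕ)
    (hδ : δ ^ 4 = gi (i : Qb) D) (gi' : g i = i) (gδ : g δ = (i : Qb) ^ e * δ) :
    θ g = θ₁ g + 2 * e := by
  have hI : (i : Qb) ^ 2 = -1 := by exact_mod_cast congrArg (fun x : 𝓞 Qb => (x : Qb)) hi
  have h6 : (6 : Qb) ≠ 0 := by norm_num
  have D0 := gi_ne hI hD
  have δ0 : δ ≠ 0 := fun z => D0 (by rw [← hδ, z]; norm_num)
  obtain ⟨p, hp⟩ := (C i 1 hi one_ne_zero).1
  have e1 := h₁ g gi' p hp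
  have g1 : gi (i : Qb) 1 = 1 := by simp [gi]
  rw [g1] at hp
  have hq := sc_pt hδ hp
  have e2 := h g gi' _ hq
  have e3 : (g (sc δ p).1, g (sc δ p).2) = sc δ (sc ((i : Qb) ^ e) (g p.1, g p.2)) := by
    rw [sc_sc]
    simp only [sc, map_mul, map_pow, gδ, mul_comm δ]
  rw [e3, e1, ← it_two A h6 hI one_ne_zero (it_pt A h6 hI one_ne_zero hp _),
    ← Function.iterate_add_apply, ← it_sc _ δ0] at e2
  have := it_inj A h6 hI D0 hq e2
  push_cast at this
  rw [ZMod.natCast_zmod_val, ZMod.natCast_zmod_val] at this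
  rw [← this, add_comm]

theorem three (A : ALG) (C : CHI) {i : 𝓞 Qb} {D : GaussianInt} {θ θ' : GQ → ZMod 8}
    (hi : i ^ 2 = -1) (hD : D ≠ 0) (h : IsChi i D θ) (h' : IsChi i (star D) θ') (s g : GQ)
    (si : s i = -i) (gi' : g i = i) : θ (s⁻¹ * g * s) = 3 * θ' g := by
  have hI : (i : Qb) ^ 2 = -1 := by exact_mod_cast congrArg (fun x : 𝓞 Qb => (x : Qb)) hi
  have h6 : (6 : Qb) ≠ 0 := by norm_num
  have D0 := gi_ne hI (star_ne_zero.2 hD)
  have ss : ∀ x, s (s⁻¹ x) = x := fun x => s.apply_symm_apply x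
  have hh : (s⁻¹ * g * s) (i : Qb) = i := by
    apply s.injective
    rw [AlgEquiv.mul_apply, AlgEquiv.mul_apply, ss, si, map_neg, gi']
  obtain ⟨p, hp⟩ := (C i D hi hD).1
  have hq := ac_pt s hp
  rw [show s (gi (i : Qb) D) = gi (i : Qb) (star D) by simp [gi, si]] at hq
  have e1 := congrArg (ac s) (h _ hh p hp)
  have e2 := h' g gi' _ hq
  rw [ac_it, si, it_neg A h6 hI D0 hq] at e1
  have e3 : ac s ((s⁻¹ * g * s) p.1, (s⁻¹ * g * s) p.2) = (g (ac s p).1, g (ac s p).2) := by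
    simp only [ac, AlgEquiv.mul_apply, ss]
  rw [e3, e2] at e1
  have := it_inj A h6 hI D0 hq e1
  push_cast at this
  rw [ZMod.natCast_zmod_val, ZMod.natCast_zmod_val] at this
  rw [this, ← mul_assoc, show (3 * 3 : ZMod 8) = 1 by decide, one_mul]

end Twi

open Twi in
theorem twi (A : ALG) (C : CHI) : TWI := by
  intro i D θ θ₁ hi hD h h₁
  have hI : (i : Qb) ^ 2 = -1 := by exact_mod_cast congrArg (fun x : 𝓞 Qb => (x : Qb)) hi
  have h6 : (6 : Qb) ≠ 0 := by norm_num
  obtain ⟨δ, hδ⟩ := IsAlgClosed.exists_pow_nat_eq (gi (i : Qb) D) (show 0 < 4 by norm_num)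
  refine ⟨one A C hi hD h h₁, fun P hP hm g gi' hg => ?_,
    fun θ' h' => three A C hi hD h h', ?_⟩
  · obtain ⟨e, he, ge⟩ := root4 (b := δ) hI (g := g) (by rw [hδ, gi_fix gi'])
    have c : ((gi i D : 𝓞 Qb) : Qb) = gi (i : Qb) D := by simp [gi]
    have int : IsIntegral ℤ δ := IsIntegral.of_pow (show 0 < 4 by norm_num) (by
      rw [hδ, ← c]
      exact (gi i D).isIntegral_coe)
    let d : 𝓞 Qb := ⟨δ, int⟩
    have d4 : d ^ 4 = gi i D := RingOfIntegers.ext (by rw [c, ← hδ]; rfl)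
    have m2 : gi i (2 * D) = 2 * d ^ 4 := by
      rw [d4]
      simp only [gi, Zsqrtd.re_mul, Zsqrtd.im_mul, Zsqrtd.re_ofNat, Zsqrtd.im_ofNat]
      push_cast
      ring
    have k : (i ^ e - 1) * d ∈ P := by
      convert hg d using 1
      refine RingOfIntegers.ext ?_
      show (((i ^ e - 1) * d : 𝓞 Qb) : Qb) = g δ - δ
      rw [ge]
      push_cast
      show _ * δ = _
      ring
    have k2 : i ^ e - 1 ∈ P := (hP.mem_or_mem k).resolve_right fun z => hm (by
      rw [m2]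
      exact P.mul_mem_left _ (P.pow_mem_of_mem z 4 (by norm_num)))
    have k3 : ∀ u : 𝓞 Qb, u * (i ^ e - 1) ≠ 2 := fun u z => hm (by
      rw [m2, ← z]
      exact P.mul_mem_right _ (P.mul_mem_left _ k2))
    show θ g - θ₁ g = 0
    rw [one A C hi hD h h₁ δ g e hδ gi' ge]
    interval_cases e
    · simp
    · exact absurd (by linear_combination -hi) (k3 (-i - 1))
    · exact absurd (by linear_combination -hi) (k3 (-1))
    · exact absurd (by linear_combination (i ^ 2 - i - 1) * hi) (k3 (i - 1))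
  · have hD' : star D ≠ 0 := star_ne_zero.2 hD
    obtain ⟨δ', hδ'⟩ :=
      IsAlgClosed.exists_pow_nat_eq (gi (i : Qb) (star D)) (show 0 < 4 by norm_num)
    obtain ⟨θ', h'⟩ := (C i (star D) hi hD').2.1
    obtain ⟨p, hp⟩ := (C i 1 hi one_ne_zero).1
    have g1 : gi (i : Qb) 1 = 1 := by simp [gi]
    have hp1 : Pt 1 p := g1 ▸ hp
    obtain ⟨b0, hb0⟩ : ∃ b0 : Qb, b0 = (p.1 ^ 2 + 1) / (2 * p.1) := ⟨_, rfl⟩
    have b4 : 3 * b0 ^ 4 = 4 := by
      rw [hb0]
      simpa using (A Qb i 1 p h6 hI one_ne_zero hp1).2.2.2.2.2.2.2.2.2.1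
    have b0' : b0 ≠ 0 := fun z => by
      rw [z] at b4
      norm_num at b4
    obtain ⟨b, hb⟩ : ∃ b : Qb, b * b0 = δ * δ' * (1 + i) := ⟨_, div_mul_cancel₀ _ b0'⟩
    have p4 : b ^ 4 = ((-3 * D.norm : ℤ) : Qb) := by
      have e1 : b ^ 4 * b0 ^ 4 = δ ^ 4 * δ' ^ 4 * (1 + i) ^ 4 := by
        rw [← mul_pow, hb]
        ring
      have e2 : (1 + i : Qb) ^ 4 = -4 := by
        linear_combination ((i : Qb) ^ 2 + 4 * i + 5) * hI
      rw [hδ, hδ', gi_norm hI, e2] at e1
      push_cast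
      linear_combination (3 / 4) * e1 - (b ^ 4 / 4) * b4
    refine ⟨b, p4, fun s g e si gi' gb => ?_⟩
    have bz : b ≠ 0 := fun z => by
      rw [z, zero_pow (by norm_num)] at p4
      have : (-3 * D.norm : ℤ) = 0 := by exact_mod_cast p4.symm
      exact hD (GaussianInt.norm_eq_zero.1 (by omega))
    obtain ⟨a, -, ga⟩ := root4 (b := δ) hI (g := g) (by rw [hδ, gi_fix gi'])
    obtain ⟨a', -, ga'⟩ := root4 (b := δ') hI (g := g) (by rw [hδ', gi_fix gi'])
    have gb0 : g b0 = (i : Qb) ^ (θ₁ g).val * b0 := by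
      rw [hb0, ← it_b A h6 hI one_ne_zero hp1, ← h₁ g gi' p hp]
      simp [map_ofNat]
    have e1 := congrArg g hb
    rw [map_mul, map_mul, map_mul, map_add, map_one, gi', ga, ga', gb, gb0] at e1
    have e2 : (i : Qb) ^ (e + (θ₁ g).val) = (i : Qb) ^ (a + a') := by
      refine mul_right_cancel₀ (mul_ne_zero bz b0') ?_
      rw [pow_add, pow_add]
      linear_combination e1 - (i : Qb) ^ a * (i : Qb) ^ a' * hb
    have e3 := pow_inj hI e2
    push_cast at e3
    rw [ZMod.natCast_zmod_val] at e3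
    rw [three A C hi hD h h' s g si gi', one A C hi hD h h₁ δ g a hδ gi' ga,
      one A C hi hD' h' h₁ δ' g a' hδ' gi' ga']
    have e8 : (8 : ZMod 8) = 0 := by decide
    linear_combination -e3 - (a' : ZMod 8) * e8

end Vale.Agent.P027M.F
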