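import Vale.Agent.P027M.F.ChiDefs

/-!
# P027, route M, block F5: the finite part of the Hecke character (row F.XI)
-/

set_option linter.all false

noncomputable section

namespace Vale.Agent.P027M.F

open NumberField Vale.Agent.P022

namespace XiP

/-- the discrete logarithm in the field with nine elements to the base `1 + i` -/
def lz (a b : ZMod 3) : ZMod 8 :=
  if a = 0 then (if b = 1 then 6 else 2)
  else if a = 1 then (if b = 0 then 0 else if b = 1 then 1 else 3)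
  else (if b = 0 then 4 else if b = 1 then 7 else 5)

def lam (a : GaussianInt) : ZMod 8 := lz a.re a.im

/-- prime to three -/
def P3 (a : GaussianInt) : Prop := ¬ (((a.re : ℤ) : ZMod 3) = 0 ∧ ((a.im : ℤ) : ZMod 3) = 0)

theorem dvd3 (a : GaussianInt) :
    (3 : GaussianInt) ∣ a ↔ ((a.re : ℤ) : ZMod 3) = 0 ∧ ((a.im : ℤ) : ZMod 3) = 0 := by
  have h := Zsqrtd.intCast_dvd (d := -1) 3 a
  rw [ZMod.intCast_zmod_eq_zero_iff_dvd, ZMod.intCast_zmod_eq_zero_iff_dvd]
  exact_mod_cast h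

theorem p3_iff (a : GaussianInt) : P3 a ↔ ¬ (3 : GaussianInt) ∣ a := by
  rw [dvd3]; rfl

theorem lz_mul : ∀ a b c d : ZMod 3, ¬ (a = 0 ∧ b = 0) → ¬ (c = 0 ∧ d = 0) →
    ¬ (a * c + -1 * b * d = 0 ∧ a * d + b * c = 0) ∧
      lz (a * c + -1 * b * d) (a * d + b * c) = lz a b + lz c d := by
  decide

theorem lz_inj : ∀ a b c d : ZMod 3, ¬ (a = 0 ∧ b = 0) → ¬ (c = 0 ∧ d = 0) →
    lz a b = lz c d → a - c = 0 ∧ b - d = 0 := by
  decide

theorem lz_par : ∀ a b : ZMod 3, ¬ (a = 0 ∧ b = 0) →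
    (4 * lz a b = 0 ↔ a * a - -1 * b * b = 1) := by
  decide

theorem mul3 {a b : GaussianInt} (ha : P3 a) (hb : P3 b) :
    P3 (a * b) ∧ lam (a * b) = lam a + lam b := by
  have h := lz_mul _ _ _ _ ha hb
  unfold P3 lam
  rw [Zsqrtd.re_mul, Zsqrtd.im_mul]
  push_cast
  exact h

theorem inj3 {a b : GaussianInt} (ha : P3 a) (hb : P3 b) (h : lam a = lam b) :
    (3 : GaussianInt) ∣ a - b := by
  rw [dvd3, Zsqrtd.re_sub, Zsqrtd.im_sub]
  push_cast
  exact lz_inj _ _ _ _ ha hb h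

theorem par3 {a : GaussianInt} (ha : P3 a) : 4 * lam a = 0 ↔ a.norm % 3 = 1 := by
  have h := lz_par _ _ ha
  have e : ((a.norm : ℤ) : ZMod 3) = (a.re : ZMod 3) * a.re - -1 * a.im * a.im := by
    rw [Zsqrtd.norm_def]; push_cast; ring
  unfold lam
  rw [h, ← e]
  have h2 := ZMod.intCast_eq_intCast_iff' a.norm 1 3
  rw [Int.cast_one] at h2
  rw [h2]
  norm_num

theorem one3 : P3 1 ∧ lam 1 = 0 := by
  unfold P3 lam
  decide

theorem pow3 {a : GaussianInt} (ha : P3 a) (k : ℕ) : P3 (a ^ k) ∧ lam (a ^ k) = k * lam a := by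
  induction k with
  | zero => rw [pow_zero]; exact ⟨one3.1, by rw [one3.2]; simp⟩
  | succ k ih =>
    rw [pow_succ]
    refine ⟨(mul3 ih.1 ha).1, ?_⟩
    rw [(mul3 ih.1 ha).2, ih.2]
    push_cast
    ring

theorem ne0 {a : GaussianInt} (ha : P3 a) : a ≠ 0 := by
  rintro rfl
  exact (p3_iff 0).1 ha (dvd_zero _)

theorem nu3 : ¬ IsUnit (3 : GaussianInt) := by
  rw [← Zsqrtd.norm_eq_one_iff' (by norm_num)]
  decide

theorem unit3 {u : GaussianInt} (hu : IsUnit u) : P3 u :=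
  (p3_iff u).2 fun h => nu3 (isUnit_of_dvd_unit h hu)

theorem prime_of_norm {z : GaussianInt} (hz : Nat.Prime z.norm.natAbs) : Prime z := by
  refine Irreducible.prime ⟨fun h => ?_, fun a b hab => ?_⟩
  · rw [← Zsqrtd.norm_eq_one_iff] at h
    exact hz.one_lt.ne' h
  · rw [hab, Zsqrtd.norm_mul, Int.natAbs_mul] at hz
    rw [← Zsqrtd.norm_eq_one_iff, ← Zsqrtd.norm_eq_one_iff]
    rcases Nat.prime_mul_iff.1 hz with h | h
    · exact Or.inr h.2
    · exact Or.inl h.2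

theorem ndvd_of_norm {z w : GaussianInt} (h : ¬ z.norm ∣ w.norm) : ¬ z ∣ w := by
  rintro ⟨c, rfl⟩
  exact h ⟨c.norm, Zsqrtd.norm_mul _ _⟩

/-- the value of the character: `(-i) ^ (z / 2)` -/
def hh (z : ZMod 8) : GaussianInt :=
  if z = 0 then 1 else if z = 2 then ⟨0, -1⟩ else if z = 4 then ⟨-1, 0⟩ else ⟨0, 1⟩

theorem hh_add : ∀ z w : ZMod 8, 4 * z = 0 → 4 * w = 0 → hh (z + w) = hh z * hh w := by
  decide

theorem hh_four : ∀ z : ZMod 8, hh z * hh z * hh z * hh z = 1 := by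
  decide

theorem hh_lam : ∀ z : ZMod 8, 4 * z = 0 → P3 (hh z) ∧ lam (hh z) = z := by
  unfold P3 lam
  decide

theorem four_eq : ∀ z w : ZMod 8, (4 * z = 0 ↔ 4 * w = 0) → 4 * (z - w) = 0 := by
  decide

theorem sym_pow {i : 𝓞 Qb} {θ : GQ → ZMod 8} {m : GaussianInt} {F : GaussianInt → ZMod 8}
    (h : Sym i θ m F) {a : GaussianInt} (ha : a ≠ 0) (k : ℕ) : F (a ^ k) = k * F a := by
  induction k with
  | zero => rw [pow_zero, h.unit 1 isUnit_one]; simp
  | succ k ih =>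
    rw [pow_succ, h.mul _ _ (pow_ne_zero _ ha) ha, ih]
    push_cast
    ring

/-- the symbol of the untwisted character on the numbers `1 mod 128` -/
theorem f0 {i : 𝓞 Qb} {θ : GQ → ZMod 8} {F : GaussianInt → ZMod 8} (h : Sym i θ (3 * 1) F)
    (h1 : F ⟨-1, 2⟩ = 5) (h2 : F ⟨-1, -2⟩ = 7) (h3 : F ⟨3, 2⟩ = 2) {a : GaussianInt} (ha : P3 a)
    (h128 : (128 : GaussianInt) ∣ a - 1) : F a = lam a := by
  have p1 : P3 ⟨-1, 2⟩ ∧ lam ⟨-1, 2⟩ = 5 := by unfold P3 lam; decide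
  have p2 : P3 ⟨-1, -2⟩ ∧ lam ⟨-1, -2⟩ = 7 := by unfold P3 lam; decide
  have p3 : P3 ⟨3, 2⟩ ∧ lam ⟨3, 2⟩ = 2 := by unfold P3 lam; decide
  obtain ⟨a0, e0⟩ : ∃ a0 : GaussianInt, a0 = ⟨-1, 2⟩ ^ 14 * ⟨-1, -2⟩ ^ 3 * ⟨3, 2⟩ := ⟨_, rfl⟩
  have q1 := pow3 p1.1 14
  have q2 := pow3 p2.1 3
  have q12 := mul3 q1.1 q2.1
  have q0 := mul3 q12.1 p3.1
  have l0 : lam a0 = 5 := by
    rw [e0, q0.2, q12.2, q1.2, q2.2, p1.2, p2.2, p3.2]; decide
  have g0 : F a0 = 5 := by
    rw [e0, h.mul _ _ (ne0 q12.1) (ne0 p3.1), h.mul _ _ (ne0 q1.1) (ne0 q2.1),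
      sym_pow h (ne0 p1.1), sym_pow h (ne0 p2.1), h1, h2, h3]
    decide
  have d0 : (128 : GaussianInt) ∣ a0 - 1 := ⟨⟨-13792, -20375⟩, by rw [e0]; decide⟩
  rw [← e0] at q0
  obtain ⟨k, hk⟩ : ∃ k : ℕ, (k : ZMod 8) = 3 * lam a := ⟨(3 * lam a).val, ZMod.natCast_zmod_val _⟩
  have qk := pow3 q0.1 k
  have qa := mul3 ha qk.1
  have h16 : (16 : ZMod 8) = 0 := by decide
  have la : lam (a * a0 ^ k) = lam 1 := by
    rw [qa.2, qk.2, hk, l0, one3.2]
    linear_combination lam a * h16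
  have d3 := inj3 qa.1 one3.1 la
  have dk : (128 : GaussianInt) ∣ a0 ^ k - 1 := d0.trans (sub_one_dvd_pow_sub_one a0 k)
  have da : (128 : GaussianInt) ∣ a * a0 ^ k - 1 := by
    have : a * a0 ^ k - 1 = a * (a0 ^ k - 1) + (a - 1) := by ring
    rw [this]
    exact dvd_add (dk.mul_left _) h128
  have z := h.ray _ (ne0 qa.1) da fun π _ hπ => (by rwa [mul_one] at hπ : π ∣ 3).trans d3
  rw [h.mul _ _ (ne0 ha) (ne0 qk.1), sym_pow h (ne0 q0.1), hk, g0] at z
  linear_combination z - lam a * h16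

/-- the data from which the character is built -/
structure Dat (M : GaussianInt) (x : GaussianInt → ZMod 8) : Prop where
  cop : IsCoprime M 3
  add : ∀ a b, P3 a → P3 b → x (a * b) = x a + x b
  ray : ∀ a, P3 a → M ∣ a - 1 → x a = 0
  four : ∀ a, P3 a → IsCoprime a M → 4 * x a = 0

open Classical in
/-- a representative prime to three -/
def rep (M a : GaussianInt) : GaussianInt := if P3 a then a else a + M

theorem rep_p3 {M : GaussianInt} (h : IsCoprime M 3) (a : GaussianInt) : P3 (rep M a) := by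
  unfold rep
  split_ifs with ha
  · exact ha
  · rw [p3_iff, not_not] at ha
    rw [p3_iff]
    intro hb
    exact nu3 (h.isUnit_of_dvd' ((dvd_add_right ha).1 hb) dvd_rfl)

theorem rep_dvd (M a : GaussianInt) : M ∣ rep M a - a := by
  unfold rep
  split_ifs with ha
  · simp
  · simp

theorem rep_eq {M a : GaussianInt} (ha : P3 a) : rep M a = a := by
  unfold rep
  rw [if_pos ha]

theorem cop_congr {M a b : GaussianInt} (h : M ∣ a - b) (hb : IsCoprime b M) : IsCoprime a M := by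
  obtain ⟨c, hc⟩ := h
  have : a = b + M * c := by linear_combination hc
  rw [this]
  exact hb.add_mul_left_left c

theorem x_congr {M : GaussianInt} {x : GaussianInt → ZMod 8} (h : Dat M x) {a b : GaussianInt}
    (ha : P3 a) (hb : P3 b) (hc : IsCoprime b M) (hab : M ∣ a - b) : x a = x b := by
  obtain ⟨u, v, huv⟩ := hc
  have hu := rep_p3 h.cop u
  have d := rep_dvd M u
  have db : M ∣ rep M u * b - 1 := by
    have : rep M u * b - 1 = (rep M u - u) * b - M * v := by linear_combination huv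
    rw [this]
    exact dvd_sub (d.mul_right _) (dvd_mul_right _ _)
  have da : M ∣ rep M u * a - 1 := by
    have : rep M u * a - 1 = rep M u * (a - b) + (rep M u * b - 1) := by ring
    rw [this]
    exact dvd_add (hab.mul_left _) db
  have e1 := h.ray _ (mul3 hu ha).1 da
  have e2 := h.ray _ (mul3 hu hb).1 db
  rw [h.add _ _ hu ha] at e1
  rw [h.add _ _ hu hb] at e2
  linear_combination e1 - e2

open Classical in
/-- the character -/
def xf (M : GaussianInt) (x : GaussianInt → ZMod 8) (a : GaussianInt) : GaussianInt :=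
  if IsCoprime a M then hh (x (rep M a)) else 0

theorem xf_pos {M : GaussianInt} {x : GaussianInt → ZMod 8} {a : GaussianInt}
    (h : IsCoprime a M) : xf M x a = hh (x (rep M a)) := by
  unfold xf
  rw [if_pos h]

theorem xf_neg {M : GaussianInt} {x : GaussianInt → ZMod 8} {a : GaussianInt}
    (h : ¬ IsCoprime a M) : xf M x a = 0 := by
  unfold xf
  rw [if_neg h]

theorem xf_one {M : GaussianInt} {x : GaussianInt → ZMod 8} (h : Dat M x) : xf M x 1 = 1 := by
  rw [xf_pos isCoprime_one_left, rep_eq one3.1, h.ray 1 one3.1 (by simp)]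
  rfl

theorem xf_mul {M : GaussianInt} {x : GaussianInt → ZMod 8} (h : Dat M x) (a b : GaussianInt) :
    xf M x (a * b) = xf M x a * xf M x b := by
  by_cases ha : IsCoprime a M
  · by_cases hb : IsCoprime b M
    · have pa := rep_p3 h.cop a
      have pb := rep_p3 h.cop b
      have ca := cop_congr (rep_dvd M a) ha
      have cb := cop_congr (rep_dvd M b) hb
      rw [xf_pos ha, xf_pos hb, xf_pos (ha.mul_left hb), ← hh_add _ _ (h.four _ pa ca)
        (h.four _ pb cb), ← h.add _ _ pa pb]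
      congr 1
      refine x_congr h (rep_p3 h.cop _) (mul3 pa pb).1 (ca.mul_left cb) ?_
      have : rep M (a * b) - rep M a * rep M b = (rep M (a * b) - a * b) -
          (rep M a - a) * rep M b - a * (rep M b - b) := by ring
      rw [this]
      exact dvd_sub (dvd_sub (rep_dvd _ _) ((rep_dvd _ _).mul_right _)) ((rep_dvd _ _).mul_left _)
    · rw [xf_neg hb, mul_zero, xf_neg fun hc => hb hc.of_mul_left_right]
  · rw [xf_neg ha, zero_mul, xf_neg fun hc => ha hc.of_mul_left_left]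

theorem xf_per {M : GaussianInt} {x : GaussianInt → ZMod 8} (h : Dat M x) (a b : GaussianInt)
    (hab : M ∣ a - b) : xf M x a = xf M x b := by
  by_cases hb : IsCoprime b M
  · rw [xf_pos hb, xf_pos (cop_congr hab hb)]
    congr 1
    refine x_congr h (rep_p3 h.cop _) (rep_p3 h.cop _) (cop_congr (rep_dvd M b) hb) ?_
    have : rep M a - rep M b = (rep M a - a) + (a - b) - (rep M b - b) := by ring
    rw [this]
    exact dvd_sub (dvd_add (rep_dvd _ _) hab) (rep_dvd _ _)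
  · rw [xf_neg hb, xf_neg fun hc => hb (cop_congr (dvd_sub_comm.1 hab) hc)]

end XiP

open XiP in
theorem xi (hR : RECG) (hC : CHI) (hT : TWI) (hF : FROB) : XI := by
  intro i D m θ hi hD hm hDm hθ
  obtain ⟨-, ⟨θ₁, h₁⟩, c₁⟩ := hC i 1 hi one_ne_zero
  obtain ⟨k₁, u₁, -⟩ := c₁ θ₁ h₁
  obtain ⟨k₀, -, -⟩ := (hC i D hi hD).2.2 θ hθ
  obtain ⟨-, ue, -⟩ := hT i D θ θ₁ hi hD hθ h₁
  obtain ⟨ex, hS⟩ := hR i hi
  have ke : Chr i fun g => θ g - θ₁ g := by
    refine ⟨fun g h hg hh => ?_, ?_⟩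
    · rw [k₀.add g h hg hh, k₁.add g h hg hh]; ring
    · obtain ⟨U, oU, hU⟩ := k₀.opn
      obtain ⟨V, oV, hV⟩ := k₁.opn
      refine ⟨U ⊓ V, oU.inter oV, fun g hg => ⟨(hU g hg.1).1, ?_⟩⟩
      rw [(hU g hg.1).2, (hV g hg.2).2, sub_zero]
  obtain ⟨F, sF⟩ := hS θ₁ (3 * 1) k₁ (by decide) u₁
  obtain ⟨G, sG⟩ := hS _ D ke hD ue
  have val : ∀ π : GaussianInt, Nat.Prime π.norm.natAbs → ¬ π.norm ∣ 36 →
      ∃ P g, FrG i π P g ∧ F π = θ₁ g := by
    intro π hp hn
    obtain ⟨P, g, hg⟩ := ex π (prime_of_norm hp)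
    exact ⟨P, g, hg, sF.frob π P g (prime_of_norm hp) (ndvd_of_norm hn) hg⟩
  have v1 : F ⟨-1, 2⟩ = 5 := by
    obtain ⟨P, g, hg, e⟩ := val ⟨-1, 2⟩ (by norm_num [Zsqrtd.norm_def]) (by decide)
    rw [e, ((hF i θ₁ P g hi).1 h₁).1 hg]
  have v2 : F ⟨-1, -2⟩ = 7 := by
    obtain ⟨P, g, hg, e⟩ := val ⟨-1, -2⟩ (by norm_num [Zsqrtd.norm_def]) (by decide)
    rw [e, ((hF i θ₁ P g hi).1 h₁).2.1 hg]
  have v3 : F ⟨3, 2⟩ = 2 := by
    obtain ⟨P, g, hg, e⟩ := val ⟨3, 2⟩ (by norm_num [Zsqrtd.norm_def]) (by decide)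
    rw [e, ((hF i θ₁ P g hi).1 h₁).2.2 hg]
  obtain ⟨x, hx⟩ : ∃ x : GaussianInt → ZMod 8, ∀ a, x a = lam a - (F a + G a) := ⟨_, fun _ => rfl⟩
  have c128 : IsCoprime (128 : GaussianInt) 3 := ⟨-1, 43, by norm_num⟩
  have xadd : ∀ a b, P3 a → P3 b → x (a * b) = x a + x b := by
    intro a b ha hb
    rw [hx, hx, hx, (mul3 ha hb).2, sF.mul a b (ne0 ha) (ne0 hb), sG.mul a b (ne0 ha) (ne0 hb)]
    ring
  have xunit : ∀ u, IsUnit u → x u = lam u := by
    intro u hu
    rw [hx, sF.unit u hu, sG.unit u hu]; ring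
  have xfr : ∀ π P g, Prime π → ¬ π ∣ 3 * (128 * m) → FrG i π P g →
      P3 π ∧ IsCoprime π (128 * m) ∧ x π = lam π - θ g ∧ 4 * x π = 0 := by
    intro π P g hp hn hg
    have n2 : ¬ π ∣ 2 := fun h => hn (h.trans ⟨3 * (64 * m), by ring⟩)
    have n3 : ¬ π ∣ 3 := fun h => hn (h.mul_right _)
    have nD : ¬ π ∣ D := fun h => hn (((hDm π hp h).mul_left _).mul_left _)
    have n6 : ¬ π ∣ 2 * (3 * 1) := fun h => (hp.dvd_or_dvd h).elim n2 fun h => n3 (by simpa using h)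
    have p3 : P3 π := (p3_iff π).2 fun h => by
      obtain ⟨c, hc⟩ := h
      rcases hp.irreducible.isUnit_or_isUnit hc with h | h
      · exact nu3 h
      · exact n3 (by rw [hc]; exact h.mul_right_dvd.2 dvd_rfl)
    have e : x π = lam π - θ g := by
      rw [hx, sF.frob π P g hp n6 hg, sG.frob π P g hp (fun h => (hp.dvd_or_dvd h).elim n2 nD) hg]
      ring
    refine ⟨p3, hp.coprime_iff_not_dvd.2 fun h => hn (h.mul_left _), e, ?_⟩
    rw [e]
    refine four_eq _ _ ((par3 p3).trans ?_)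
    exact ((hF i θ P g hi).2 D π hD hθ hp (by norm_num at n6; exact n6) hg).symm
  have dat : Dat (128 * m) x := by
    refine ⟨c128.mul_left hm, xadd, fun a ha h => ?_, fun a => ?_⟩
    · have h1 : (128 : GaussianInt) ∣ a - 1 := (dvd_mul_right _ _).trans h
      rw [hx, f0 sF v1 v2 v3 ha h1, sG.ray a (ne0 ha) h1 fun π hp hd =>
        (hDm π hp hd).trans ((dvd_mul_left _ _).trans h)]
      ring
    · induction a using UniqueFactorizationMonoid.induction_on_prime with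
      | h₁ => exact fun h => absurd rfl (ne0 h)
      | h₂ u hu =>
        intro h _
        rw [xunit u hu, par3 h, (Zsqrtd.norm_eq_one_iff' (by norm_num) u).2 hu]
        rfl
      | h₃ a p ha hp ih =>
        intro h hc
        have pa : P3 a := (p3_iff a).2 fun hd => (p3_iff _).1 h (hd.mul_left _)
        have n : ¬ p ∣ 3 * (128 * m) := fun hd => by
          rcases hp.dvd_or_dvd hd with hd | hd
          · obtain ⟨c, hc3⟩ := hd
            have pp : P3 p := (p3_iff p).2 fun hd => (p3_iff _).1 h (hd.mul_right _)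
            by_cases pc : P3 c
            · exact (p3_iff _).1 (mul3 pp pc).1 (by rw [← hc3])
            · rw [p3_iff, not_not] at pc
              obtain ⟨t, rfl⟩ := pc
              have : (3 : GaussianInt) * (p * t) = 3 * 1 := by linear_combination -hc3
              exact hp.not_unit (IsUnit.of_mul_eq_one t (mul_left_cancel₀ (by decide) this))
          · exact hp.not_unit (hc.of_mul_left_left.isUnit_of_dvd' dvd_rfl hd)
        obtain ⟨P, g, hg⟩ := ex p hp
        obtain ⟨pp, -, -, f⟩ := xfr p P g hp n hg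
        rw [xadd p a pp pa, mul_add, f, ih pa hc.of_mul_left_right, add_zero]
  have ui : IsUnit gI := (Zsqrtd.norm_eq_one_iff' (by norm_num) gI).1 (by decide)
  refine ⟨⟨⟨xf (128 * m) x, xf_one dat⟩, xf_mul dat⟩, xf_per dat, fun a ha => ?_,
    fun a ha => xf_neg ha, ?_, fun π P g hp hn hg => ?_⟩
  · show xf (128 * m) x a ^ 4 = 1
    rw [xf_pos ha, ← hh_four (x (rep (128 * m) a))]
    ring
  · show xf (128 * m) x gI = gI
    have cu : IsCoprime gI (128 * m) := by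
      obtain ⟨v, hv⟩ := ui.exists_left_inv
      exact ⟨v, 0, by rw [hv]; ring⟩
    rw [xf_pos cu, rep_eq (unit3 ui), xunit gI ui]
    unfold lam
    decide
  · show (3 : GaussianInt) ∣ (1 + gI) ^ (θ g).val * xf (128 * m) x π - π
    obtain ⟨pp, cp, e, f⟩ := xfr π P g hp hn hg
    have p1 : P3 (1 + gI) ∧ lam (1 + gI) = 1 := by unfold P3 lam; decide
    have q1 := pow3 p1.1 (θ g).val
    have q2 := hh_lam _ f
    rw [xf_pos cp, rep_eq pp]
    refine inj3 (mul3 q1.1 q2.1).1 pp ?_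
    rw [(mul3 q1.1 q2.1).2, q1.2, q2.2, p1.2, e, ZMod.natCast_zmod_val]
    ring

end Vale.Agent.P027M.F
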