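import Vale.Agent.P027M.F.ChiRec
import Vale.Agent.P027M.F.ChiAlg
import Vale.Agent.P027M.F.ChiChr
import Vale.Agent.P027M.F.ChiTwi
import Vale.Agent.P027M.F.ChiFrob
import Vale.Agent.P027M.F.ChiXi

/-! # P027M, block F5: the closed statements -/

namespace Vale.Agent.P027M.F

theorem chi0 : CHI := chi alg

theorem twi0 : TWI := twi alg chi0

theorem frob0 : FROB := frob alg chi0

theorem xi0 : XI := xi recg chi0 twi0 frob0

end Vale.Agent.P027M.F
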