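import Vale.Agent.P027M.F.Aut

/-! # P027 route M, block F: the twisted semilinear action `rr` on `FF` -/

namespace Vale.Agent.P027M.F

variable {k : Type*} [Field k]

/-- the descent data -/
structure Tw (P : Par k) where
  g0' : k
  ν : k
  x : k
  hg0' : g0' ≠ 0
  hν : ν ^ 2 = P.c * P.g0 * g0'
  hx : x ^ 2 = ν ^ 3 * P.b2

namespace Tw

variable {P : Par k} (T : Tw P)

/-- the constant of the action on `Y` -/
def θ : k := P.i * T.x / P.g0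

theorem ν_ne : T.ν ≠ 0 := fun h =>
  mul_ne_zero (mul_ne_zero P.c_ne P.hg0) T.hg0' (by rw [← T.hν, h]; ring)

theorem x_ne : T.x ≠ 0 := fun h =>
  mul_ne_zero (pow_ne_zero 3 T.ν_ne) P.b2_ne (by rw [← T.hx, h]; ring)

theorem θ_ne : T.θ ≠ 0 := div_ne_zero (mul_ne_zero P.i_ne T.x_ne) P.hg0

theorem θ_sq : T.θ ^ 2 * P.g0 = -(T.ν * P.c * P.b2 * T.g0') := by
  have := P.hg0
  unfold θ
  field_simp
  linear_combination T.x ^ 2 * P.hi - T.hx - T.ν * P.b2 * T.hν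

/-- `σ` fixes all the constants -/
def Fx (σ : RingAut k) : Prop := σ P.i = P.i ∧ σ P.g0 = P.g0 ∧ σ T.g0' = T.g0'

/-- `σ` acts as the conjugation on the constants -/
def Sw (σ : RingAut k) : Prop := σ P.i = -P.i ∧ σ P.g0 = T.g0' ∧ σ T.g0' = P.g0

/-- the automorphisms of the constants which act on `FF` -/
def Sig : Subgroup (RingAut k) where
  carrier := {σ | σ P.g = P.g ∧ σ T.ν = T.ν ∧ σ T.x = T.x ∧ (T.Fx σ ∨ T.Sw σ)}
  one_mem' := ⟨rfl, rfl, rfl, Or.inl ⟨rfl, rfl, rfl⟩⟩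
  mul_mem' := by
    rintro σ τ ⟨a1, a2, a3, a4⟩ ⟨b1, b2, b3, b4⟩
    have hm : ∀ z, (σ * τ) z = σ (τ z) := fun _ => rfl
    refine ⟨by rw [hm, b1, a1], by rw [hm, b2, a2], by rw [hm, b3, a3], ?_⟩
    rcases a4 with ⟨c1, c2, c3⟩ | ⟨c1, c2, c3⟩ <;> rcases b4 with ⟨d1, d2, d3⟩ | ⟨d1, d2, d3⟩
    · exact Or.inl ⟨by rw [hm, d1, c1], by rw [hm, d2, c2], by rw [hm, d3, c3]⟩
    · exact Or.inr ⟨by rw [hm, d1, map_neg, c1], by rw [hm, d2, c3], by rw [hm, d3, c2]⟩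
    · exact Or.inr ⟨by rw [hm, d1, c1], by rw [hm, d2, c2], by rw [hm, d3, c3]⟩
    · exact Or.inl ⟨by rw [hm, d1, map_neg, c1, neg_neg], by rw [hm, d2, c3], by rw [hm, d3, c2]⟩
  inv_mem' := by
    rintro σ ⟨a1, a2, a3, a4⟩
    have hm : ∀ {y z}, σ y = z → σ⁻¹ z = y := fun h => by rw [← h]; exact σ.symm_apply_apply _
    refine ⟨hm a1, hm a2, hm a3, ?_⟩
    rcases a4 with ⟨c1, c2, c3⟩ | ⟨c1, c2, c3⟩
    · exact Or.inl ⟨hm c1, hm c2, hm c3⟩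
    · exact Or.inr ⟨hm (by rw [map_neg, c1, neg_neg]), hm c3, hm c2⟩

variable {T}

theorem fx_of {σ : T.Sig} (h : (σ : RingAut k) P.i = P.i) : T.Fx σ := by
  rcases σ.2.2.2.2 with h1 | h1
  · exact h1
  · exact absurd (by linear_combination h1.1 - h : 2 * P.i = 0) (mul_ne_zero P.h2 P.i_ne)

theorem sw_of {σ : T.Sig} (h : (σ : RingAut k) P.i ≠ P.i) : T.Sw σ :=
  σ.2.2.2.2.resolve_left fun h1 => h h1.1

theorem Sw.ne {σ : RingAut k} (h : T.Sw σ) : σ P.i ≠ P.i := fun h1 =>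
  mul_ne_zero P.h2 P.i_ne (by linear_combination h.1 - h1)

theorem Fx.θ {σ : T.Sig} (h : T.Fx σ) : (σ : RingAut k) T.θ = T.θ := by
  rw [Tw.θ, map_div₀, map_mul, h.1, h.2.1, σ.2.2.2.1]

theorem Sw.θ {σ : T.Sig} (h : T.Sw σ) : (σ : RingAut k) T.θ = -(P.i * T.x / T.g0') := by
  rw [Tw.θ, map_div₀, map_mul, h.1, h.2.1, σ.2.2.2.1]; ring

variable [IsAlgClosed k]

theorem exists_r0 (σ : T.Sig) : ∃ φ : P.FF →+* P.FF,
    (∀ a, φ (P.ι a) = P.ι ((σ : RingAut k) a)) ∧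
    (T.Fx σ → φ P.M1 = P.M1 ∧ φ P.M2 = P.M2 ∧ φ P.M3 = P.M3 ∧ φ P.Y = P.Y) ∧
    (T.Sw σ → P.IsInv φ T.ν T.θ) := by
  rcases σ.2.2.2.2 with h | h
  · obtain ⟨φ, hφ⟩ := P.exists_coef ((σ : RingAut k) : k →+* k) σ.2.1 h.2.1
    exact ⟨φ, hφ.c, fun _ => ⟨hφ.m1, hφ.m2, hφ.m3, hφ.y⟩, fun h' => absurd h.1 h'.ne⟩
  · have h0 : ((σ : RingAut k) : k →+* k) P.g0 = T.g0' := h.2.1
    obtain ⟨φ, hφ⟩ := P.exists_inv ((σ : RingAut k) : k →+* k) σ.2.1 (ν := T.ν) (θ := T.θ)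
      (by rw [h0]; exact T.hν) (by rw [h0]; exact T.θ_sq)
    exact ⟨φ, hφ.c, fun h' => absurd h'.1 h.ne, fun _ => ⟨hφ.m1, hφ.m2, hφ.m3, hφ.y⟩⟩

/-- the action, as ring homomorphisms -/
noncomputable def r0 (σ : T.Sig) : P.FF →+* P.FF := (exists_r0 σ).choose

theorem r0_c (σ : T.Sig) (a : k) : r0 σ (P.ι a) = P.ι ((σ : RingAut k) a) :=
  (exists_r0 σ).choose_spec.1 a

theorem r0_fx {σ : T.Sig} (h : T.Fx σ) :
    r0 σ P.M1 = P.M1 ∧ r0 σ P.M2 = P.M2 ∧ r0 σ P.M3 = P.M3 ∧ r0 σ P.Y = P.Y :=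
  (exists_r0 σ).choose_spec.2.1 h

theorem r0_sw {σ : T.Sig} (h : T.Sw σ) : P.IsInv (r0 σ) T.ν T.θ :=
  (exists_r0 σ).choose_spec.2.2 h

theorem r0_one : r0 (1 : T.Sig) = RingHom.id _ := by
  obtain ⟨h1, h2, -, h4⟩ := r0_fx (σ := (1 : T.Sig)) ⟨rfl, rfl, rfl⟩
  exact P.hom_ext (fun a => r0_c 1 a) h1 h2 h4

theorem r0_mul (σ τ : T.Sig) : r0 (σ * τ) = (r0 σ).comp (r0 τ) := by
  have hm : ∀ z, ((σ * τ : T.Sig) : RingAut k) z = (σ : RingAut k) ((τ : RingAut k) z) :=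
    fun _ => rfl
  have hν : r0 σ (P.ι T.ν) = P.ι T.ν := by rw [r0_c, σ.2.2.1]
  have hc : ∀ a, r0 (σ * τ) (algebraMap k P.FF a) = (r0 σ).comp (r0 τ) (algebraMap k P.FF a) :=
    fun a => by rw [RingHom.comp_apply, r0_c, r0_c, r0_c, hm]
  rcases σ.2.2.2.2 with a | a <;> rcases τ.2.2.2.2 with b | b
  · obtain ⟨c1, c2, -, c4⟩ := r0_fx (σ := σ * τ) (fx_of (by rw [hm, b.1, a.1]))
    obtain ⟨a1, a2, -, a4⟩ := r0_fx a
    obtain ⟨b1, b2, -, b4⟩ := r0_fx b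
    exact P.hom_ext hc (by rw [RingHom.comp_apply, c1, b1, a1])
      (by rw [RingHom.comp_apply, c2, b2, a2]) (by rw [RingHom.comp_apply, c4, b4, a4])
  · have c := r0_sw (σ := σ * τ) (sw_of (by
      rw [hm, b.1, map_neg, a.1]
      exact fun h => mul_ne_zero P.h2 P.i_ne (by linear_combination -h)))
    obtain ⟨a1, a2, a3, a4⟩ := r0_fx a
    have b' := r0_sw b
    refine P.hom_ext hc (by rw [RingHom.comp_apply, c.m1, b'.m1, map_div₀, hν, a1])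
      (by rw [RingHom.comp_apply, c.m2, b'.m2, map_div₀, hν, a2]) ?_
    rw [RingHom.comp_apply, c.y, b'.y]
    simp only [map_div₀, map_mul, map_ofNat, r0_c, a.θ, Par.De, Par.N, map_sub, map_add, a1, a2,
      a3, a4]
  · have c := r0_sw (σ := σ * τ) (sw_of (by rw [hm, b.1]; exact a.ne))
    have a' := r0_sw a
    obtain ⟨b1, b2, -, b4⟩ := r0_fx b
    exact P.hom_ext hc (by rw [RingHom.comp_apply, c.m1, b1, a'.m1])
      (by rw [RingHom.comp_apply, c.m2, b2, a'.m2]) (by rw [RingHom.comp_apply, c.y, b4, a'.y])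
  · obtain ⟨c1, c2, -, c4⟩ := r0_fx (σ := σ * τ) (fx_of (by rw [hm, b.1, map_neg, a.1, neg_neg]))
    have a' := r0_sw a
    have b' := r0_sw b
    refine P.hom_ext hc
      (by rw [RingHom.comp_apply, c1, b'.m1, Par.IsInv.mm hν T.ν_ne a'.m1])
      (by rw [RingHom.comp_apply, c2, b'.m2, Par.IsInv.mm hν T.ν_ne a'.m2]) ?_
    rw [RingHom.comp_apply, c4, a'.yy b' (r0_c σ _) T.ν_ne T.θ_ne, a.θ, ← map_pow, T.hν, θ]
    have := P.ι_ne P.i_ne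
    have := P.ι_ne T.x_ne
    have := P.ι_ne P.c_ne
    have := P.ι_ne P.hg0
    have := P.ι_ne T.hg0'
    simp only [map_mul, map_neg, map_div₀]
    field_simp

variable (T)

/-- **the twisted action** -/
noncomputable def rr : T.Sig →* RingAut P.FF where
  toFun σ := P.mkAut (r0 σ) (r0 σ⁻¹) (by rw [← r0_mul, mul_inv_cancel, r0_one])
    (by rw [← r0_mul, inv_mul_cancel, r0_one])
  map_one' := RingEquiv.ext fun z => DFunLike.congr_fun (r0_one (T := T)) z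
  map_mul' σ τ := RingEquiv.ext fun z => DFunLike.congr_fun (r0_mul σ τ) z

variable {T}

theorem rr_c (σ : T.Sig) (a : k) : T.rr σ (P.ι a) = P.ι ((σ : RingAut k) a) := r0_c σ a
theorem rr_M1 {σ : T.Sig} (h : T.Fx σ) : T.rr σ P.M1 = P.M1 := (r0_fx h).1
theorem rr_M2 {σ : T.Sig} (h : T.Fx σ) : T.rr σ P.M2 = P.M2 := (r0_fx h).2.1
theorem rr_M3 {σ : T.Sig} (h : T.Fx σ) : T.rr σ P.M3 = P.M3 := (r0_fx h).2.2.1
theorem rr_Y {σ : T.Sig} (h : T.Fx σ) : T.rr σ P.Y = P.Y := (r0_fx h).2.2.2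
theorem rr_N {σ : T.Sig} (h : T.Fx σ) : T.rr σ P.N = P.N := by
  rw [Par.N, map_add, map_add, rr_M1 h, rr_M2 h, rr_M3 h]
theorem rr_De {σ : T.Sig} (h : T.Fx σ) : T.rr σ P.De = P.De := by
  simp only [Par.De, map_mul, map_sub, rr_M1 h, rr_M2 h, rr_M3 h]
theorem rr_W {σ : T.Sig} (h : T.Fx σ) : T.rr σ P.W = P.W := by
  rw [Par.W_eq]
  simp only [map_div₀, map_mul (T.rr σ), map_pow, map_sub, rr_c, rr_Y h, rr_M1 h, h.2.1]
  rw [map_mul (σ : RingAut k), h.2.1, σ.2.1]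
theorem rr_sw {σ : T.Sig} (h : T.Sw σ) : P.IsInv (T.rr σ : P.FF →+* P.FF) T.ν T.θ := r0_sw h

/-- an automorphism which is the identity on the constants and whose values on the generators are
fixed by `rr σ` commutes with `rr σ` -/
theorem comm_fx {σ : T.Sig} (h : T.Fx σ) {e : RingAut P.FF} (hc : ∀ a, e (P.ι a) = P.ι a)
    (h1 : T.rr σ (e P.M1) = e P.M1) (h2 : T.rr σ (e P.M2) = e P.M2)
    (h3 : T.rr σ (e P.Y) = e P.Y) : T.rr σ * e = e * T.rr σ :=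
  P.aut_ext (fun a => by simp only [Par.mul_ap, hc, rr_c]) (by simp only [Par.mul_ap, h1, rr_M1 h])
    (by simp only [Par.mul_ap, h2, rr_M2 h]) (by simp only [Par.mul_ap, h3, rr_Y h])

theorem rr_rho (σ : T.Sig) : T.rr σ * P.rho = P.rho * T.rr σ := by
  rcases σ.2.2.2.2 with h | h
  · exact comm_fx h P.rho_c (by rw [P.rho_M1, rr_M2 h]) (by rw [P.rho_M2, rr_M3 h])
      (by rw [P.rho_Y, rr_Y h])
  · exact (rr_sw h).comm_rho fun a => ⟨_, rr_c σ a⟩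

theorem rr_iota (σ : T.Sig) : T.rr σ * P.iota = P.iota * T.rr σ := by
  rcases σ.2.2.2.2 with h | h
  · exact comm_fx h P.iota_c (by rw [P.iota_M1, map_neg, rr_M1 h])
      (by rw [P.iota_M2, map_neg, rr_M2 h]) (by rw [P.iota_Y, map_mul, rr_Y h, rr_c, h.1])
  · exact (rr_sw h).iota_anti (fun a => ⟨_, rr_c σ a⟩) (by rw [rr_c, h.1, Par.ι, map_neg])

theorem rr_tau_fx {σ : T.Sig} (h : T.Fx σ) : T.rr σ * P.tau = P.tau * T.rr σ :=
  comm_fx h P.tau_c (by rw [P.tau_M1, rr_M1 h]) (by rw [P.tau_M2, rr_M3 h])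
    (by rw [P.tau_Y, rr_Y h])

theorem rr_tau_sw {σ : T.Sig} (h : T.Sw σ) :
    P.tau * T.rr σ = T.rr σ * P.tau * (P.iota * P.iota) :=
  (rr_sw h).comm_tau fun a => ⟨_, rr_c σ a⟩

theorem rr_inv {σ : T.Sig} (h : T.Fx σ) {e : RingAut P.FF} {ν θ : k} (hc : ∀ a, e (P.ι a) = P.ι a)
    (he : P.IsInv (e : P.FF →+* P.FF) ν θ) (hν : (σ : RingAut k) ν = ν)
    (hθ : (σ : RingAut k) θ = θ) : T.rr σ * e = e * T.rr σ := by
  have h1 : e P.M1 = _ := he.m1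
  have h2 : e P.M2 = _ := he.m2
  have h4 : e P.Y = _ := he.y
  refine comm_fx h hc (by rw [h1, map_div₀, rr_c, hν, rr_M1 h])
    (by rw [h2, map_div₀, rr_c, hν, rr_M2 h]) ?_
  rw [h4]
  simp only [map_div₀, map_mul, map_ofNat, rr_c, hθ, rr_De h, rr_N h, rr_Y h]

end Tw

end Vale.Agent.P027M.F
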