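import Vale.Agent.P027M.F.ArDefs
import Vale.Agent.P027M.F.Tw
import Vale.Agent.P027M.F.ChiK

/-! # P027M, block F8: from the arithmetic data to the parameters over `ℚ̄` -/

set_option linter.all false

noncomputable section

namespace Vale.Agent.P027M.F

open NumberField Vale.Agent.P022

theorem gi_star {R : Type*} [CommRing R] (i : R) (z : GaussianInt) :
    gi i (star z) = gi (-i) z := by simp [gi]

theorem gi_mul_star {R : Type*} [CommRing R] {i : R} (hi : i ^ 2 = -1) (z : GaussianInt) :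
    gi i z * gi i (star z) = (z.norm : R) := by
  rw [← giH_apply i hi, ← giH_apply i hi, ← map_mul, ← Zsqrtd.norm_eq_mul_conj, map_intCast]

theorem gi_pow {R : Type*} [CommRing R] {i : R} (hi : i ^ 2 = -1) (z : GaussianInt) (n : ℕ) :
    gi i (z ^ n) = gi i z ^ n := map_pow (giH i hi) z n

theorem i_cases {i : 𝓞 Qb} (hi : i ^ 2 = -1) (σ : GQ) : σ i = i ∨ σ i = -i := by
  have h := coe_sq hi
  have h1 : σ i ^ 2 = -1 := by rw [← map_pow, h, map_neg, map_one]
  have h2 : (σ i - i) * (σ i + i) = 0 := by linear_combination h1 - h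
  rcases mul_eq_zero.1 h2 with h3 | h3
  · exact Or.inl (sub_eq_zero.1 h3)
  · exact Or.inr (eq_neg_of_add_eq_zero_left h3)

theorem gi_swap {i : 𝓞 Qb} {σ : GQ} (h : σ i = -i) (z : GaussianInt) :
    σ (gi (i : Qb) z) = gi (i : Qb) (star z) := by simp [gi, h]

namespace Dat

variable {g : ℚ} (d : Dat g)

include d in
theorem c_ne : c3 g ≠ 0 := div_ne_zero (mul_ne_zero d.hg d.hm3) d.hp1

include d in
theorem b2_ne : b2 g ≠ 0 :=
  div_ne_zero (mul_ne_zero (by norm_num) (pow_ne_zero _ d.hg)) (pow_ne_zero _ d.hp1)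

theorem norm_ne : d.β.norm ≠ 0 := fun h => d.c_ne (by rw [d.hc, h]; simp)

theorem β_ne : d.β ≠ 0 := fun h => d.norm_ne (by rw [h]; simp)

theorem norm_pos : 0 < d.β.norm := lt_of_le_of_ne (GaussianInt.norm_nonneg _) d.norm_ne.symm

theorem m_ne : d.m ≠ 0 := fun h => d.β_ne (zero_dvd_iff.1 (h ▸ d.m_dvd))

/-- the twisting parameter of the elliptic curve -/
def D : GaussianInt := d.β ^ 3

theorem D_ne : d.D ≠ 0 := pow_ne_zero _ d.β_ne

theorem norm_D : d.D.norm = d.β.norm ^ 3 := map_pow Zsqrtd.normMonoidHom d.β 3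

theorem dvd_of_dvd_D {π : GaussianInt} (h : Prime π) (h' : π ∣ d.D) : π ∣ d.m :=
  h.dvd_of_dvd_pow ((h.dvd_of_dvd_pow h').trans d.dvd_m)

/-- the level -/
def lev (_ : Dat g) : ℕ := 2 ^ 16 * (7 * 19 * Vis g)

theorem lev_eq : (d.lev : ℤ) = 4 * (128 * d.m).norm := by
  rw [Zsqrtd.norm_mul, d.normm, lev, show (128 : GaussianInt).norm = 2 ^ 14 by decide]
  push_cast; ring

section

variable {k : Type*} [Field k] [CharZero k] (i : k) (hi : i ^ 2 = -1)

theorem b2_cast (g : ℚ) : ((b2 g : ℚ) : k) = b2 (g : k) := by simp [b2]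

theorem c3_cast (g : ℚ) : ((c3 g : ℚ) : k) = c3 (g : k) := by simp [c3]

include hi in
theorem gi_ne {z : GaussianInt} (h : z ≠ 0) : gi i z ≠ 0 := fun h0 =>
  h (giH_inj i hi (by rw [map_zero]; exact h0))

/-- the parameters over a field of characteristic zero -/
def par : Par k where
  g := g
  g0 := gi i d.D / ((b2 g : ℚ) : k)
  i := i
  hi := hi
  h2 := two_ne_zero
  h3 := three_ne_zero
  hg0 := div_ne_zero (gi_ne i hi d.D_ne) (by exact_mod_cast d.b2_ne)
  hg := by exact_mod_cast d.hg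
  hp1 := by exact_mod_cast d.hp1
  hm3 := by exact_mod_cast d.hm3
  hm1 := by exact_mod_cast d.hm1
  hp3 := by exact_mod_cast d.hp3

theorem par_g : (d.par i hi).g = g := rfl
theorem par_i : (d.par i hi).i = i := rfl
theorem par_g0 : (d.par i hi).g0 = gi i d.D / ((b2 g : ℚ) : k) := rfl
theorem par_b2 : (d.par i hi).b2 = ((b2 g : ℚ) : k) := (b2_cast g).symm
theorem par_c : (d.par i hi).c = ((c3 g : ℚ) : k) := (c3_cast g).symm

theorem par_D : (d.par i hi).D = gi i d.D := by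
  have : ((b2 g : ℚ) : k) ≠ 0 := by exact_mod_cast d.b2_ne
  rw [Par.D, par_b2, par_g0]; field_simp

/-- the rational number `ν` -/
def ν : ℚ := (d.β.norm : ℚ) ^ 2 * d.z ^ 2 / b2 g

/-- the rational number `x` -/
def x : ℚ := d.ν * d.β.norm * d.z

/-- the descent data -/
def tw : Tw (d.par i hi) where
  g0' := gi i (star d.D) / ((b2 g : ℚ) : k)
  ν := d.ν
  x := d.x
  hg0' := div_ne_zero (gi_ne i hi (star_ne_zero.2 d.D_ne)) (by exact_mod_cast d.b2_ne)
  hν := by
    have : ((b2 g : ℚ) : k) ≠ 0 := by exact_mod_cast d.b2_ne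
    have h := gi_mul_star hi d.D
    rw [d.norm_D] at h
    rw [par_c, par_g0, d.hc, ν]
    push_cast at h ⊢
    field_simp
    linear_combination (-(d.β.norm : k) * (d.z : k) ^ 4) * h
  hx := by
    have : b2 g ≠ 0 := d.b2_ne
    rw [par_b2]
    have h : d.x ^ 2 = d.ν ^ 3 * b2 g := by
      rw [x, ν]; field_simp
    exact_mod_cast h

end

variable {i : 𝓞 Qb} (hi : i ^ 2 = -1)

/-- the parameters over `ℚ̄` -/
abbrev P : Par Qb := d.par (i : Qb) (coe_sq hi)

/-- the descent data over `ℚ̄` -/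
abbrev T : Tw (d.P hi) := d.tw (i : Qb) (coe_sq hi)

theorem fx {σ : GQ} (h : σ i = i) : (d.T hi).Fx σ.toRingEquiv :=
  ⟨h, by
    show σ (_ / _) = _ / _
    rw [map_div₀, gi_fix h, map_ratCast], by
    show σ (_ / _) = _ / _
    rw [map_div₀, gi_fix h, map_ratCast]⟩

theorem sw {σ : GQ} (h : σ i = -i) : (d.T hi).Sw σ.toRingEquiv :=
  ⟨h, by
    show σ (_ / _) = _ / _
    rw [map_div₀, gi_swap h, map_ratCast], by
    show σ (_ / _) = _ / _
    rw [map_div₀, gi_swap h, star_star, map_ratCast]⟩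

theorem mem_Sig (σ : GQ) : σ.toRingEquiv ∈ (d.T hi).Sig :=
  ⟨map_ratCast σ g, map_ratCast σ d.ν, map_ratCast σ d.x,
    (i_cases hi σ).imp (d.fx hi) (d.sw hi)⟩

/-- the Galois group acts on the constants -/
def sig : GQ →* (d.T hi).Sig where
  toFun σ := ⟨σ.toRingEquiv, d.mem_Sig hi σ⟩
  map_one' := rfl
  map_mul' _ _ := rfl

theorem sig_apply (σ : GQ) (a : Qb) : ((d.sig hi σ : (d.T hi).Sig) : RingAut Qb) a = σ a := rfl

/-- **the action of the Galois group on the function field** -/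
def r : GQ →* RingAut (d.P hi).FF := (d.T hi).rr.comp (d.sig hi)

theorem r_c (σ : GQ) (a : Qb) : d.r hi σ ((d.P hi).ι a) = (d.P hi).ι (σ a) := Tw.rr_c _ a

theorem r_N {σ : GQ} (h : σ i = i) : d.r hi σ (d.P hi).N = (d.P hi).N :=
  Tw.rr_N (σ := d.sig hi σ) (d.fx hi h)

theorem r_Y {σ : GQ} (h : σ i = i) : d.r hi σ (d.P hi).Y = (d.P hi).Y :=
  Tw.rr_Y (σ := d.sig hi σ) (d.fx hi h)

end Dat

end Vale.Agent.P027M.F
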