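import Vale.Agent.P027M.F.Defs
import Vale.Agent.P027M.F.ChiAll
import Vale.Agent.P027M.F.Dat
import Vale.Agent.P027M.S.Loc

/-! # P027M, block F: residual traces and determinants -/

set_option linter.all false

noncomputable section

namespace Vale.Agent.P027M.F

open NumberField Vale.Agent.P022
open scoped Pointwise

namespace ResAux

theorem exists_s {i : 𝓞 Qb} (hi : i ^ 2 = -1) : ∃ s : GQ, s (i : Qb) = -i := by
  let ι : Qb →+* ℂ := (IsAlgClosed.lift : Qb →ₐ[ℚ] ℂ)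
  obtain ⟨c, hc⟩ := H916.exists_conj_elt ι
  refine ⟨c, (i_cases hi c).resolve_left fun h => ?_⟩
  have h1 := hc i
  rw [h] at h1
  have h2 : ι i ^ 2 = -1 := by rw [← map_pow, coe_sq hi, map_neg, map_one]
  obtain ⟨r, hr⟩ := Complex.conj_eq_iff_real.1 h1.symm
  rw [hr] at h2
  have h3 : r ^ 2 = -1 := by exact_mod_cast h2
  nlinarith [sq_nonneg r]

theorem ne_of_neg {i : 𝓞 Qb} (hi : i ^ 2 = -1) {s : GQ} (h : s (i : Qb) = -i) :
    s (i : Qb) ≠ i := fun h' => by
  have h2 := coe_sq hi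
  have h3 : (i : Qb) = 0 := by linear_combination (h - h') / 2
  rw [h3] at h2
  norm_num at h2

theorem frg_conj {i : 𝓞 Qb} {π : GaussianInt} {P : Ideal (𝓞 Qb)} {φ s : GQ}
    (hs : s (i : Qb) = -i) (h : FrG i π P φ) : FrG i (star π) (s⁻¹ • P) (s⁻¹ * φ * s) := by
  obtain ⟨h1, h2, h3, h4⟩ := h
  refine ⟨inferInstance, ?_, ?_, fun x => ?_⟩
  · rw [Ideal.mem_inv_pointwise_smul_iff]
    convert h2 using 1
    ext
    show s ((gi i (star π) : 𝓞 Qb) : Qb) = _
    rw [gi_coe, gi_coe, gi_swap hs, star_star]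
  · rw [AlgEquiv.mul_apply, AlgEquiv.mul_apply, hs, map_neg, h3, ← hs, ← AlgEquiv.mul_apply,
      inv_mul_cancel, AlgEquiv.one_apply]
  · rw [Ideal.mem_inv_pointwise_smul_iff, smul_sub, smul_smul, ← mul_assoc, ← mul_assoc,
      mul_inv_cancel, one_mul, mul_smul, smul_pow', Zsqrtd.norm_conj]
    exact h4 _

variable {i : 𝓞 Qb} {ρ : GQ →* TW.M2 O3}

theorem det_ne (ρ : GQ →* TW.M2 O3) (s : GQ) : res3 (ρ s).det ≠ 0 := by
  have : (ρ s).det * (ρ s⁻¹).det = 1 := by
    rw [← Matrix.det_mul, ← map_mul, mul_inv_cancel, map_one, Matrix.det_one]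
  exact ((IsUnit.of_mul_eq_one _ this).map res3).ne_zero

/-- the second character is the conjugate of the first -/
theorem conj11 (hi : i ^ 2 = -1) (h : Shp i ρ) {φ s : GQ} (hs : s (i : Qb) = -i) :
    res3 (ρ φ 1 1) = res3 (ρ (s⁻¹ * φ * s) 0 0) := by
  obtain ⟨a, b⟩ := h.2 s (ne_of_neg hi hs)
  have e : ρ s * ρ (s⁻¹ * φ * s) = ρ φ * ρ s := by
    rw [← map_mul, ← map_mul, ← mul_assoc, ← mul_assoc, mul_inv_cancel, one_mul]
  generalize ρ (s⁻¹ * φ * s) = A at e ⊢
  have e1 := congrArg (fun m : TW.M2 O3 => res3 (m 1 0)) e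
  simp only [Matrix.mul_apply, Fin.sum_univ_two, map_add, map_mul, a, b, zero_mul, mul_zero,
    add_zero, zero_add] at e1
  have d := det_ne ρ s
  rw [Matrix.det_fin_two, map_sub, map_mul, map_mul, a, zero_mul, zero_sub, neg_ne_zero] at d
  exact mul_right_cancel₀ (right_ne_zero_of_mul d) (by rw [← e1, mul_comm])

theorem mul_star_of_four {z : GaussianInt} (h : z ^ 4 = 1) : z * star z = 1 := by
  rw [← Zsqrtd.norm_eq_mul_conj, (Zsqrtd.norm_eq_one_iff' (by norm_num) z).2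
    (IsUnit.of_pow_eq_one h (by norm_num)), Int.cast_one]

/-- the value of the character at a Frobenius element -/
theorem val00 {θ : GQ → ZMod 8} {M : GaussianInt} {ξ : GaussianInt →* GaussianInt}
    (hx : Xi i θ M ξ) {π : GaussianInt} {P : Ideal (𝓞 Qb)} {φ : GQ} (hp : Prime π)
    (hd : ¬ π ∣ 3 * M) (hF : FrG i π P φ) :
    (1 - i9) ^ (θ φ).val = giH i9 i9_sq (star π * ξ π) := by
  obtain ⟨c, hc⟩ := hx.frob π P φ hp hd hF
  have h4 := mul_star_of_four (hx.four π (hp.irreducible.coprime_iff_not_dvd.2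
    fun h => hd (h.mul_left _)))
  have h5 := congrArg (fun z => giH i9 i9_sq (star z * ξ π)) hc
  have h3 : (3 : k9) = 0 := CharP.cast_eq_zero k9 3
  have h6 : star (1 + gI) = 1 - gI := by decide
  have h7 : giH i9 i9_sq gI = i9 := gi_gI i9
  have h8 := congrArg (giH i9 i9_sq) h4
  simp only [star_sub, star_mul, star_pow, h6, star_ofNat, map_mul, map_sub, map_pow, map_one, h7,
    map_ofNat, h3] at h5 h8 ⊢
  linear_combination h5 - (1 - i9) ^ (θ φ).val * h8

theorem ndvd {N l : ℕ} {M π : GaussianInt} (hN : (N : ℤ) = 4 * M.norm) (hl : GoodP N l)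
    (h : (l : ℤ) ∣ π.norm) : ¬ π ∣ 3 * M := fun hd => by
  have h1 : π.norm ∣ (3 * M).norm := map_dvd Zsqrtd.normMonoidHom hd
  rw [Zsqrtd.norm_mul, show (3 : GaussianInt).norm = 9 by decide] at h1
  have h2 : (l : ℤ) ∣ ((6 * N) ^ 2 : ℕ) := by
    refine (h.trans h1).trans ⟨64 * M.norm, ?_⟩
    push_cast
    rw [hN]; ring
  exact hl.2 (hl.1.dvd_of_dvd_pow (Int.natCast_dvd_natCast.1 h2))

theorem gt3 {N l : ℕ} (hl : GoodP N l) : 3 < l := by
  have h2 := hl.1.two_le
  by_contra h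
  have : l = 2 ∨ l = 3 := by omega
  rcases this with rfl | rfl
  · exact hl.2 ⟨3 * N, by ring⟩
  · exact hl.2 ⟨2 * N, by ring⟩

theorem frob_i (hi : i ^ 2 = -1) {l : ℕ} (hl : l.Prime) (h3 : 3 < l) {P : Ideal (𝓞 Qb)}
    (hP : P.IsPrime) (hm : (l : 𝓞 Qb) ∈ P) {φ : GQ} (h : ∀ x : 𝓞 Qb, φ • x - x ^ l ∈ P) :
    (l % 4 = 1 → φ (i : Qb) = i) ∧ (l % 4 = 3 → φ (i : Qb) = -i) := by
  have h4 : i ^ 4 = 1 := by rw [show 4 = 2 * 2 from rfl, pow_mul, hi]; norm_num
  have hl4 : i ^ l = i ^ (l % 4) := by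
    conv_lhs => rw [← Nat.div_add_mod l 4, pow_add, pow_mul, h4, one_pow, one_mul]
  have k := h i
  rw [hl4] at k
  have t := S.Loc.two_not hP hl h3 hm
  constructor
  · intro e
    refine (i_cases hi φ).resolve_right fun e' => t (S.Loc.two_mem hi ?_)
    have e2 : φ • i = -i := RingOfIntegers.ext e'
    rwa [e, pow_one, e2] at k
  · intro e
    refine (i_cases hi φ).resolve_left fun e' => t (S.Loc.two_mem hi ?_)
    have e2 : φ • i = i := RingOfIntegers.ext e'
    rw [e, e2] at k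
    convert P.neg_mem k using 1
    linear_combination (-i) * hi

theorem frg_sq {l : ℕ} (hl : l.Prime) {P : Ideal (𝓞 Qb)} (hP : P.IsPrime)
    (hm : (l : 𝓞 Qb) ∈ P) {φ : GQ} (h : ∀ x : 𝓞 Qb, φ • x - x ^ l ∈ P)
    (hs : φ (i : Qb) = -i) : FrG i (l : GaussianInt) P (φ * φ) := by
  refine ⟨hP, by simpa [gi] using hm, by rw [AlgEquiv.mul_apply, hs, map_neg, hs, neg_neg],
    fun x => ?_⟩
  have e : (l : GaussianInt).norm.natAbs = l * l := by
    rw [Zsqrtd.norm_natCast, Int.natAbs_mul, Int.natAbs_natCast]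
  rw [e, mul_smul, pow_mul, ← sub_add_sub_cancel _ ((φ • x) ^ l)]
  exact P.add_mem (h _) (Ideal.mem_of_dvd _ (sub_dvd_pow_sub_pow _ _ l) (h x))

/-- the conjugate character -/
def cj (ξ : GaussianInt →* GaussianInt) : GaussianInt →* GaussianInt where
  toFun a := star (ξ (star a))
  map_one' := by simp
  map_mul' a b := by rw [star_mul', map_mul, star_mul']

/-- a multiplicative function of period `N` as a character -/
def ofPer {R : Type*} [Monoid R] (N : ℕ) [NeZero N] (f : ℕ →* R) (h : ∀ n, f (n % N) = f n) :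
    ZMod N →* R where
  toFun x := f x.val
  map_one' := by rw [← Nat.cast_one, ZMod.val_natCast, h, map_one]
  map_mul' x y := by rw [ZMod.val_mul, h, map_mul]

theorem ofPer_cast {R : Type*} [Monoid R] (N : ℕ) [NeZero N] (f : ℕ →* R) (h) (n : ℕ) :
    ofPer N f h n = f n := by
  show f (n : ZMod N).val = _
  rw [ZMod.val_natCast, h]

theorem cop_star {a b : GaussianInt} (h : IsCoprime a b) : IsCoprime (star a) (star b) :=
  h.map (starRingEnd GaussianInt)

/-- the Hecke character and its nebentypus -/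
theorem hk_of {θ : GQ → ZMod 8} {m : GaussianInt} {ξ : GaussianInt →* GaussianInt}
    (hx : Xi i θ (128 * m) ξ) {N : ℕ} (hN : (N : ℤ) = 4 * (128 * m).norm) (h0 : m ≠ 0)
    (h3 : IsCoprime m 3) : ∃ ε : ZMod N →* GaussianInt, Hk N ε (star (128 * m)) (cj ξ) := by
  set M := 128 * m with hM
  have M0 : 0 < M.norm := GaussianInt.norm_pos.2 (mul_ne_zero (by norm_num) h0)
  have N0 : 0 < N := by omega
  haveI : NeZero N := ⟨N0.ne'⟩
  have MN : M ∣ (N : GaussianInt) := by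
    refine ⟨4 * star M, ?_⟩
    rw [← Int.cast_natCast, hN, Int.cast_mul, Zsqrtd.norm_eq_mul_conj]
    push_cast; ring
  have N4 : 4 ∣ N := Int.natCast_dvd_natCast.1 ⟨_, hN⟩
  let f : ℕ →* GaussianInt :=
    { toFun := fun n => (ZMod.χ₄ n : ℤ) * ξ n
      map_one' := by simp
      map_mul' := fun a b => by push_cast; rw [map_mul, map_mul]; push_cast; ring }
  have hf : ∀ n, f (n % N) = f n := fun n => by
    show ((ZMod.χ₄ (n % N : ℕ) : ℤ) : GaussianInt) * ξ (n % N : ℕ) = (ZMod.χ₄ n : ℤ) * ξ n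
    rw [ZMod.χ₄_nat_mod_four, Nat.mod_mod_of_dvd _ N4, ← ZMod.χ₄_nat_mod_four,
      hx.per (n % N : ℕ) n (MN.trans ⟨-(n / N : ℕ), by
        have := congrArg (Nat.cast : ℕ → GaussianInt) (Nat.div_add_mod n N)
        push_cast at this
        linear_combination this⟩)]
  have e1 : ξ (-1) = -1 := by rw [← gI_sq, map_pow, hx.ii]
  refine ⟨ofPer N f hf, by rw [Zsqrtd.norm_conj, hN], N0, fun a b h => ?_, fun a h => ?_,
    fun a h => ?_, ?_, ⟨star m, by rw [hM, star_mul', star_ofNat]⟩, fun h => ?_, fun n => ?_,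
    fun u => ?_, ?_⟩
  · refine congrArg star (hx.per _ _ ?_)
    have := map_dvd (starRingEnd GaussianInt) h
    rwa [starRingEnd_apply, starRingEnd_apply, star_star, star_sub] at this
  · show star (ξ (star a)) ^ 4 = 1
    rw [← star_pow, hx.four _ (by simpa using cop_star h), star_one]
  · show star (ξ (star a)) = 0
    rw [hx.zero _ fun h' => h (by simpa using cop_star h'), star_zero]
  · show star (ξ (star gI)) = gI
    rw [show star gI = gI ^ 3 by decide, map_pow, hx.ii]; decide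
  · have h1 : (3 : ℤ) ∣ m.norm := by
      have h2 : (3 : ℤ) ∣ 2 ^ 16 * m.norm := by
        have := Int.natCast_dvd_natCast.2 h
        rwa [hN, hM, Zsqrtd.norm_mul, show (128 : GaussianInt).norm = 2 ^ 14 by decide,
          ← mul_assoc] at this
      omega
    have h2 : (3 : GaussianInt) ∣ m * star m := by
      rw [← Zsqrtd.norm_eq_mul_conj]
      simpa using map_dvd (Int.castRingHom GaussianInt) h1
    have h4 : IsCoprime (m * star m) 3 := h3.mul_left (by simpa using cop_star h3)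
    have h5 := (Zsqrtd.norm_eq_one_iff' (by norm_num) _).2 (h4.isUnit_of_dvd' h2 dvd_rfl)
    exact absurd h5 (by decide)
  · rw [ofPer_cast]
    show _ = _ * star (star (ξ (star (n : GaussianInt))))
    rw [star_star, star_natCast]; rfl
  · have c := ZMod.val_coe_unit_coprime u
    show (((ZMod.χ₄ ((u : ZMod N).val : ℕ) : ℤ) : GaussianInt) * ξ ((u : ZMod N).val : ℕ)) ^ 4 = 1
    have c1 : IsCoprime (((u : ZMod N).val : ℕ) : GaussianInt) M :=
      (Nat.Coprime.isCoprime c |>.map (Int.castRingHom GaussianInt) |>.of_isCoprime_of_dvd_right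
        (by simpa using MN) : IsCoprime (Int.castRingHom GaussianInt _) M)
    have c2 : (u : ZMod N).val % 4 = 1 ∨ (u : ZMod N).val % 4 = 3 := by
      have : ¬ 2 ∣ (u : ZMod N).val := fun h => by
        have := Nat.dvd_gcd h ((show 2 ∣ 4 by norm_num).trans N4)
        rw [c] at this
        omega
      omega
    rw [mul_pow, hx.four _ c1, mul_one]
    rcases c2 with c2 | c2
    · rw [ZMod.χ₄_nat_one_mod_four c2]; simp
    · rw [ZMod.χ₄_nat_three_mod_four c2]; norm_num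
  · have e : (-1 : ZMod N) = ((N - 1 : ℕ) : ZMod N) := by
      rw [Nat.cast_sub N0]; simp
    rw [e, ofPer_cast]
    show ((ZMod.χ₄ (N - 1 : ℕ) : ℤ) : GaussianInt) * ξ (N - 1 : ℕ) = 1
    rw [ZMod.χ₄_nat_three_mod_four (by omega), hx.per (N - 1 : ℕ) (-1) (by
      rw [Nat.cast_sub N0]; simpa using MN), e1]
    norm_num

end ResAux

open ResAux

theorem res : RES := by
  intro g X ρ a shp hc ha
  have hi := X.hi
  obtain ⟨-, ⟨θ, hθ⟩, -⟩ := chi0 X.i X.d.D hi X.d.D_ne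
  obtain ⟨ξ, hx⟩ := xi0 X.i X.d.D X.d.m θ hi X.d.D_ne X.d.cop3 (fun π => X.d.dvd_of_dvd_D) hθ
  have hN : (lev g : ℤ) = 4 * (128 * X.d.m).norm := X.d.lev_eq
  obtain ⟨ε, hk⟩ := hk_of hx hN X.d.m_ne X.d.cop3
  obtain ⟨s, hs⟩ := exists_s hi
  have v0 : ∀ (l : ℕ) π P φ, GoodP (lev g) l → Prime π → (l : ℤ) ∣ π.norm → FrG X.i π P φ →
      res3 (ρ φ 0 0) = giH i9 i9_sq (star π * ξ π) := fun l π P φ hl hp hd hF => by
    rw [hc θ hθ φ hF.2.2.1, val00 hx hp (ndvd hN hl hd) hF]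
  have v1 : ∀ (l : ℕ) π P φ, GoodP (lev g) l → Prime π → (l : ℤ) ∣ π.norm → FrG X.i π P φ →
      res3 (ρ φ 1 1) = giH i9 i9_sq (π * ξ (star π)) := fun l π P φ hl hp hd hF => by
    rw [conj11 hi shp hs, v0 l (star π) _ _ hl
      ((MulEquiv.prime_iff (starRingAut : RingAut GaussianInt)).2 hp)
      (by rwa [Zsqrtd.norm_conj]) (frg_conj hs hF), star_star]
  have pr : ∀ (l : ℕ) (π : GaussianInt), l.Prime → π.norm = l → Prime π := fun l π hl h =>
    XiP.prime_of_norm (by rw [h]; exact hl)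
  have nm : ∀ (l : ℕ) (π : GaussianInt), π.norm = l → π * star π = l := fun l π h => by
    rw [← Zsqrtd.norm_eq_mul_conj, h, Int.cast_natCast]
  have nm' : ∀ (l : ℕ) (π : GaussianInt), π.norm = l → gi X.i π * gi X.i (star π) = l :=
    fun l π h => by rw [gi_mul_star hi, h, Int.cast_natCast]
  have eps : ∀ n : ℕ, ε n = (ZMod.χ₄ n : ℤ) * ξ n := fun n => by
    rw [hk.eps]
    show _ * star (star (ξ (star (n : GaussianInt)))) = _
    rw [star_star, star_natCast]
  refine ⟨ε, _, cj ξ, hk, ⟨fun l π hl hπ => ?_, fun l hl h4 => ?_⟩, fun l φ hl hφ => ?_⟩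
  · obtain ⟨P, φ, hF⟩ := exists_frG hi (pr l π hl.1 hπ)
    have hφ : IsFrob l φ := ⟨P, hF.1, nm' l π hπ ▸ P.mul_mem_right _ hF.2.1, by
      have := hF.2.2.2
      rwa [hπ, Int.natAbs_natCast] at this⟩
    rw [← ha l φ hl hφ, Matrix.trace_fin_two, map_add, v0 l π P φ hl (pr l π hl.1 hπ) (hπ ▸ dvd_rfl) hF,
      v1 l π P φ hl (pr l π hl.1 hπ) (hπ ▸ dvd_rfl) hF, ← map_add, giH_apply, add_comm]
    show _ = gi i9 (π * star (star (ξ (star π))) + star π * star (star (ξ (star (star π)))))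
    simp only [star_star]
  · haveI := Fact.mk hl.1
    obtain ⟨P, φ0, hF⟩ := exists_frG hi
      ((GaussianInt.prime_iff_mod_four_eq_three_of_nat_prime l).2 h4)
    have hm : (l : 𝓞 Qb) ∈ P := by simpa [gi] using hF.2.1
    obtain ⟨φ, hφ⟩ := S.Loc.frob hF.1 hl.1 hm
    obtain ⟨e0, e1⟩ := shp.2 φ (ne_of_neg hi ((frob_i hi hl.1 (gt3 hl) hF.1 hm hφ).2 h4))
    rw [← ha l φ hl ⟨P, hF.1, hm, hφ⟩, Matrix.trace_fin_two, map_add, e0, e1, add_zero]
  · haveI := Fact.mk hl.1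
    obtain ⟨P, hP, hm, hφ⟩ := hφ
    have fi := frob_i hi hl.1 (gt3 hl) hP hm hφ
    have h13 : l % 4 = 1 ∨ l % 4 = 3 := by
      have := hl.1.eq_two_or_odd
      have := gt3 hl
      omega
    rw [Matrix.det_fin_two, map_sub, map_mul, map_mul, eps, ← giH_apply i9 i9_sq]
    rcases h13 with h4 | h4
    · obtain ⟨x, y, hxy⟩ := Nat.Prime.sq_add_sq (p := l) (by omega)
      have h1 : (⟨x, y⟩ : GaussianInt).norm = l := by
        rw [Zsqrtd.norm_def, ← hxy]; push_cast; ring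
      obtain ⟨π, hπ, hπP⟩ : ∃ π : GaussianInt, π.norm = l ∧ gi X.i π ∈ P := by
        rcases hP.mem_or_mem ((nm' l _ h1).symm ▸ hm) with h | h
        · exact ⟨_, h1, h⟩
        · exact ⟨_, (Zsqrtd.norm_conj _).trans h1, h⟩
      have hF : FrG X.i π P φ := ⟨hP, hπP, fi.1 h4, by rwa [hπ, Int.natAbs_natCast]⟩
      rw [v0 l π P φ hl (pr l π hl.1 hπ) (hπ ▸ dvd_rfl) hF,
        v1 l π P φ hl (pr l π hl.1 hπ) (hπ ▸ dvd_rfl) hF, (shp.1 φ (fi.1 h4)).1, zero_mul,
        sub_zero, ZMod.χ₄_nat_one_mod_four h4, ← map_natCast (giH i9 i9_sq), ← map_mul, ← map_mul,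
        ← nm l π hπ, map_mul ξ]
      congr 1
      push_cast; ring
    · obtain ⟨e0, e1⟩ := shp.2 φ (ne_of_neg hi (fi.2 h4))
      have e := v0 l l P (φ * φ) hl
        ((GaussianInt.prime_iff_mod_four_eq_three_of_nat_prime l).2 h4)
        (by rw [Zsqrtd.norm_natCast]; exact dvd_mul_right _ _) (frg_sq hl.1 hP hm hφ (fi.2 h4))
      rw [map_mul ρ, Matrix.mul_apply, Fin.sum_univ_two, map_add, map_mul, map_mul, e0, zero_mul,
        zero_add, star_natCast, map_mul, map_natCast] at e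
      rw [e0, zero_mul, zero_sub, e, ZMod.χ₄_nat_three_mod_four h4, map_mul, map_intCast]
      push_cast; ring

end Vale.Agent.P027M.F
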