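import Vale.Agent.P027M.F.Tw
import Vale.Agent.P025.R2.H492.Line

/-! # P027 route M, block F: the subfields `FC, FE, FM, FN` of `FF` -/

set_option linter.all false

noncomputable section

namespace Vale.Agent.P027M.F

open Polynomial IntermediateField Vale.Agent.P019P P025H492

variable {k : Type*} [Field k] [IsAlgClosed k]

namespace Par

variable (P : Par k)

instance cffFF : CFF k P.FF := by
  refine ⟨inferInstance, P.M1, P.M1_tr, ?_⟩
  have h4 : FiniteDimensional (RatFunc k) P.FF :=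
    Module.finite_of_finrank_pos (by rw [P.finrank_FF]; norm_num)
  have hm : ∀ u : RatFunc k, algebraMap _ P.FF u ∈ k⟮P.M1⟯ := by
    intro u
    rw [← RatFunc.num_div_denom u, map_div₀, poly_eq, poly_eq]
    exact div_mem (algebra_adjoin_le_adjoin k _ (aeval_mem_adjoin_singleton k _))
      (algebra_adjoin_le_adjoin k _ (aeval_mem_adjoin_singleton k _))
  letI : Algebra (RatFunc k) k⟮P.M1⟯ :=
    ((algebraMap (RatFunc k) P.FF).codRestrict k⟮P.M1⟯ hm).toAlgebra
  haveI : IsScalarTower (RatFunc k) k⟮P.M1⟯ P.FF := IsScalarTower.of_algebraMap_eq fun _ => rfl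
  exact Module.Finite.of_restrictScalars_finite (RatFunc k) _ _

/-- the fixed field of a set of automorphisms over `k` -/
def fixF (l : Set (RingAut P.FF)) (h : ∀ e ∈ l, ∀ a, e (P.ι a) = P.ι a) :
    IntermediateField k P.FF where
  carrier := {z | ∀ e ∈ l, e z = z}
  mul_mem' hx hy e he := by rw [map_mul, hx e he, hy e he]
  add_mem' hx hy e he := by rw [map_add, hx e he, hy e he]
  algebraMap_mem' a e he := h e he a
  inv_mem' x hx e he := by rw [map_inv₀, hx e he]

/-- the function field of the curve `C` of genus three -/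
def FC : IntermediateField k P.FF := P.fixF {P.tau} (by rintro _ rfl; exact P.tau_c)

/-- the function field of the elliptic curve `E` -/
def FE : IntermediateField k P.FF :=
  P.fixF {P.tau, P.rho} (by rintro _ (rfl | rfl); exacts [P.tau_c, P.rho_c])

/-- the `M`-line -/
def FM : IntermediateField k P.FF :=
  P.fixF {P.tau, P.iota * P.iota} (by rintro _ (rfl | rfl); exacts [P.tau_c, P.iota2_c])

/-- the `N`-line -/
def FN : IntermediateField k P.FF :=
  P.fixF {P.tau, P.rho, P.iota * P.iota}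
    (by rintro _ (rfl | rfl | rfl); exacts [P.tau_c, P.rho_c, P.iota2_c])

theorem mem_FC {z : P.FF} : z ∈ P.FC ↔ P.tau z = z := by
  show (∀ e ∈ ({P.tau} : Set _), e z = z) ↔ _
  simp

theorem mem_FE {z : P.FF} : z ∈ P.FE ↔ P.tau z = z ∧ P.rho z = z := by
  show (∀ e ∈ ({P.tau, P.rho} : Set _), e z = z) ↔ _
  simp

theorem mem_FM {z : P.FF} : z ∈ P.FM ↔ P.tau z = z ∧ P.iota (P.iota z) = z := by
  show (∀ e ∈ ({P.tau, P.iota * P.iota} : Set _), e z = z) ↔ _
  simp [P.mul_ap]

theorem mem_FN {z : P.FF} :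
    z ∈ P.FN ↔ P.tau z = z ∧ P.rho z = z ∧ P.iota (P.iota z) = z := by
  show (∀ e ∈ ({P.tau, P.rho, P.iota * P.iota} : Set _), e z = z) ↔ _
  simp [P.mul_ap]

theorem tau_W : P.tau P.W = P.W := by
  rw [P.W_eq]
  simp only [map_div₀, map_mul, map_pow, map_sub, tau_c, tau_M1, tau_Y]

theorem tau_Z : P.tau P.Z = -P.Z := by
  rw [P.Z_eq]
  simp only [map_mul, map_pow, map_sub, tau_c, tau_M1, tau_M2, tau_M3]
  ring

/-- the coordinate `M` on `C` -/
def mC : P.FC := ⟨P.M1, P.mem_FC.2 P.tau_M1⟩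
/-- the coordinate `W` on `C` -/
def wC : P.FC := ⟨P.W, P.mem_FC.2 P.tau_W⟩
/-- the coordinate `N` on `E` -/
def nE : P.FE := ⟨P.N, P.mem_FE.2 ⟨P.tau_N, P.rho_N⟩⟩
/-- the coordinate `Y` on `E` -/
def yE : P.FE := ⟨P.Y, P.mem_FE.2 ⟨P.tau_Y, P.rho_Y⟩⟩
/-- the coordinate on the `M`-line -/
def mM : P.FM := ⟨P.M1, P.mem_FM.2 ⟨P.tau_M1, P.iota2_M1⟩⟩
/-- the coordinate on the `N`-line -/
def nN : P.FN := ⟨P.N, P.mem_FN.2 ⟨P.tau_N, P.rho_N, by rw [iota_N, map_neg, iota_N, neg_neg]⟩⟩

theorem N_nc (a : k) : P.N ≠ algebraMap k P.FF a := by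
  intro h
  have h1 := P.N_eq
  have h2 := P.M1_tr' (X ^ 2 - C P.g0) (X_pow_sub_C_ne_zero (by norm_num) _)
  have h3 := P.M1_tr' (X * (X ^ 2 - C (P.c * P.g0)) - C a * (X ^ 2 - C P.g0)) (fun h0 => by
    have := congrArg (coeff · 3) h0
    simp [mul_sub, coeff_X, coeff_C, ← pow_succ', coeff_X_pow] at this)
  simp only [eval₂_sub, eval₂_mul, eval₂_pow, eval₂_X, eval₂_C, map_mul] at h2 h3
  apply h3
  rw [eq_div_iff h2, h] at h1
  linear_combination -h1

theorem N_tr : Transcendental k P.N := (finite_of_notMem P.N_nc).1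

theorem tr_sub {S : IntermediateField k P.FF} {x : S} (h : Transcendental k (x : P.FF)) :
    Transcendental k x := (transcendental_algebraMap_iff (algebraMap S P.FF).injective).1 h

instance : CFF k P.FC := cff_down (L := P.FF) (P.tr_sub (x := P.mC) P.M1_tr)
instance : CFF k P.FE := cff_down (L := P.FF) (P.tr_sub (x := P.nE) P.N_tr)
instance : CFF k P.FM := cff_down (L := P.FF) (P.tr_sub (x := P.mM) P.M1_tr)
instance : CFF k P.FN := cff_down (L := P.FF) (P.tr_sub (x := P.nN) P.N_tr)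

instance : FiniteDimensional P.FC P.FF := finite_of_transcendental (P.tr_sub (x := P.mC) P.M1_tr)
instance : FiniteDimensional P.FE P.FF := finite_of_transcendental (P.tr_sub (x := P.nE) P.N_tr)
instance : FiniteDimensional P.FM P.FF := finite_of_transcendental (P.tr_sub (x := P.mM) P.M1_tr)
instance : FiniteDimensional P.FN P.FF := finite_of_transcendental (P.tr_sub (x := P.nN) P.N_tr)

theorem mC_nc (a : k) : P.mC ≠ algebraMap k P.FC a := fun h =>
  P.M1_tr (by
    rw [show P.M1 = algebraMap k P.FF a from congrArg Subtype.val h]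
    exact isAlgebraic_algebraMap a)

theorem nE_nc (a : k) : P.nE ≠ algebraMap k P.FE a := fun h => P.N_nc a (congrArg Subtype.val h)

theorem wC_sq : P.wC ^ 2 = aeval P.mC P.fP := Subtype.ext (by
  rw [← IntermediateField.aeval_coe]
  exact P.W_sq)

theorem yE_sq : P.yE ^ 2 = P.nE ^ 3 - algebraMap k P.FE P.D * P.nE := Subtype.ext P.rel.eY

open Classical in
/-- the restriction of an automorphism to a stable subfield (the identity if it is not stable) -/
def res (S : IntermediateField k P.FF) (e : RingAut P.FF) : S ≃+* S :=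
  if h : ∀ z, z ∈ S ↔ e z ∈ S then RingEquiv.restrict e S S h else RingEquiv.refl S

theorem res_coe {S : IntermediateField k P.FF} {e : RingAut P.FF} (h : ∀ z, z ∈ S ↔ e z ∈ S)
    (z : S) : (P.res S e z : P.FF) = e z := by
  rw [res, dif_pos h]
  rfl

theorem fix_iff {e t : RingAut P.FF} (h : e * t = t * e) (z : P.FF) : t z = z ↔ t (e z) = e z := by
  rw [← P.mul_ap, ← h, P.mul_ap, e.injective.eq_iff]

theorem stab_FC {e : RingAut P.FF} (h : e * P.tau = P.tau * e) (z : P.FF) :
    z ∈ P.FC ↔ e z ∈ P.FC := by rw [mem_FC, mem_FC, P.fix_iff h]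

theorem stab_FE {e : RingAut P.FF} (h : e * P.tau = P.tau * e) (h' : e * P.rho = P.rho * e)
    (z : P.FF) : z ∈ P.FE ↔ e z ∈ P.FE := by rw [mem_FE, mem_FE, P.fix_iff h, P.fix_iff h']

end Par

end Vale.Agent.P027M.F
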