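import Vale.Agent.P027M.F.Par

/-! # P027 route M, block F: the function field `FF` and its universal property -/

namespace Vale.Agent.P027M.F

open Polynomial

variable {k : Type*} [Field k]

/-- a polynomial with a simple zero is not a square of a rational function -/
theorem not_sq_of_simple {p q : k[X]} {a : k} (hp : p = (X - C a) * q) (hq : q.eval a ≠ 0)
    (b : RatFunc k) : b ^ 2 ≠ algebraMap k[X] (RatFunc k) p := by
  intro h
  have hq0 : q ≠ 0 := by rintro rfl; simp at hq
  have hp0 : p ≠ 0 := by rw [hp]; exact mul_ne_zero (X_sub_C_ne_zero a) hq0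
  have hd := RatFunc.denom_ne_zero b
  have h1 : b.num ^ 2 = p * b.denom ^ 2 := by
    apply IsFractionRing.injective k[X] (RatFunc k)
    have h2 := RatFunc.num_div_denom b
    have h3 : algebraMap k[X] (RatFunc k) b.denom ≠ 0 := by
      simpa using hd
    rw [map_mul, map_pow, map_pow, ← h, ← h2]
    simp only [RatFunc.num_div_denom]
    rw [(div_eq_iff h3).1 h2]; ring
  have hn : b.num ≠ 0 := by
    intro h0
    rw [h0] at h1
    exact mul_ne_zero hp0 (pow_ne_zero 2 hd) (by rw [← h1]; ring)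
  have h4 := congrArg (rootMultiplicity a) h1
  rw [pow_two, pow_two, rootMultiplicity_mul (mul_ne_zero hn hn),
    rootMultiplicity_mul (mul_ne_zero hp0 (mul_ne_zero hd hd)),
    rootMultiplicity_mul (mul_ne_zero hd hd), hp,
    rootMultiplicity_mul (mul_ne_zero (X_sub_C_ne_zero a) hq0), rootMultiplicity_X_sub_C_self,
    rootMultiplicity_eq_zero (p := q) hq] at h4
  omega

namespace Par

variable (P : Par k)

/-- the equation of the hyperelliptic curve `C` is `W² = fP(M)` -/
noncomputable def fP : k[X] :=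
  X * (X ^ 2 - C P.g0) * (X ^ 2 - C (P.c * P.g0)) * (X ^ 2 - C (P.d2 * P.g0))

/-- the equation of the Galois closure of the cubic map is `Z² = dP(M)` -/
noncomputable def dP : k[X] :=
  C (4 * P.g0) * (X ^ 2 - C (P.d1 * P.g0)) * (X ^ 2 - C (P.d2 * P.g0))

theorem fP_not_sq (b : RatFunc k) : b ^ 2 ≠ algebraMap k[X] (RatFunc k) P.fP := by
  refine not_sq_of_simple (a := 0)
    (q := (X ^ 2 - C P.g0) * (X ^ 2 - C (P.c * P.g0)) * (X ^ 2 - C (P.d2 * P.g0))) ?_ ?_ b
  · unfold fP; simp only [map_zero, sub_zero]; ring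
  · have := P.hg0
    have := P.c_ne
    have := P.d2_ne
    simp [*]

theorem dP_not_sq [IsAlgClosed k] {r : k[X]} (hr : r = 1 ∨ r = P.fP) (b : RatFunc k) :
    b ^ 2 ≠ algebraMap k[X] (RatFunc k) (P.dP * r) := by
  obtain ⟨a, ha⟩ := IsAlgClosed.exists_pow_nat_eq (P.d1 * P.g0) (n := 2) (by norm_num)
  have ha0 : a ≠ 0 := by
    rintro rfl
    exact mul_ne_zero P.d1_ne P.hg0 (by rw [← ha]; ring)
  refine not_sq_of_simple (a := a)
    (q := C (4 * P.g0) * (X + C a) * (X ^ 2 - C (P.d2 * P.g0)) * r) ?_ ?_ b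
  · unfold dP; rw [← ha, map_pow]; ring
  · have h1 : a ^ 2 - P.d2 * P.g0 ≠ 0 := by
      rw [ha, ← sub_mul]; exact mul_ne_zero P.d1_ne_d2 P.hg0
    have h2 : a + a ≠ 0 := by rw [← two_mul]; exact mul_ne_zero P.h2 ha0
    have h3 : r.eval a ≠ 0 := by
      rcases hr with rfl | rfl
      · simp
      · have h4 : a ^ 2 - P.g0 ≠ 0 := by
          have : a ^ 2 - P.g0 = (P.d1 - 1) * P.g0 := by rw [ha]; ring
          rw [this]; exact mul_ne_zero P.d1_ne_one P.hg0
        have h5 : a ^ 2 - P.c * P.g0 ≠ 0 := by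
          rw [ha, ← sub_mul]; exact mul_ne_zero P.d1_ne_c P.hg0
        unfold fP
        simp only [eval_mul, eval_sub, eval_pow, eval_X, eval_C]
        exact mul_ne_zero (mul_ne_zero (mul_ne_zero ha0 h4) h5) h1
    simp only [eval_mul, eval_sub, eval_add, eval_pow, eval_X, eval_C]
    exact mul_ne_zero (mul_ne_zero (mul_ne_zero (mul_ne_zero P.h4 P.hg0) h2) h1) h3

/-- the first quadratic equation -/
noncomputable def q1 : (RatFunc k)[X] := X ^ 2 - C (algebraMap k[X] (RatFunc k) P.fP)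

instance q1_irr : Fact (Irreducible P.q1) :=
  ⟨X_pow_sub_C_irreducible_of_prime Nat.prime_two P.fP_not_sq⟩

/-- the field `k(M, W)` -/
def F1 : Type _ := AdjoinRoot P.q1

noncomputable instance : Field P.F1 := inferInstanceAs (Field (AdjoinRoot P.q1))
noncomputable instance : Algebra (RatFunc k) P.F1 :=
  inferInstanceAs (Algebra (RatFunc k) (AdjoinRoot P.q1))

/-- the class of `W` -/
noncomputable def W1 : P.F1 := AdjoinRoot.root P.q1

theorem q1_monic : P.q1.Monic := monic_X_pow_sub_C _ (by norm_num)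

theorem W1_sq : P.W1 ^ 2 = algebraMap (RatFunc k) P.F1 (algebraMap k[X] (RatFunc k) P.fP) := by
  have h := AdjoinRoot.eval₂_root P.q1
  unfold q1 at h
  rw [eval₂_sub, eval₂_pow, eval₂_X, eval₂_C, sub_eq_zero] at h
  exact h

theorem quad_rep {K : Type*} [Field K] (a : K) (z : AdjoinRoot (X ^ 2 - C a : K[X])) :
    ∃ u v : K, z = AdjoinRoot.of _ u + AdjoinRoot.of _ v * AdjoinRoot.root _ := by
  have h := AdjoinRoot.eval₂_root (X ^ 2 - C a : K[X])
  rw [eval₂_sub, eval₂_pow, eval₂_X, eval₂_C, sub_eq_zero] at h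
  induction z using AdjoinRoot.induction_on with
  | ih p =>
    induction p using Polynomial.induction_on with
    | C u => exact ⟨u, 0, by simp⟩
    | add p q hp hq =>
      obtain ⟨u, v, h1⟩ := hp
      obtain ⟨u', v', h2⟩ := hq
      exact ⟨u + u', v + v', by rw [map_add, h1, h2, map_add, map_add]; ring⟩
    | monomial n u ih =>
      obtain ⟨s, t, h1⟩ := ih
      refine ⟨t * a, s, ?_⟩
      rw [pow_succ X n, ← mul_assoc, map_mul, h1, AdjoinRoot.mk_X, map_mul, ← h]; ring

theorem F1_rep (z : P.F1) : ∃ u v : RatFunc k,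
    z = algebraMap _ P.F1 u + algebraMap _ P.F1 v * P.W1 := quad_rep _ z

theorem F1_indep {u v : RatFunc k} (h : algebraMap _ P.F1 u + algebraMap _ P.F1 v * P.W1 = 0) :
    v = 0 := by
  by_contra hv
  apply P.fP_not_sq (u / v)
  apply (algebraMap (RatFunc k) P.F1).injective
  have hv' : algebraMap _ P.F1 v ≠ 0 := by simpa using hv
  rw [← W1_sq, map_pow, map_div₀]
  have : P.W1 = -(algebraMap _ P.F1 u / algebraMap _ P.F1 v) := by
    field_simp; linear_combination h
  rw [this]; ring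

variable [IsAlgClosed k]

theorem dP_not_sq1 (b : P.F1) :
    b ^ 2 ≠ algebraMap (RatFunc k) P.F1 (algebraMap k[X] (RatFunc k) P.dP) := by
  intro h
  obtain ⟨u, v, rfl⟩ := P.F1_rep b
  set f := algebraMap k[X] (RatFunc k) P.fP
  set d := algebraMap k[X] (RatFunc k) P.dP
  have hW := P.W1_sq
  have h1 : algebraMap _ P.F1 (u ^ 2 + v ^ 2 * f - d) + algebraMap _ P.F1 (2 * u * v) * P.W1 = 0 := by
    simp only [map_sub, map_add, map_mul, map_pow, map_ofNat]
    linear_combination h - algebraMap _ P.F1 v ^ 2 * hW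
  have h2 := P.F1_indep h1
  rw [h2, map_zero, zero_mul, add_zero, map_eq_zero] at h1
  have h22 : (2 : RatFunc k) ≠ 0 := by
    have := (map_ne_zero (algebraMap k (RatFunc k))).2 P.h2
    rwa [map_ofNat] at this
  rcases mul_eq_zero.1 h2 with h3 | h3
  · have hu : u = 0 := (mul_eq_zero.1 h3).resolve_left h22
    apply P.dP_not_sq (Or.inr rfl) (v * f)
    rw [map_mul]
    rw [hu] at h1
    linear_combination f * h1
  · apply P.dP_not_sq (Or.inl rfl) u
    rw [mul_one]
    rw [h3] at h1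
    linear_combination h1

/-- the second quadratic equation -/
noncomputable def q2 : P.F1[X] :=
  X ^ 2 - C (algebraMap (RatFunc k) P.F1 (algebraMap k[X] (RatFunc k) P.dP))

instance q2_irr : Fact (Irreducible P.q2) :=
  ⟨X_pow_sub_C_irreducible_of_prime Nat.prime_two P.dP_not_sq1⟩

/-- the field `k(M, W, Z)` -/
def FF : Type _ := AdjoinRoot P.q2

noncomputable instance : Field P.FF := inferInstanceAs (Field (AdjoinRoot P.q2))
noncomputable instance : Algebra P.F1 P.FF := inferInstanceAs (Algebra P.F1 (AdjoinRoot P.q2))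
noncomputable instance : Algebra (RatFunc k) P.FF :=
  ((algebraMap P.F1 P.FF).comp (algebraMap (RatFunc k) P.F1)).toAlgebra
noncomputable instance : Algebra k P.FF :=
  ((algebraMap (RatFunc k) P.FF).comp (algebraMap k (RatFunc k))).toAlgebra
instance : IsScalarTower (RatFunc k) P.F1 P.FF := IsScalarTower.of_algebraMap_eq fun _ => rfl
instance : IsScalarTower k (RatFunc k) P.FF := IsScalarTower.of_algebraMap_eq fun _ => rfl

/-- the generator `M = M₁` -/
noncomputable def M1 : P.FF := algebraMap (RatFunc k) P.FF RatFunc.X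
/-- the generator `W` -/
noncomputable def W : P.FF := algebraMap P.F1 P.FF P.W1
/-- the generator `Z` -/
noncomputable def Z : P.FF := AdjoinRoot.root P.q2

theorem poly_eq (p : k[X]) :
    algebraMap (RatFunc k) P.FF (algebraMap k[X] (RatFunc k) p) = aeval P.M1 p := by
  unfold M1
  rw [aeval_algebraMap_apply, RatFunc.aeval_X_left_eq_algebraMap]

theorem W_sq : P.W ^ 2 = aeval P.M1 P.fP := by
  rw [← poly_eq, W, ← map_pow, W1_sq]; rfl

theorem Z_sq : P.Z ^ 2 = aeval P.M1 P.dP := by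
  have h := AdjoinRoot.eval₂_root P.q2
  unfold q2 at h
  rw [eval₂_sub, eval₂_pow, eval₂_X, eval₂_C, sub_eq_zero] at h
  rw [← poly_eq]
  exact h

theorem M1_tr : Transcendental k P.M1 := by
  rw [transcendental_iff_injective, injective_iff_map_eq_zero]
  intro p hp
  rw [← poly_eq, map_eq_zero] at hp
  exact (IsFractionRing.injective k[X] (RatFunc k)) (by rw [hp, map_zero])

theorem FF_rep (z : P.FF) : ∃ a b c d : RatFunc k, z = algebraMap _ P.FF a +
    algebraMap _ P.FF b * P.W + (algebraMap _ P.FF c + algebraMap _ P.FF d * P.W) * P.Z := by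
  obtain ⟨u, v, h⟩ : ∃ u v : P.F1, z = algebraMap _ P.FF u + algebraMap _ P.FF v * P.Z :=
    quad_rep _ z
  obtain ⟨a, b, rfl⟩ := P.F1_rep u
  obtain ⟨c, d, rfl⟩ := P.F1_rep v
  refine ⟨a, b, c, d, ?_⟩
  rw [h, map_add, map_add, map_mul, map_mul]; rfl

theorem finrank_FF : Module.finrank (RatFunc k) P.FF = 4 := by
  have h1 : Module.finrank (RatFunc k) P.F1 = 2 := by
    have := (AdjoinRoot.powerBasis' P.q1_monic).finrank
    rw [AdjoinRoot.powerBasis'_dim, q1, natDegree_X_pow_sub_C] at this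
    exact this
  have h2 : Module.finrank P.F1 P.FF = 2 := by
    have hm : P.q2.Monic := monic_X_pow_sub_C _ (by norm_num)
    have := (AdjoinRoot.powerBasis' hm).finrank
    rw [AdjoinRoot.powerBasis'_dim, q2, natDegree_X_pow_sub_C] at this
    exact this
  rw [← Module.finrank_mul_finrank (RatFunc k) P.F1 P.FF, h1, h2]

/-- a set closed under the field operations which contains the generators is everything -/
theorem FF_ind (S : Subfield P.FF) (hk : ∀ a : k, algebraMap k P.FF a ∈ S) (hM : P.M1 ∈ S)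
    (hW : P.W ∈ S) (hZ : P.Z ∈ S) (z : P.FF) : z ∈ S := by
  have h1 : ∀ p : k[X], aeval P.M1 p ∈ S := by
    intro p
    induction p using Polynomial.induction_on with
    | C u => rw [aeval_C]; exact hk u
    | add p q hp hq => rw [map_add]; exact S.add_mem hp hq
    | monomial n u ih => rw [pow_succ, ← mul_assoc, map_mul, aeval_X]; exact S.mul_mem ih hM
  have h2 : ∀ u : RatFunc k, algebraMap _ P.FF u ∈ S := by
    intro u
    rw [← RatFunc.num_div_denom u, map_div₀, poly_eq, poly_eq]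
    exact S.div_mem (h1 _) (h1 _)
  obtain ⟨a, b, c, d, rfl⟩ := P.FF_rep z
  exact S.add_mem (S.add_mem (h2 a) (S.mul_mem (h2 b) hW))
    (S.mul_mem (S.add_mem (h2 c) (S.mul_mem (h2 d) hW)) hZ)

theorem hom_ext0 {L : Type*} [Field L] {φ ψ : P.FF →+* L}
    (hk : ∀ a : k, φ (algebraMap k P.FF a) = ψ (algebraMap k P.FF a)) (hM : φ P.M1 = ψ P.M1)
    (hW : φ P.W = ψ P.W) (hZ : φ P.Z = ψ P.Z) : φ = ψ :=
  RingHom.ext fun z => P.FF_ind (RingHom.eqLocusField φ ψ) hk hM hW hZ z

/-- the universal property, first form -/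
theorem exists_hom0 {L : Type*} [Field L] (s : k →+* L) (A W' Z' : L)
    (hA : ∀ p : k[X], p ≠ 0 → eval₂ s A p ≠ 0) (hW : W' ^ 2 = eval₂ s A P.fP)
    (hZ : Z' ^ 2 = eval₂ s A P.dP) : ∃ φ : P.FF →+* L, (∀ a, φ (algebraMap k P.FF a) = s a) ∧
      φ P.M1 = A ∧ φ P.W = W' ∧ φ P.Z = Z' := by
  have hinj : Function.Injective (eval₂RingHom s A) := by
    rw [injective_iff_map_eq_zero]
    intro p hp
    by_contra h
    exact hA p h hp
  let φ0 : RatFunc k →+* L := IsFractionRing.lift hinj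
  have h0 : ∀ p : k[X], φ0 (algebraMap k[X] (RatFunc k) p) = eval₂ s A p := fun p =>
    IsFractionRing.lift_algebraMap hinj p
  have h1 : eval₂ φ0 W' P.q1 = 0 := by
    unfold q1
    rw [eval₂_sub, eval₂_pow, eval₂_X, eval₂_C, h0, hW, sub_self]
  let φ1 : P.F1 →+* L := AdjoinRoot.lift φ0 W' h1
  have h1' : ∀ u, φ1 (algebraMap (RatFunc k) P.F1 u) = φ0 u := fun u => AdjoinRoot.lift_of h1
  have h2 : eval₂ φ1 Z' P.q2 = 0 := by
    unfold q2
    rw [eval₂_sub, eval₂_pow, eval₂_X, eval₂_C, h1', h0, hZ, sub_self]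
  let φ2 : P.FF →+* L := AdjoinRoot.lift φ1 Z' h2
  have h2' : ∀ u, φ2 (algebraMap P.F1 P.FF u) = φ1 u := fun u => AdjoinRoot.lift_of h2
  have h3 : ∀ p : k[X], φ2 (algebraMap (RatFunc k) P.FF (algebraMap k[X] (RatFunc k) p)) =
      eval₂ s A p := fun p => (h2' _).trans ((h1' _).trans (h0 p))
  refine ⟨φ2, fun a => ?_, ?_, ?_, AdjoinRoot.lift_root h2⟩
  · have := h3 (C a)
    rwa [eval₂_C, poly_eq, aeval_C] at this
  · have := h3 X
    rwa [eval₂_X, poly_eq, aeval_X] at this
  · exact (h2' _).trans (AdjoinRoot.lift_root h1)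

end Par

end Vale.Agent.P027M.F
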