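import Vale.Agent.P027M.O

/-! # P027 route M, block F: the abstract Tate module, its rank and its `O3`-structure -/

set_option linter.all false

noncomputable section

namespace Vale.Agent.P027M.F

/-- The Tate modules of `FF`, `FC`, `FE` with their operators. -/
structure TD (G H HC HE : Type) [Group G] [AddCommGroup H] [Module ℤ_[3] H] [AddCommGroup HC]
    [Module ℤ_[3] HC] [AddCommGroup HE] [Module ℤ_[3] HE] where
  ι : Module.End ℤ_[3] H
  ρ : Module.End ℤ_[3] H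
  τ : Module.End ℤ_[3] H
  γ : Module.End ℤ_[3] H
  r : G →* Module.End ℤ_[3] H
  K : Subgroup G
  cyc : G → ℤ_[3]
  ee : H →ₗ[ℤ_[3]] H →ₗ[ℤ_[3]] ℤ_[3]
  eE : HE →ₗ[ℤ_[3]] HE →ₗ[ℤ_[3]] ℤ_[3]
  jC : HC →ₗ[ℤ_[3]] H
  NC : H →ₗ[ℤ_[3]] HC
  jE : HE →ₗ[ℤ_[3]] H
  NE : H →ₗ[ℤ_[3]] HE
  fin : Module.Finite ℤ_[3] H
  finC : Module.Finite ℤ_[3] HC
  finE : Module.Finite ℤ_[3] HE
  tf : ∀ x : H, (3 : ℤ_[3]) • x = 0 → x = 0
  tfC : ∀ x : HC, (3 : ℤ_[3]) • x = 0 → x = 0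
  tfE : ∀ x : HE, (3 : ℤ_[3]) • x = 0 → x = 0
  rkC : Module.finrank ℤ_[3] HC = 6
  rkE : Module.finrank ℤ_[3] HE = 2
  ττ : τ * τ = 1
  ρ3 : ρ * ρ * ρ = 1
  τρ : τ * ρ = ρ * ρ * τ
  ιτ : ι * τ = τ * ι
  ιρ : ι * ρ = ρ * ι
  ι4 : ι * ι * (ι * ι) = 1
  γρ : γ * ρ = ρ * γ
  τγ : τ * γ = γ * τ * (ι * ι)
  ιγ : ι * γ * ι = γ
  γγ : γ * γ = ι * ι
  rρ : ∀ t, r t * ρ = ρ * r t
  rι : ∀ t, r t * ι = ι * r t
  rτ : ∀ t ∈ K, r t * τ = τ * r t
  rτ' : ∀ t ∉ K, τ * r t = r t * τ * (ι * ι)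
  line : (1 + τ) * (1 + ι * ι) = 0
  skew : ∀ x y, ee x y = -ee y x
  eι : ∀ x y, ee (ι x) (ι y) = ee x y
  eρ : ∀ x y, ee (ρ x) (ρ y) = ee x y
  eτ : ∀ x y, ee (τ x) (τ y) = ee x y
  eγ : ∀ x y, ee (γ x) (γ y) = ee x y
  er : ∀ t x y, ee (r t x) (r t y) = cyc t * ee x y
  perf : ∀ x, (∀ y, 3 ∣ ee x y) → ∃ z, x = (3 : ℤ_[3]) • z
  jNC : ∀ y, jC (NC y) = y + τ y
  NjC : ∀ x, NC (jC x) = (2 : ℤ_[3]) • x
  jNE : ∀ y, jE (NE y) = (1 + ρ + ρ * ρ) (y + τ y)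
  NjE : ∀ x, NE (jE x) = (6 : ℤ_[3]) • x
  adj : ∀ x y, ee (jE x) y = eE x (NE y)
  j3 : ∀ x z, jE x = (3 : ℤ_[3]) • z → ∃ y, x = (3 : ℤ_[3]) • y

theorem unit2 : IsUnit (2 : ℤ_[3]) := by
  by_contra k
  have : (2 : ℤ_[3]) ∈ RingHom.ker (PadicInt.toZMod (p := 3)) := by
    rw [PadicInt.ker_toZMod]; exact k
  rw [RingHom.mem_ker, map_ofNat] at this
  exact absurd this (by decide)

theorem two_smul_eq {M : Type} [AddCommGroup M] [Module ℤ_[3] M] {x : M}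
    (h : (2 : ℤ_[3]) • x = 0) : x = 0 := (unit2.smul_eq_zero).1 h

theorem sep3 {M : Type} [AddCommGroup M] [Module ℤ_[3] M] [Module.Finite ℤ_[3] M]
    (N : Submodule ℤ_[3] M) (h : ∀ x ∈ N, ∃ y ∈ N, x = (3 : ℤ_[3]) • y) : N = ⊥ := by
  refine Submodule.eq_bot_of_le_smul_of_le_jacobson_bot (IsLocalRing.maximalIdeal ℤ_[3]) N
    (IsNoetherian.noetherian N) (fun x hx => ?_) (IsLocalRing.maximalIdeal_le_jacobson _)
  obtain ⟨y, hy, rfl⟩ := h x hx
  refine Submodule.smul_mem_smul ?_ hy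
  rw [PadicInt.maximalIdeal_eq_span_p]
  exact Ideal.mem_span_singleton_self _

theorem free3 {M : Type} [AddCommGroup M] [Module ℤ_[3] M] [Module.Finite ℤ_[3] M]
    (h : ∀ x : M, (3 : ℤ_[3]) • x = 0 → x = 0) : Module.Free ℤ_[3] M := by
  haveI : Module.IsTorsionFree ℤ_[3] M := by
    refine Module.IsTorsionFree.of_smul_eq_zero fun c x hx => ?_
    by_cases hc : c = 0
    · exact Or.inl hc
    right
    rw [PadicInt.unitCoeff_spec hc, mul_smul, (PadicInt.unitCoeff hc).isUnit.smul_eq_zero] at hx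
    generalize c.valuation = n at hx
    induction n generalizing x with
    | zero => simpa using hx
    | succ n ih => exact h _ (ih _ (by rw [smul_smul]; rwa [pow_succ] at hx))
  infer_instance

namespace TD

variable {G H HC HE : Type} [Group G] [AddCommGroup H] [Module ℤ_[3] H] [AddCommGroup HC]
  [Module ℤ_[3] HC] [AddCommGroup HE] [Module ℤ_[3] HE] (D : TD G H HC HE)

theorem ττ' (x : H) : D.τ (D.τ x) = x := LinearMap.congr_fun D.ττ x
theorem ρ3' (x : H) : D.ρ (D.ρ (D.ρ x)) = x := LinearMap.congr_fun D.ρ3 x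
theorem τρ' (x : H) : D.τ (D.ρ x) = D.ρ (D.ρ (D.τ x)) := LinearMap.congr_fun D.τρ x
theorem τι' (x : H) : D.τ (D.ι x) = D.ι (D.τ x) := (LinearMap.congr_fun D.ιτ x).symm
theorem ρι' (x : H) : D.ρ (D.ι x) = D.ι (D.ρ x) := (LinearMap.congr_fun D.ιρ x).symm
theorem ι4' (x : H) : D.ι (D.ι (D.ι (D.ι x))) = x := LinearMap.congr_fun D.ι4 x
theorem rρ' (t : G) (x : H) : D.r t (D.ρ x) = D.ρ (D.r t x) := LinearMap.congr_fun (D.rρ t) x
theorem rι' (t : G) (x : H) : D.r t (D.ι x) = D.ι (D.r t x) := LinearMap.congr_fun (D.rι t) x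
theorem rτ1 {t : G} (h : t ∈ D.K) (x : H) : D.r t (D.τ x) = D.τ (D.r t x) :=
  LinearMap.congr_fun (D.rτ t h) x
theorem rτ2 {t : G} (h : t ∉ D.K) (x : H) : D.τ (D.r t x) = D.r t (D.τ (D.ι (D.ι x))) :=
  LinearMap.congr_fun (D.rτ' t h) x
theorem r_inv (t : G) (x : H) : D.r t⁻¹ (D.r t x) = x := by
  rw [← Module.End.mul_apply, ← map_mul, inv_mul_cancel, map_one, Module.End.one_apply]

theorem ιι_of_τ {x : H} (h : D.τ x = x) : D.ι (D.ι x) = -x := by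
  have := LinearMap.congr_fun D.line x
  simp only [Module.End.mul_apply, LinearMap.add_apply, Module.End.one_apply, map_add, τι', h,
    LinearMap.zero_apply] at this
  refine eq_neg_of_add_eq_zero_right (two_smul_eq ?_)
  rw [← this]
  module

/-- the lattice `T` -/
def T : Submodule ℤ_[3] H where
  carrier := {x | D.ι (D.ι x) = -x ∧ x + D.ρ x + D.ρ (D.ρ x) = 0}
  add_mem' := fun {a b} ha hb => ⟨by rw [map_add, map_add, ha.1, hb.1, neg_add], by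
    simp only [map_add]
    linear_combination (norm := module) ha.2 + hb.2⟩
  zero_mem' := by simp
  smul_mem' := fun c x hx => ⟨by rw [map_smul, map_smul, hx.1, smul_neg], by
    simp only [map_smul]
    rw [← smul_add, ← smul_add, hx.2, smul_zero]⟩

theorem mem_T {x : H} : x ∈ D.T ↔ D.ι (D.ι x) = -x ∧ x + D.ρ x + D.ρ (D.ρ x) = 0 := Iff.rfl

theorem T_of_comm {f : Module.End ℤ_[3] H} (h1 : ∀ x, f (D.ι x) = D.ι (f x))
    (h2 : ∀ x, f (D.ρ x) = D.ρ (f x)) {x : H} (hx : x ∈ D.T) : f x ∈ D.T :=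
  ⟨by rw [← h1, ← h1, hx.1, map_neg], by rw [← h2, ← h2, ← map_add, ← map_add, hx.2, map_zero]⟩

theorem ι_T {x : H} (hx : x ∈ D.T) : D.ι x ∈ D.T :=
  D.T_of_comm (fun _ => rfl) (fun x => (D.ρι' x).symm) hx
theorem ρ_T {x : H} (hx : x ∈ D.T) : D.ρ x ∈ D.T := D.T_of_comm D.ρι' (fun _ => rfl) hx
theorem r_T (t : G) {x : H} (hx : x ∈ D.T) : D.r t x ∈ D.T := D.T_of_comm (D.rι' t) (D.rρ' t) hx
theorem τ_T {x : H} (hx : x ∈ D.T) : D.τ x ∈ D.T :=
  ⟨by rw [← τι', ← τι', hx.1, map_neg], by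
    have := congrArg D.τ hx.2
    simp only [map_add, τρ', ρ3', map_zero] at this
    rw [← this]
    abel⟩

theorem γρ' (x : H) : D.γ (D.ρ x) = D.ρ (D.γ x) := LinearMap.congr_fun D.γρ x
theorem γγ' (x : H) : D.γ (D.γ x) = D.ι (D.ι x) := LinearMap.congr_fun D.γγ x
theorem τγ' (x : H) : D.τ (D.γ x) = D.γ (D.τ (D.ι (D.ι x))) := LinearMap.congr_fun D.τγ x
theorem γι' (x : H) : D.γ (D.ι x) = D.ι (D.ι (D.ι (D.γ x))) := by
  rw [← D.ι4' (D.γ (D.ι x))]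
  exact congrArg (fun z => D.ι (D.ι (D.ι z))) (LinearMap.congr_fun D.ιγ x)
theorem γ_T {x : H} (hx : x ∈ D.T) : D.γ x ∈ D.T :=
  ⟨by rw [← map_neg, ← hx.1, γι', γι', ι4'], by
    rw [← γρ', ← γρ', ← map_add, ← map_add, hx.2, map_zero]⟩

theorem T_sat {x : H} (h : (3 : ℤ_[3]) • x ∈ D.T) : x ∈ D.T := by
  obtain ⟨h1, h2⟩ := h
  simp only [map_smul] at h1 h2
  exact ⟨eq_neg_of_add_eq_zero_left (D.tf _ (by rw [smul_add, h1, neg_add_cancel])),
    D.tf _ (by rw [smul_add, smul_add, h2])⟩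

/-- `ρ - ρ²` -/
def V : Module.End ℤ_[3] H := D.ρ - D.ρ * D.ρ

theorem V_apply (x : H) : D.V x = D.ρ x - D.ρ (D.ρ x) := rfl

theorem VV {x : H} (h : x + D.ρ x + D.ρ (D.ρ x) = 0) : D.V (D.V x) = -((3 : ℤ_[3]) • x) := by
  simp only [V_apply, map_sub, ρ3']
  rw [← sub_eq_zero, ← h]
  module

theorem τV (x : H) : D.τ (D.V x) = -D.V (D.τ x) := by
  simp only [V_apply, map_sub, τρ', ρ3']
  abel

theorem Vι (x : H) : D.V (D.ι x) = D.ι (D.V x) := by simp only [V_apply, map_sub, ρι']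

theorem rV (t : G) (x : H) : D.r t (D.V x) = D.V (D.r t x) := by simp only [V_apply, map_sub, rρ']

theorem γV (x : H) : D.γ (D.V x) = D.V (D.γ x) := by simp only [V_apply, map_sub, γρ']

theorem V_T {x : H} (hx : D.ι (D.ι x) = -x) : D.V x ∈ D.T :=
  ⟨by rw [← Vι, ← Vι, hx, map_neg], by
    simp only [V_apply, map_sub, ρ3']
    abel⟩

theorem jC_inj {x : HC} (h : D.jC x = 0) : x = 0 :=
  two_smul_eq (by rw [← D.NjC, h, map_zero])

theorem six {M : Type} [AddCommGroup M] [Module ℤ_[3] M] (tf : ∀ x : M, (3 : ℤ_[3]) • x = 0 → x = 0)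
    {x : M} (h : (6 : ℤ_[3]) • x = 0) : x = 0 :=
  two_smul_eq (tf _ (by rw [smul_smul, ← h]; norm_num))

theorem jE_inj {x : HE} (h : D.jE x = 0) : x = 0 := six D.tfE (by rw [← D.NjE, h, map_zero])

theorem jNE' (y : H) :
    D.jE (D.NE y) = (y + D.τ y) + D.ρ (y + D.τ y) + D.ρ (D.ρ (y + D.τ y)) := D.jNE y

theorem τ_jC (x : HC) : D.τ (D.jC x) = D.jC x := by
  have := D.jNC (D.jC x)
  rw [D.NjC, map_smul, two_smul] at this
  exact (add_left_cancel this).symm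

theorem τ_jNE (y : H) : D.τ (D.jE (D.NE y)) = D.jE (D.NE y) := by
  simp only [jNE', map_add, τρ', ττ', ρ3']
  abel

theorem ρ_jNE (y : H) : D.ρ (D.jE (D.NE y)) = D.jE (D.NE y) := by
  simp only [jNE', map_add, ρ3']
  abel

theorem τ_jE (x : HE) : D.τ (D.jE x) = D.jE x := by
  have := D.τ_jNE (D.jE x)
  rw [D.NjE, map_smul, map_smul] at this
  exact sub_eq_zero.1 (six D.tf (by rw [smul_sub, this, sub_self]))

theorem ρ_jE (x : HE) : D.ρ (D.jE x) = D.jE x := by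
  have := D.ρ_jNE (D.jE x)
  rw [D.NjE, map_smul, map_smul] at this
  exact sub_eq_zero.1 (six D.tf (by rw [smul_sub, this, sub_self]))

/-- the projector `2 - ρ - ρ²` -/
def pe : Module.End ℤ_[3] H := 2 - D.ρ - D.ρ * D.ρ

theorem pe_apply (x : H) : D.pe x = x + x - D.ρ x - D.ρ (D.ρ x) := by
  rw [pe, ← one_add_one_eq_two]; rfl

theorem pe_T {x : H} (hx : D.ι (D.ι x) = -x) : D.pe x ∈ D.T :=
  ⟨by simp only [pe_apply, map_sub, map_add, ← ρι', hx, map_neg]; abel, by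
    simp only [pe_apply, map_sub, map_add, ρ3']
    abel⟩

theorem rank_T : Module.finrank ℤ_[3] D.T = 8 := by
  haveI := D.fin
  haveI := D.finC
  haveI := D.finE
  haveI := free3 D.tfC
  haveI := free3 D.tfE
  haveI := free3 (M := D.T) fun x hx => Subtype.ext (D.tf _ (congrArg Subtype.val hx))
  let a1 : HC × HC →ₗ[ℤ_[3]] D.T := LinearMap.codRestrict _
    ((D.pe ∘ₗ D.jC).coprod (D.V ∘ₗ D.jC)) fun x => add_mem (D.pe_T (D.ιι_of_τ (D.τ_jC _)))
      (D.V_T (D.ιι_of_τ (D.τ_jC _)))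
  let α : HC × HC →ₗ[ℤ_[3]] D.T × HE × HE := a1.prod ((D.NE ∘ₗ D.jC).prodMap (D.NE ∘ₗ D.jC))
  let β : D.T × HE × HE →ₗ[ℤ_[3]] HC × HC :=
    (((D.NC ∘ₗ D.T.subtype).prod (D.NC ∘ₗ D.V ∘ₗ D.T.subtype)).coprod
      ((D.NC ∘ₗ D.jE).prodMap (D.NC ∘ₗ D.jE)))
  have hα : Function.Injective α := by
    rw [injective_iff_map_eq_zero]
    rintro ⟨a, b⟩ h
    have n : ∀ a : HC, D.NE (D.jC a) = 0 → D.jC a + D.ρ (D.jC a) + D.ρ (D.ρ (D.jC a)) = 0 :=
      fun a ha => two_smul_eq (by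
        have := D.jNE' (D.jC a)
        simp only [ha, map_zero, τ_jC, map_add] at this
        rw [this]
        module)
    have h1 : D.pe (D.jC a) + D.V (D.jC b) = 0 := congrArg (fun z => (z.1 : H)) h
    have h2 := n a (congrArg (fun z => z.2.1) h)
    have h3 := n b (congrArg (fun z => z.2.2) h)
    have h4 : D.pe (D.jC a) = (3 : ℤ_[3]) • D.jC a := by
      rw [pe_apply, ← sub_eq_zero, ← neg_eq_zero, ← h2]
      module
    rw [h4] at h1
    have h5 := congrArg D.τ h1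
    rw [map_add, map_smul, τV, τ_jC, τ_jC, map_zero] at h5
    have h6 : D.jC a = 0 := six D.tf (by linear_combination (norm := module) h1 + h5)
    rw [h6, smul_zero, zero_add] at h1
    have h7 := D.VV h3
    rw [h1, map_zero, eq_comm, neg_eq_zero] at h7
    rw [D.jC_inj h6, D.jC_inj (D.tf _ h7)]
    rfl
  have hβ : Function.Injective β := by
    rw [injective_iff_map_eq_zero]
    rintro ⟨x, ξ, η⟩ h
    have n : ∀ (x : H) (ξ : HE), x ∈ D.T → D.NC x + D.NC (D.jE ξ) = 0 → ξ = 0 ∧ x + D.τ x = 0 :=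
      fun x ξ hx h => by
        have h1 := congrArg D.jC h
        rw [map_add, D.jNC, D.jNC, τ_jE, map_zero] at h1
        have h2 := congrArg D.ρ h1
        have h3 := congrArg D.ρ h2
        simp only [map_add, ρ_jE, map_zero] at h2 h3
        have h4 : ξ = 0 := D.jE_inj (six D.tf (by
          linear_combination (norm := module) h1 + h2 + h3 - hx.2 - (D.τ_T hx).2))
        rw [h4, map_zero, add_zero, add_zero] at h1
        exact ⟨h4, h1⟩
    obtain ⟨h1, h2⟩ := n x ξ x.2 (congrArg Prod.fst h)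
    obtain ⟨h3, h4⟩ := n (D.V x) η (D.V_T x.2.1) (congrArg Prod.snd h)
    rw [τV, eq_neg_of_add_eq_zero_right h2, map_neg, neg_neg, ← two_smul ℤ_[3]] at h4
    have h5 := D.VV x.2.2
    rw [two_smul_eq h4, map_zero, eq_comm, neg_eq_zero] at h5
    rw [h1, h3, show x = 0 from Subtype.ext (D.tf _ h5)]
    rfl
  have k1 := LinearMap.finrank_le_finrank_of_injective hα
  have k2 := LinearMap.finrank_le_finrank_of_injective hβ
  simp only [Module.finrank_prod, D.rkC, D.rkE] at k1 k2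
  omega

end TD

end Vale.Agent.P027M.F
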