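import Vale.Agent.P027M.F.Abs1

/-! # P027 route M, block F: `T` is free of rank two over `O3`; the representation -/

set_option linter.all false

noncomputable section

namespace Vale.Agent.P027M.F

theorem unitO2 : IsUnit (2 : O3) := by
  have := unit2.map (algebraMap ℤ_[3] O3)
  rwa [map_ofNat] at this

instance : Module.Finite ℤ_[3] O3 := Module.Finite.equiv (QO.coord _).symm

instance : Module.Free ℤ_[3] O3 := Module.Free.of_equiv (QO.coord _).symm

namespace TD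

variable {G H HC HE : Type} [Group G] [AddCommGroup H] [Module ℤ_[3] H] [AddCommGroup HC]
  [Module ℤ_[3] HC] [AddCommGroup HE] [Module ℤ_[3] HE] (D : TD G H HC HE)

/-- the action of `O3` on `T` -/
def act : O3 →ₐ[ℤ_[3]] Module.End ℤ_[3] D.T :=
  QO.lift (D.ι.restrict fun _ h => D.ι_T h)
    ((D.ι * D.V).restrict fun _ h => D.ι_T (D.V_T h.1))
    (LinearMap.ext fun x => Subtype.ext x.2.1)
    (LinearMap.ext fun x => Subtype.ext (by
      show D.ι (D.V (D.ι (D.V x))) = ((3 : ℕ) • x : D.T)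
      rw [Vι, D.VV x.2.2, map_neg, map_neg, map_smul, map_smul, x.2.1, smul_neg, neg_neg,
        ← Nat.cast_smul_eq_nsmul ℤ_[3]]
      rfl))
    (LinearMap.ext fun x => Subtype.ext (by
      show D.ι (D.ι (D.V x)) = D.ι (D.V (D.ι x))
      rw [Vι]))

instance : Module O3 D.T := Module.compHom _ (D.act : O3 →+* Module.End ℤ_[3] D.T)

theorem smul_def (a : O3) (x : D.T) : a • x = D.act a x := rfl

instance : IsScalarTower ℤ_[3] O3 D.T := ⟨fun c a x => by
  rw [smul_def, smul_def, map_smul]; rfl⟩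

instance : SMulCommClass ℤ_[3] O3 D.T := ⟨fun c a x => by rw [smul_def, smul_def, map_smul]⟩

theorem smul_val (a : O3) (x : D.T) : ((a • x : D.T) : H) = a.re.re • (x : H) + a.re.im • D.ι x +
    a.im.re • D.ι (D.V x) + a.im.im • D.ι (D.ι (D.V x)) := rfl

theorem i_val (x : D.T) : (((iO : O3) • x : D.T) : H) = D.ι x := by simp [smul_val, iO]

theorem w_val (x : D.T) : (((wO : O3) • x : D.T) : H) = D.ι (D.V x) := by
  simp [smul_val, wO, QuadraticAlgebra.re_one, QuadraticAlgebra.im_one]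

theorem three_val (x : D.T) : (((3 : O3) • x : D.T) : H) = (3 : ℤ_[3]) • (x : H) := by
  rw [← map_ofNat (algebraMap ℤ_[3] O3) 3, algebraMap_smul]; rfl

theorem w_inj {x : D.T} (h : (wO : O3) • x = 0) : x = 0 :=
  Subtype.ext (D.tf _ (by rw [← three_val, ← wO_sq, sq, mul_smul, h, smul_zero]; rfl))

theorem smul_inj {a : O3} (ha : a ≠ 0) {x : D.T} (h : a • x = 0) : x = 0 := by
  obtain ⟨n, u, hu, rfl⟩ := exists_pow ha
  rw [mul_comm, mul_smul, hu.smul_eq_zero] at h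
  clear ha
  induction n generalizing x with
  | zero => simpa using h
  | succ n ih => exact D.w_inj (ih (by rw [smul_smul]; rwa [pow_succ] at h))

/-- the Galois action on `T` -/
def rT (t : G) : D.T →ₗ[O3] D.T where
  toFun x := ⟨D.r t x, D.r_T t x.2⟩
  map_add' x y := Subtype.ext (map_add _ _ _)
  map_smul' a x := Subtype.ext (by
    show D.r t _ = _
    simp only [smul_val, map_add, map_smul, rι', rV, RingHom.id_apply])

theorem rT_val (t : G) (x : D.T) : (D.rT t x : H) = D.r t x := rfl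

/-- `τ` on `T` -/
def τT : D.T →+ D.T where
  toFun x := ⟨D.τ x, D.τ_T x.2⟩
  map_zero' := Subtype.ext (map_zero _)
  map_add' x y := Subtype.ext (map_add _ _ _)

theorem τT_val (x : D.T) : (D.τT x : H) = D.τ x := rfl

/-- `γ` on `T` -/
def γT : D.T →+ D.T where
  toFun x := ⟨D.γ x, D.γ_T x.2⟩
  map_zero' := Subtype.ext (map_zero _)
  map_add' x y := Subtype.ext (map_add _ _ _)

theorem γT_val (x : D.T) : (D.γT x : H) = D.γ x := rfl

/-- divisible by `w` -/
def Dw (x : D.T) : Prop := ∃ y : D.T, x = (wO : O3) • y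

variable {D}

theorem Dw.add {x y : D.T} (h : D.Dw x) (h' : D.Dw y) : D.Dw (x + y) := by
  obtain ⟨a, rfl⟩ := h
  obtain ⟨b, rfl⟩ := h'
  exact ⟨a + b, (smul_add _ _ _).symm⟩

theorem Dw.smul {x : D.T} (h : D.Dw x) (c : O3) : D.Dw (c • x) := by
  obtain ⟨a, rfl⟩ := h
  exact ⟨c • a, smul_comm _ _ _⟩

theorem Dw.map {x : D.T} (h : D.Dw x) (f : D.T →ₗ[O3] D.T) : D.Dw (f x) := by
  obtain ⟨a, rfl⟩ := h
  exact ⟨f a, map_smul _ _ _⟩

theorem Dw.dvd {x : D.T} {a : O3} (h : D.Dw (a • x)) (hx : ¬ D.Dw x) : wO ∣ a := by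
  by_contra k
  obtain ⟨u, rfl⟩ := isUnit_of_res3 (mt (res3_eq_zero a).1 k)
  have := h.smul ↑u⁻¹
  rw [smul_smul, Units.inv_mul, one_smul] at this
  exact hx this

variable (D)

theorem τ_smul (a : O3) (x : D.T) : D.τT (a • x) = star a • D.τT x := Subtype.ext (by
  simp only [τT_val, smul_val, map_add, map_smul, τι', τV, map_neg, QuadraticAlgebra.re_star,
    QuadraticAlgebra.im_star, QuadraticAlgebra.re_neg, QuadraticAlgebra.im_neg, zero_mul, add_zero]
  module)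

theorem star_w : star (wO : O3) = -wO := by ext <;> simp [wO]

theorem star_sub (a : O3) : wO ∣ star a - a :=
  ⟨⟨-(a.im + a.im), 0⟩, by
    ext <;> simp [wO, QuadraticAlgebra.re_one, QuadraticAlgebra.im_one] <;> ring⟩

theorem Dw.τ {D : TD G H HC HE} {x : D.T} (h : D.Dw x) : D.Dw (D.τT x) := by
  obtain ⟨a, rfl⟩ := h
  exact ⟨-D.τT a, by rw [τ_smul, star_w, neg_smul, smul_neg]⟩

theorem Dw.γ {D : TD G H HC HE} {x : D.T} (h : D.Dw x) : D.Dw (D.γT x) := by
  obtain ⟨a, rfl⟩ := h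
  refine ⟨-D.γT a, Subtype.ext ?_⟩
  rw [smul_neg, Submodule.coe_neg, γT_val, w_val, w_val, γι', γV, γT_val,
    (D.V_T (D.γ_T a.2).1).1, map_neg]

theorem indep {e1 e2 : D.T} (h1 : D.τT e1 = -e1) (h2 : D.τT e2 = e2) (n1 : ¬ D.Dw e1)
    (n2 : ¬ D.Dw e2) {a b : O3} (h : D.Dw (a • e1 + b • e2)) : wO ∣ a ∧ wO ∣ b := by
  have k := h.τ
  obtain ⟨a', ha⟩ := star_sub a
  obtain ⟨b', hb⟩ := star_sub b
  rw [map_add, τ_smul, τ_smul, h1, h2, sub_eq_iff_eq_add.1 ha, sub_eq_iff_eq_add.1 hb] at k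
  have k1 : D.Dw ((2 * a) • e1) := by
    have := (h.add (k.smul (-1))).add (⟨b' • e2 - a' • e1, rfl⟩ : D.Dw _)
    convert this using 1
    module
  have k2 : D.Dw ((2 * b) • e2) := by
    have := (h.add k).add (⟨a' • e1 - b' • e2, rfl⟩ : D.Dw _)
    convert this using 1
    module
  have u := unitO2
  exact ⟨u.dvd_mul_left.1 (k1.dvd n1), u.dvd_mul_left.1 (k2.dvd n2)⟩

/-- the map given by two vectors -/
def cmb (e1 e2 : D.T) : (Fin 2 → O3) →ₗ[O3] D.T where
  toFun v := v 0 • e1 + v 1 • e2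
  map_add' v w := by simp only [Pi.add_apply]; module
  map_smul' c v := by simp only [Pi.smul_apply, smul_eq_mul, RingHom.id_apply]; module

theorem cmb_bij {e1 e2 : D.T} (h : ∀ a b : O3, D.Dw (a • e1 + b • e2) → wO ∣ a ∧ wO ∣ b) :
    Function.Bijective (D.cmb e1 e2) := by
  have sat : ∀ (n : ℕ) (v : Fin 2 → O3) (x : D.T), D.cmb e1 e2 v = (wO : O3) ^ n • x →
      ∃ u, v = (wO : O3) ^ n • u ∧ D.cmb e1 e2 u = x := by
    intro n
    induction n with
    | zero => exact fun v x hv => ⟨v, by simp, by simpa using hv⟩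
    | succ n ih =>
      intro v x hv
      rw [pow_succ, mul_smul] at hv
      obtain ⟨u, rfl, hu⟩ := ih v _ hv
      obtain ⟨⟨a, ha⟩, ⟨b, hb⟩⟩ := h (u 0) (u 1) ⟨x, hu⟩
      have e : u = (wO : O3) • ![a, b] := by
        ext1 i
        fin_cases i
        exacts [ha, hb]
      refine ⟨![a, b], by rw [pow_succ, mul_smul, ← e], sub_eq_zero.1 (D.w_inj ?_)⟩
      rw [smul_sub, ← map_smul, ← e, hu, sub_self]
  have inj : ∀ v, D.cmb e1 e2 v = 0 → v = 0 := fun v hv => funext fun i =>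
    eq_zero_of_dvd fun n => by
      obtain ⟨u, rfl, -⟩ := sat (2 * n) v 0 (by rw [hv, smul_zero])
      rw [pow_mul, wO_sq]
      exact Dvd.intro _ rfl
  refine ⟨(injective_iff_map_eq_zero _).2 inj, fun x => ?_⟩
  by_contra hx
  haveI := D.fin
  let f : (Fin 2 → O3) × ℤ_[3] →ₗ[ℤ_[3]] D.T :=
    ((D.cmb e1 e2).restrictScalars ℤ_[3]).coprod (LinearMap.toSpanSingleton _ _ x)
  have hf : Function.Injective f := by
    rw [injective_iff_map_eq_zero]
    rintro ⟨v, c⟩ k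
    have k1 : D.cmb e1 e2 v + c • x = 0 := k
    by_cases hc : c = 0
    · rw [hc, zero_smul, add_zero] at k1
      rw [inj v k1, hc]
      rfl
    have c0 : algebraMap ℤ_[3] O3 c ≠ 0 := fun e => hc (congrArg (·.re.re) e)
    obtain ⟨n, u, ⟨u, rfl⟩, hu⟩ := exists_pow c0
    rw [← algebraMap_smul O3 c, hu, mul_smul] at k1
    obtain ⟨z, -, hz⟩ := sat n (-v) ((u : O3) • x) (by
      rw [map_neg]; exact neg_eq_of_add_eq_zero_right k1)
    exact absurd ⟨(↑u⁻¹ : O3) • z, by rw [map_smul, hz, smul_smul, Units.inv_mul, one_smul]⟩ hx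
  have k := LinearMap.finrank_le_finrank_of_injective hf
  rw [D.rank_T, Module.finrank_prod, Module.finrank_pi_fintype, (QO.coord ℤ_[3]).finrank_eq] at k
  simp at k

/-- the map to `T` which induces the embedding of the `3`-torsion of `E` -/
def Th : H →ₗ[ℤ_[3]] D.T :=
  LinearMap.codRestrict _ (D.V ∘ₗ (1 + D.τ) ∘ₗ (1 - D.ι * D.ι)) fun y => D.V_T (by
    simp only [LinearMap.comp_apply, LinearMap.add_apply, LinearMap.sub_apply, Module.End.mul_apply,
      Module.End.one_apply, map_add, map_sub, τι', ι4']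
    abel)

theorem Th_val (y : H) : (D.Th y : H) =
    D.V ((y - D.ι (D.ι y)) + D.τ (y - D.ι (D.ι y))) := rfl

theorem τ_Th (y : H) : D.τT (D.Th y) = -D.Th y := Subtype.ext (by
  show D.τ _ = -_
  rw [Th_val, τV, map_add, ττ', add_comm])

theorem Th_r {t : G} (h : t ∈ D.K) (y : H) : D.Th (D.r t y) = D.rT t (D.Th y) := Subtype.ext (by
  simp only [rT_val, Th_val, rV, map_add, map_sub, rι', D.rτ1 h])

theorem Th_ι (y : H) : D.Th (D.ι y) = (iO : O3) • D.Th y := Subtype.ext (by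
  simp only [i_val, Th_val, ← Vι, map_add, map_sub, τι'])

theorem ι_jNE (y : H) : D.jE (D.NE (D.ι y)) = D.ι (D.jE (D.NE y)) := by
  simp only [jNE', map_add, τι', ρι']

theorem r_jNE {t : G} (h : t ∈ D.K) (y : H) :
    D.jE (D.NE (D.r t y)) = D.r t (D.jE (D.NE y)) := by
  simp only [jNE', map_add, rρ', D.rτ1 h]

theorem Th_iff (y : H) : D.Dw (D.Th y) ↔ ∃ z, D.jE (D.NE y) = (3 : ℤ_[3]) • z := by
  set y' := (y - D.ι (D.ι y)) + D.τ (y - D.ι (D.ι y)) with hy
  have n : y' + D.ρ y' + D.ρ (D.ρ y') = (2 : ℤ_[3]) • D.jE (D.NE y) := by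
    rw [← jNE', map_sub, map_sub, ι_jNE, ι_jNE, D.ιι_of_τ (D.τ_jNE y), two_smul, sub_neg_eq_add]
  constructor
  · rintro ⟨x, hx⟩
    have h1 : D.V (y' - D.ι x) = 0 := by
      rw [map_sub, Vι, ← w_val, ← hx, Th_val, sub_self]
    set u := y' - D.ι x with hu
    have h2 : D.ρ u = D.ρ (D.ρ u) := sub_eq_zero.1 h1
    have h3 : u = D.ρ u := by
      have := congrArg (fun z => D.ρ (D.ρ z)) h2
      simpa only [ρ3'] using this
    have h4 := (D.ι_T x.2).2
    have h5 : (2 : ℤ_[3]) • D.jE (D.NE y) = (3 : ℤ_[3]) • u := by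
      have e : y' = u + D.ι x := by rw [hu, sub_add_cancel]
      rw [← n, e]
      simp only [map_add, ← h3]
      linear_combination (norm := module) h4
    exact ⟨D.jE (D.NE y) - u, by linear_combination (norm := module) -h5⟩
  · rintro ⟨z, hz⟩
    obtain ⟨ξ, hξ⟩ := D.j3 _ z hz
    have m : y' - (2 : ℤ_[3]) • D.jE ξ ∈ D.T := by
      refine ⟨?_, ?_⟩
      · simp only [hy, map_sub, map_add, map_smul, D.ιι_of_τ (D.τ_jE ξ), τι', ι4']
        module
      · simp only [map_sub, map_smul, ρ_jE]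
        rw [hξ, map_smul] at n
        linear_combination (norm := module) n
    refine ⟨-(iO : O3) • ⟨_, m⟩, Subtype.ext ?_⟩
    rw [smul_comm, neg_smul, Submodule.coe_neg, i_val, w_val, (D.V_T m.1).1, neg_neg, Th_val,
      map_sub D.V, map_smul, D.V_apply (D.jE ξ), ρ_jE, ρ_jE, sub_self, smul_zero, sub_zero]

theorem exists_y : ∃ y, ¬ D.Dw (D.Th y) := by
  by_contra k
  push Not at k
  haveI := D.finE
  have : (⊤ : Submodule ℤ_[3] HE) = ⊥ := sep3 _ fun x _ => by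
    obtain ⟨z, hz⟩ := D.perf (D.jE x) fun y => by
      obtain ⟨z, hz⟩ := (D.Th_iff y).1 (k y)
      obtain ⟨ξ, hξ⟩ := D.j3 _ z hz
      rw [D.adj, hξ, map_smul]
      exact Dvd.intro _ rfl
    obtain ⟨ξ, hξ⟩ := D.j3 x z hz
    exact ⟨ξ, trivial, hξ⟩
  have h2 := D.rkE
  rw [← finrank_top, this, finrank_bot] at h2
  exact absurd h2 (by norm_num)

/-- The representation in a basis adapted to `τ`. -/
structure Rep where
  Φ : (Fin 2 → O3) ≃ₗ[O3] D.T
  ρA : G →* TW.M2 O3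
  eqv : ∀ t v, D.rT t (Φ v) = Φ ((ρA t).mulVec v)
  diag : ∀ t ∈ D.K, res3 (ρA t 0 1) = 0 ∧ res3 (ρA t 1 0) = 0
  anti : ∀ t ∉ D.K, res3 (ρA t 0 0) = 0 ∧ res3 (ρA t 1 1) = 0
  chr : ∀ t ∈ D.K, ∀ a b : ℤ, (∀ ξ, ∃ z, D.r t (D.jE ξ) - (a • D.jE ξ + b • D.ι (D.jE ξ)) =
    (3 : ℤ_[3]) • z) → res3 (ρA t 0 0) = a + b * i9

theorem exists_rep : Nonempty D.Rep := by
  obtain ⟨y, hy⟩ := D.exists_y
  set e1 := D.Th y with he1
  set e2 := D.γT e1 with he2
  have t1 : D.τT e1 = -e1 := D.τ_Th y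
  have tK : ∀ t ∈ D.K, ∀ x, D.τT (D.rT t x) = D.rT t (D.τT x) := fun t ht x =>
    Subtype.ext (D.rτ1 ht x).symm
  have tO : ∀ t ∉ D.K, ∀ x, D.τT (D.rT t x) = -D.rT t (D.τT x) := fun t ht x => Subtype.ext (by
    show D.τ (D.r t x) = -D.r t (D.τ x)
    rw [D.rτ2 ht, x.2.1, map_neg, map_neg])
  have t2 : D.τT e2 = e2 := Subtype.ext (by
    rw [τT_val, he2, γT_val, τγ', e1.2.1, map_neg, ← τT_val, t1, Submodule.coe_neg, neg_neg])
  have n2 : ¬ D.Dw e2 := fun k => hy (by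
    have := k.γ.smul (-1)
    rwa [show D.γT e2 = -e1 from Subtype.ext ((D.γγ' _).trans e1.2.1), neg_smul, one_smul,
      neg_neg] at this)
  have ind := fun a b => D.indep t1 t2 hy n2 (a := a) (b := b)
  let Φ := LinearEquiv.ofBijective _ (D.cmb_bij ind)
  let ρA : G →* TW.M2 O3 :=
    { toFun := fun t => LinearMap.toMatrix' (Φ.symm.conj (D.rT t))
      map_one' := by
        rw [show D.rT 1 = LinearMap.id from LinearMap.ext fun x => Subtype.ext (by
          rw [rT_val, map_one]; rfl), LinearEquiv.conj_id, LinearMap.toMatrix'_id]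
      map_mul' := fun a b => by
        rw [show D.rT (a * b) = D.rT a ∘ₗ D.rT b from LinearMap.ext fun x => Subtype.ext (by
          rw [rT_val, map_mul]; rfl), LinearEquiv.conj_comp, LinearMap.toMatrix'_comp] }
  have eqv : ∀ t v, D.rT t (Φ v) = Φ ((ρA t).mulVec v) := fun t v => by
    show _ = Φ ((LinearMap.toMatrix' _).mulVec v)
    rw [LinearMap.toMatrix'_mulVec, LinearEquiv.conj_apply_apply, LinearEquiv.symm_symm,
      LinearEquiv.apply_symm_apply]
  have c1 : ∀ t, D.rT t e1 = ρA t 0 0 • e1 + ρA t 1 0 • e2 := fun t => by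
    simpa [Φ, cmb, Matrix.mulVec, dotProduct] using eqv t ![1, 0]
  have c2 : ∀ t, D.rT t e2 = ρA t 0 1 • e1 + ρA t 1 1 • e2 := fun t => by
    simpa [Φ, cmb, Matrix.mulVec, dotProduct] using eqv t ![0, 1]
  have u := unitO2
  have ev : ∀ a b : O3, D.τT (a • e1 + b • e2) = a • e1 + b • e2 → res3 a = 0 := fun a b h => by
    obtain ⟨a', ha⟩ := star_sub a
    obtain ⟨b', hb⟩ := star_sub b
    rw [map_add, τ_smul, τ_smul, t1, t2, sub_eq_iff_eq_add.1 ha, sub_eq_iff_eq_add.1 hb] at h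
    exact (res3_eq_zero a).2 (u.dvd_mul_left.1 (Dw.dvd ⟨b' • e2 - a' • e1, by
      linear_combination (norm := module) -h⟩ hy))
  have od : ∀ a b : O3, D.τT (a • e1 + b • e2) = -(a • e1 + b • e2) → res3 b = 0 :=
    fun a b h => by
      obtain ⟨a', ha⟩ := star_sub a
      obtain ⟨b', hb⟩ := star_sub b
      rw [map_add, τ_smul, τ_smul, t1, t2, sub_eq_iff_eq_add.1 ha, sub_eq_iff_eq_add.1 hb] at h
      exact (res3_eq_zero b).2 (u.dvd_mul_left.1 (Dw.dvd ⟨a' • e1 - b' • e2, by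
        linear_combination (norm := module) h⟩ n2))
  refine ⟨⟨Φ, ρA, eqv, fun t ht => ⟨ev _ (ρA t 1 1) ?_, od (ρA t 0 0) _ ?_⟩,
    fun t ht => ⟨ev _ (ρA t 1 0) ?_, od (ρA t 0 1) _ ?_⟩, fun t ht a b h => ?_⟩⟩
  · rw [← c2, tK t ht, t2]
  · rw [← c1, tK t ht, t1, map_neg]
  · rw [← c1, tO t ht, t1, map_neg, neg_neg]
  · rw [← c2, tO t ht, t2]
  · have k := (D.Th_iff (D.r t y - (a • y + b • D.ι y))).2 (by
      simpa only [map_sub, map_add, map_zsmul, ι_jNE, D.r_jNE ht] using h (D.NE y))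
    rw [map_sub, map_add, map_zsmul, map_zsmul, Th_ι, D.Th_r ht, ← he1, c1] at k
    have k1 := (ind (ρA t 0 0 - ((a : O3) + (b : O3) * iO)) (ρA t 1 0) (by
      convert k using 1
      rw [← Int.cast_smul_eq_zsmul O3 a, ← Int.cast_smul_eq_zsmul O3 b]
      module)).1
    rw [← res3_eq_zero, map_sub, sub_eq_zero, map_add, map_mul, map_intCast, map_intCast] at k1
    rw [k1, res3, QO.res_iO]

end TD

end Vale.Agent.P027M.F
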