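import Vale.Agent.P027M.F.Abs2

/-! # P027 route M, block F: determinant, link to the curve `C`, inertia -/

set_option linter.all false

noncomputable section

namespace Vale.Agent.P027M.F

open Matrix

/-! ### two by two matrices over `O3` -/

theorem ch2 {R : Type} [CommRing R] (A : TW.M2 R) : A * A = A.trace • A - A.det • 1 := by
  ext i j
  fin_cases i <;> fin_cases j <;>
    simp [mul_apply, Fin.sum_univ_two, trace_fin_two, det_fin_two] <;> ring

theorem res_det {G : Type} [Group G] (ρ : G →* TW.M2 O3) (t : G) : res3 (ρ t).det ≠ 0 :=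
  left_ne_zero_of_mul_eq_one (b := res3 (ρ t⁻¹).det) (by
    rw [← map_mul, ← det_mul, ← map_mul, mul_inv_cancel, map_one, det_one, map_one])

/-- an involution which is antidiagonal modulo `w` has determinant `-1` -/
theorem det_odd {A : TW.M2 O3} (h : A * A = 1) (h0 : res3 (A 0 0) = 0) : A.det = -1 := by
  have e1 : A 0 0 * A 0 0 + A 0 1 * A 1 0 = 1 := by
    simpa [mul_apply, Fin.sum_univ_two] using congrFun (congrFun h 0) 0
  have e2 : A 0 1 * (A 0 0 + A 1 1) = 0 := by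
    have : A 0 0 * A 0 1 + A 0 1 * A 1 1 = 0 := by
      simpa [mul_apply, Fin.sum_univ_two] using congrFun (congrFun h 0) 1
    linear_combination this
  have n : A 0 1 ≠ 0 := fun k => by
    have := congrArg res3 e1
    simp [h0, k] at this
  rw [det_fin_two]
  linear_combination A 0 0 * (mul_eq_zero.1 e2).resolve_left n - e1

/-- a matrix of finite order prime to `3` with residual eigenvalue `1` has the eigenvalue `1` -/
theorem det_sub_one {A : TW.M2 O3} {n : ℕ} (hn : ¬ 3 ∣ n) (h : A ^ n = 1)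
    (h1 : res3 (A 0 1) = 0) (h2 : res3 (A 1 0) = 0)
    (h3 : res3 (A 0 0) = 1 ∨ res3 (A 1 1) = 1) : A.trace = 1 + A.det := by
  have k := mul_geom_sum A n
  rw [h, sub_self] at k
  have d : (A - 1).det = 0 := by
    by_contra d
    have k1 : ∑ i ∈ Finset.range n, A ^ i = 0 := by
      have := congrArg (fun z => (A - 1).adjugate * z) k
      simp only [← mul_assoc, adjugate_mul, smul_mul_assoc, one_mul, mul_zero] at this
      ext1 i j
      exact (mul_eq_zero.1 (congrFun (congrFun this i) j)).resolve_left d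
    have p : ∀ m : ℕ, res3 ((A ^ m) 0 1) = 0 ∧ res3 ((A ^ m) 1 0) = 0 ∧
        res3 ((A ^ m) 0 0) = res3 (A 0 0) ^ m ∧ res3 ((A ^ m) 1 1) = res3 (A 1 1) ^ m := by
      intro m
      induction m with
      | zero => simp
      | succ m ih => simp [pow_succ, mul_apply, Fin.sum_univ_two, ih, h1, h2]
    apply hn
    rw [← CharP.cast_eq_zero_iff k9 3 n]
    rcases h3 with h3 | h3
    · simpa [Matrix.sum_apply, map_sum, p, h3] using congrArg res3 (congrFun (congrFun k1 0) 0)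
    · simpa [Matrix.sum_apply, map_sum, p, h3] using congrArg res3 (congrFun (congrFun k1 1) 1)
  have d' : (A 0 0 - 1) * (A 1 1 - 1) - A 0 1 * A 1 0 = 0 := by simpa [det_fin_two] using d
  rw [det_fin_two, trace_fin_two]
  linear_combination -d'

namespace TD

variable {G H HC HE : Type} [Group G] [AddCommGroup H] [Module ℤ_[3] H] [AddCommGroup HC]
  [Module ℤ_[3] HC] [AddCommGroup HE] [Module ℤ_[3] HE] (D : TD G H HC HE)

/-! ### the determinant -/

theorem eι' (x y : H) : D.ee (D.ι x) y = D.ee x (D.ι (D.ι (D.ι y))) := by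
  rw [← D.eι x, ι4']

theorem eρ' (x y : H) : D.ee (D.ρ x) y = D.ee x (D.ρ (D.ρ y)) := by
  rw [← D.eρ x, ρ3']

theorem eV (x y : H) : D.ee (D.V x) y = -D.ee x (D.V y) := by
  simp only [V_apply, map_sub, LinearMap.sub_apply, eρ', ρ3']
  ring

/-- the balanced alternating form -/
def B (x y : H) : ℤ_[3] := D.ee x (D.τ (D.γ y))

theorem κκ (x : H) : D.τ (D.γ (D.τ (D.γ x))) = x := by
  rw [D.τγ' (D.τ _), τι', τι', ττ', γι', γι', γγ', ι4', ι4']

theorem B_skew (x y : H) : D.B x y = -D.B y x := by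
  rw [B, B, ← D.eγ, ← D.eτ, κκ, D.skew]

theorem B_smul (a : O3) (x y : D.T) : D.B (a • x : D.T) y = D.B x (a • y : D.T) := by
  have hι : ∀ x y, D.B (D.ι x) y = D.B x (D.ι y) := fun x y => by
    simp only [B, eι', γι', τι']
  have hV : ∀ x y, D.B (D.V x) y = D.B x (D.V y) := fun x y => by
    simp only [B, eV, γV, τV, map_neg]
  have a1 : ∀ x y z, D.B (x + y) z = D.B x z + D.B y z := fun x y z => by simp [B]
  have a2 : ∀ x y z, D.B x (y + z) = D.B x y + D.B x z := fun x y z => by simp [B]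
  have s1 : ∀ (c : ℤ_[3]) x y, D.B (c • x) y = c * D.B x y := fun c x y => by simp [B]
  have s2 : ∀ (c : ℤ_[3]) x y, D.B x (c • y) = c * D.B x y := fun c x y => by simp [B]
  simp only [smul_val, a1, a2, s1, s2, hι, hV, Vι]

theorem B_self (a b : O3) (x : D.T) : D.B (a • x : D.T) (b • x : D.T) = 0 := by
  have := D.B_skew (x : H) ((a * b) • x : D.T)
  rw [B_smul, smul_smul]
  rw [B_smul] at this
  exact two_smul_eq (by rw [two_smul]; exact eq_neg_iff_add_eq_zero.1 this)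

theorem ee_pe {x : H} (hx : x ∈ D.T) (y : H) :
    D.ee x (D.pe (y - D.ι (D.ι y))) = 6 * D.ee x y := by
  have a : ∀ z, D.ee x (D.ι (D.ι z)) = -D.ee x z := fun z => by
    rw [← D.eι, ← D.eι, ι4', hx.1, map_neg, LinearMap.neg_apply]
  have b : ∀ z, D.ee x (D.pe z) = 3 * D.ee x z := fun z => by
    have := congrArg (fun u => D.ee u z) hx.2
    simp only [map_add, LinearMap.add_apply, map_zero, LinearMap.zero_apply, eρ', ρ3'] at this
    simp only [pe_apply, map_sub, map_add]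
    linear_combination -this
  rw [b, map_sub, a]
  ring

theorem B_nondeg (h : ∀ x ∈ D.T, ∀ y ∈ D.T, D.B x y = 0) : False := by
  haveI := D.fin
  have : D.T = ⊥ := sep3 _ fun x hx => by
    obtain ⟨z, hz⟩ := D.perf x fun y => by
      have m : D.pe (y - D.ι (D.ι y)) ∈ D.T := D.pe_T (by simp only [map_sub, ι4']; abel)
      have := h x hx _ (D.τ_T (D.γ_T m))
      rw [B, κκ, D.ee_pe hx, mul_eq_zero] at this
      rw [this.resolve_left (by norm_num)]
      exact dvd_zero _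
    exact ⟨z, D.T_sat (hz ▸ hx), hz⟩
  have h2 := D.rank_T
  rw [this, finrank_bot] at h2
  exact absurd h2 (by norm_num)

variable {D} (R : D.Rep)

theorem Rep.Φ_eq (v : Fin 2 → O3) : R.Φ v = v 0 • R.Φ ![1, 0] + v 1 • R.Φ ![0, 1] := by
  rw [← map_smul, ← map_smul, ← map_add]
  congr 1
  ext1 i
  fin_cases i <;> simp

theorem Rep.B_eq (u v : Fin 2 → O3) : D.B (R.Φ u) (R.Φ v) =
    D.B ((u 0 * v 1 - u 1 * v 0) • R.Φ ![1, 0] : D.T) (R.Φ ![0, 1]) := by
  have a1 : ∀ x y z : D.T, D.B (x + y : D.T) z = D.B x z + D.B y z := fun x y z => by simp [B]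
  have a2 : ∀ x y z : D.T, D.B x (y + z : D.T) = D.B x y + D.B x z := fun x y z => by simp [B]
  have a3 : ∀ x y z : D.T, D.B (x - y : D.T) z = D.B x z - D.B y z := fun x y z => by simp [B]
  rw [R.Φ_eq u, R.Φ_eq v, a1, a2, a2, B_self, B_self, D.B_skew (u 1 • _ : D.T), sub_smul, a3,
    ← B_smul, ← B_smul, smul_smul, smul_smul, mul_comm (v 1)]
  ring

/-- **the determinant** -/
theorem Rep.det_eq {t : G} {a : O3}
    (h : ∀ y : D.T, D.τ (D.γ (D.r t y)) = D.r t (D.τ (D.γ (a • y : D.T)))) :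
    (R.ρA t).det = algebraMap ℤ_[3] O3 (D.cyc t) * a := by
  by_contra k
  obtain ⟨n, c, hc⟩ := dvd_three_pow (sub_ne_zero.2 k)
  have s1 : ∀ (c : ℤ_[3]) (x y : D.T), D.B (algebraMap ℤ_[3] O3 c • x : D.T) y = c * D.B x y :=
    fun c x y => by simp [B]
  have a3 : ∀ x y z : D.T, D.B (x - y : D.T) z = D.B x z - D.B y z := fun x y z => by simp [B]
  have key : ∀ b : O3, D.B ((((R.ρA t).det - algebraMap ℤ_[3] O3 (D.cyc t) * a) * b) •
      R.Φ ![1, 0] : D.T) (R.Φ ![0, 1]) = 0 := fun b => by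
    have e : D.B (D.rT t (R.Φ ![b, 0])) (D.rT t (R.Φ ![0, 1])) =
        D.cyc t * D.B (R.Φ ![b, 0]) (a • R.Φ ![0, 1] : D.T) := by
      rw [B, B, rT_val, rT_val, h, D.er]
    rw [R.eqv, R.eqv, ← map_smul, R.B_eq, R.B_eq, ← s1, smul_smul, ← sub_eq_zero, ← a3,
      ← sub_smul] at e
    refine Eq.trans ?_ e
    congr 3
    simp [mulVec, dotProduct, det_fin_two]
    ring
  refine D.B_nondeg fun x hx y hy => ?_
  obtain ⟨u, hu⟩ := R.Φ.surjective ⟨x, hx⟩
  obtain ⟨v, hv⟩ := R.Φ.surjective ⟨y, hy⟩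
  have := key (c * (u 0 * v 1 - u 1 * v 0))
  rw [← mul_assoc, ← hc, mul_smul, ← map_ofNat (algebraMap ℤ_[3] O3) 3, ← map_pow, s1,
    ← R.B_eq, hu, hv] at this
  exact (mul_eq_zero.1 this).resolve_left (pow_ne_zero _ (by norm_num))

theorem Rep.det_cyc {t : G} (ht : t ∈ D.K) (h : D.r t * D.γ = D.γ * D.r t) :
    (R.ρA t).det = algebraMap ℤ_[3] O3 (D.cyc t) := by
  rw [R.det_eq (a := 1) fun y => by
    rw [one_smul, D.rτ1 ht]; exact congrArg D.τ (LinearMap.congr_fun h y).symm, mul_one]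

theorem Rep.det_odd {c : G} (hc : c * c = 1) (h : c ∉ D.K) : (R.ρA c).det = -1 :=
  F.det_odd (by rw [← map_mul, hc, map_one]) (R.anti c h).1

/-- the second diagonal character is the conjugate of the first -/
theorem Rep.conj {s : G} (t : G) (hs : s ∉ D.K) :
    res3 (R.ρA t 1 1) = res3 (R.ρA (s⁻¹ * t * s) 0 0) := by
  have e : R.ρA t * R.ρA s = R.ρA s * R.ρA (s⁻¹ * t * s) := by
    rw [← map_mul, ← map_mul]; congr 1; group
  generalize s⁻¹ * t * s = u at e ⊢
  have e1 := congrArg res3 (congrFun (congrFun e 1) 0)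
  have d := res_det R.ρA s
  simp only [mul_apply, Fin.sum_univ_two, map_add, map_mul, (R.anti s hs).1, (R.anti s hs).2,
    mul_zero, zero_mul, zero_add, add_zero] at e1
  rw [det_fin_two, map_sub, map_mul, map_mul, (R.anti s hs).1, zero_mul, zero_sub, neg_ne_zero] at d
  exact mul_left_cancel₀ (right_ne_zero_of_mul d) (by rw [← e1, mul_comm])

/-! ### congruences -/

theorem T_sat' {n : ℕ} {x : H} (h : (3 : ℤ_[3]) ^ n • x ∈ D.T) : x ∈ D.T := by
  induction n with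
  | zero => simpa using h
  | succ n ih => exact ih (D.T_sat (by rwa [pow_succ', mul_smul] at h))

theorem pow_val (n : ℕ) (x : D.T) :
    (((3 : O3) ^ n • x : D.T) : H) = (3 : ℤ_[3]) ^ n • (x : H) := by
  rw [← map_ofNat (algebraMap ℤ_[3] O3) 3, ← map_pow, algebraMap_smul]; rfl

theorem Rep.dvd_iff (n : ℕ) (v : Fin 2 → O3) :
    (∀ i, toLa n (v i) = 0) ↔ ∃ z, (R.Φ v : H) = (3 : ℤ_[3]) ^ n • z := by
  simp only [toLa_eq_zero]
  constructor
  · intro h
    choose u hu using h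
    exact ⟨R.Φ u, by rw [← pow_val, ← map_smul]; exact congrArg (fun z => (R.Φ z : H)) (funext hu)⟩
  · rintro ⟨z, hz⟩ i
    obtain ⟨u, hu⟩ := R.Φ.surjective ⟨z, T_sat' (hz ▸ (R.Φ v).2)⟩
    have : v = (3 : O3) ^ n • u := R.Φ.injective (Subtype.ext (by rw [map_smul, pow_val, hu]; exact hz))
    exact ⟨u i, congrFun this i⟩

theorem Rep.red_one {t : G} {n : ℕ}
    (h : ∀ x ∈ D.T, ∃ z, D.r t x - x = (3 : ℤ_[3]) ^ n • z) :
    TW.redRep (toLa n) R.ρA t = 1 := by
  ext1 i j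
  have := (R.dvd_iff n ((R.ρA t).mulVec (Pi.single j 1) - Pi.single j 1)).2 (by
    rw [map_sub, ← R.eqv]; exact h _ (R.Φ _).2) i
  rw [Pi.sub_apply, map_sub, sub_eq_zero, mulVec_single_one] at this
  rw [TW.redRep_apply, map_apply]
  refine this.trans ?_
  rw [one_apply, Pi.single_apply]
  split_ifs <;> simp

theorem Rep.eq_one {t : G} (h : ∀ n, TW.redRep (toLa n) R.ρA t = 1) : R.ρA t = 1 := by
  ext1 i j
  refine sub_eq_zero.1 (eq_zero_of_dvd fun n => (toLa_eq_zero n _).1 ?_)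
  rw [map_sub, sub_eq_zero]
  refine (congrFun (congrFun (h n) i) j).trans ?_
  rw [one_apply, one_apply]
  split_ifs <;> simp

/-! ### the link to the curve `C` -/

theorem jC_sat {n : ℕ} {x : HC} {z : H} (h : D.jC x = (3 : ℤ_[3]) ^ n • z) :
    ∃ y, x = (3 : ℤ_[3]) ^ n • y := by
  obtain ⟨u, hu⟩ := unit2
  refine ⟨(↑u⁻¹ : ℤ_[3]) • D.NC z, ?_⟩
  rw [smul_comm, ← map_smul, ← h, D.NjC, ← hu, smul_smul, Units.inv_mul, one_smul]

/-- an element of `T` is determined by two norms to `C`, up to a factor `3` -/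
theorem link_dvd {n : ℕ} {x : H} (hx : x ∈ D.T) (h1 : ∃ a, D.NC x = (3 : ℤ_[3]) ^ (n + 1) • a)
    (h2 : ∃ b, D.NC (D.ρ x) = (3 : ℤ_[3]) ^ (n + 1) • b) : ∃ z, x = (3 : ℤ_[3]) ^ n • z := by
  obtain ⟨a, ha⟩ := h1
  obtain ⟨b, hb⟩ := h2
  have k1 := congrArg D.jC ha
  have k2 := congrArg D.jC hb
  rw [D.jNC, map_smul] at k1 k2
  have k3 := congrArg (fun z => D.ρ (D.ρ z)) k1
  simp only [map_add, map_smul, τρ'] at k2 k3
  have k4 : D.V x = (3 : ℤ_[3]) ^ (n + 1) • (D.jC b - D.ρ (D.ρ (D.jC a))) := by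
    rw [V_apply, smul_sub, ← k2, ← k3]
    abel
  have k5 := D.VV hx.2
  rw [k4, map_smul, pow_succ', mul_smul] at k5
  exact ⟨-D.V (D.jC b - D.ρ (D.ρ (D.jC a))), sub_eq_zero.1 (D.tf _ (by
    rw [smul_sub, smul_neg, smul_neg, k5, neg_neg, sub_self]))⟩

/-- an element of `K` acting as the scalar `ι ^ a` on the module of `C` acts so on `T` -/
theorem link_red {t : G} (ht : t ∈ D.K) {n : ℕ} (a : ℕ)
    (h : ∀ y, ∃ z, D.r t (D.jC y) - (D.ι ^ a) (D.jC y) = (3 : ℤ_[3]) ^ (n + 1) • z) {x : H}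
    (hx : x ∈ D.T) : ∃ z, D.r t x - (D.ι ^ a) x = (3 : ℤ_[3]) ^ n • z := by
  have cτ : ∀ y, (D.ι ^ a) (D.τ y) = D.τ ((D.ι ^ a) y) := fun y =>
    LinearMap.congr_fun ((Commute.pow_left D.ιτ a).eq) y
  have cρ : ∀ y, (D.ι ^ a) (D.ρ y) = D.ρ ((D.ι ^ a) y) := fun y =>
    LinearMap.congr_fun ((Commute.pow_left D.ιρ a).eq) y
  have cι : ∀ y, (D.ι ^ a) (D.ι y) = D.ι ((D.ι ^ a) y) := fun y =>
    LinearMap.congr_fun (Commute.pow_self D.ι a).eq y
  have n1 : ∀ y, ∃ z, D.NC (D.r t y - (D.ι ^ a) y) = (3 : ℤ_[3]) ^ (n + 1) • z := fun y => by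
    obtain ⟨z, hz⟩ := h (D.NC y)
    refine jC_sat (D := D) (z := z) ?_
    rw [← hz, D.jNC, D.jNC]
    simp only [map_add, map_sub, D.rτ1 ht, cτ]
    abel
  refine link_dvd (sub_mem (D.r_T t hx) (D.T_of_comm cι cρ hx)) (n1 x) ?_
  rw [map_sub, ← rρ', ← cρ]
  exact n1 _

theorem Rep.link {t : G} (ht : t ∈ D.K)
    (h : ∀ (n : ℕ) y, ∃ z, D.r t (D.jC y) - D.jC y = (3 : ℤ_[3]) ^ n • z) : R.ρA t = 1 :=
  R.eq_one fun n => R.red_one fun x hx => by
    simpa using link_red ht 0 (by simpa using h (n + 1)) hx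

/-- Cayley-Hamilton on `T` -/
theorem Rep.ch (t : G) (x : D.T) :
    D.rT t x + (R.ρA t).det • D.rT t⁻¹ x = (R.ρA t).trace • x := by
  obtain ⟨v, rfl⟩ := R.Φ.surjective x
  have e : R.ρA t + (R.ρA t).det • R.ρA t⁻¹ = (R.ρA t).trace • 1 := by
    have := congrArg (· * R.ρA t⁻¹) (ch2 (R.ρA t))
    simp only [sub_mul, smul_mul_assoc, mul_assoc, ← map_mul, mul_inv_cancel, map_one, mul_one,
      one_mul] at this
    exact eq_sub_iff_add_eq.1 this
  rw [R.eqv, R.eqv, ← map_smul, ← map_smul, ← map_add, ← smul_mulVec, ← add_mulVec, e,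
    smul_mulVec, one_mulVec]

end TD

end Vale.Agent.P027M.F
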