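import Vale.Agent.P027M.F.Abs3

/-! # P027 route M, block F: arbitrary adapted bases; the first residual character -/

set_option linter.all false

noncomputable section

namespace Vale.Agent.P027M.F

open Matrix

namespace TD

variable {G H HC HE : Type} [Group G] [AddCommGroup H] [Module ℤ_[3] H] [AddCommGroup HC]
  [Module ℤ_[3] HC] [AddCommGroup HE] [Module ℤ_[3] HE] (D : TD G H HC HE)

/-- a basis in which `τ` is `diag (-1, 1)` modulo `w` -/
def Ad (Φ : (Fin 2 → O3) ≃ₗ[O3] D.T) : Prop :=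
  ∀ v, ∃ u, D.τT (Φ v) = Φ (![-v 0, v 1] + (wO : O3) • u)

theorem exists_ad : ∃ Φ, D.Ad Φ := by
  obtain ⟨y, hy⟩ := D.exists_y
  set e1 := D.Th y with he1
  set e2 := D.γT e1 with he2
  have t1 : D.τT e1 = -e1 := D.τ_Th y
  have t2 : D.τT e2 = e2 := Subtype.ext (by
    rw [τT_val, he2, γT_val, τγ', e1.2.1, map_neg, ← τT_val, t1, Submodule.coe_neg, neg_neg])
  have n2 : ¬ D.Dw e2 := fun k => hy (by
    have := k.γ.smul (-1)
    rwa [show D.γT e2 = -e1 from Subtype.ext ((D.γγ' _).trans e1.2.1), neg_smul, one_smul,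
      neg_neg] at this)
  refine ⟨LinearEquiv.ofBijective _ (D.cmb_bij fun a b => D.indep t1 t2 hy n2), fun v => ?_⟩
  obtain ⟨a, ha⟩ := star_sub (v 0)
  obtain ⟨b, hb⟩ := star_sub (v 1)
  refine ⟨![-a, b], ?_⟩
  show D.τT (v 0 • e1 + v 1 • e2) = (-v 0 + wO * -a) • e1 + (v 1 + wO * b) • e2
  rw [map_add, τ_smul, τ_smul, t1, t2, sub_eq_iff_eq_add.1 ha, sub_eq_iff_eq_add.1 hb]
  module

/-- the matrices in a basis -/
def mat (Φ : (Fin 2 → O3) ≃ₗ[O3] D.T) : G →* TW.M2 O3 where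
  toFun t := LinearMap.toMatrix' (Φ.symm.conj (D.rT t))
  map_one' := by
    rw [show D.rT 1 = LinearMap.id from LinearMap.ext fun x => Subtype.ext (by
      rw [rT_val, map_one]; rfl), LinearEquiv.conj_id, LinearMap.toMatrix'_id]
  map_mul' a b := by
    rw [show D.rT (a * b) = D.rT a ∘ₗ D.rT b from LinearMap.ext fun x => Subtype.ext (by
      rw [rT_val, map_mul]; rfl), LinearEquiv.conj_comp, LinearMap.toMatrix'_comp]

theorem mat_eqv (Φ : (Fin 2 → O3) ≃ₗ[O3] D.T) (t : G) (v : Fin 2 → O3) :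
    D.rT t (Φ v) = Φ ((D.mat Φ t).mulVec v) := by
  show _ = Φ ((LinearMap.toMatrix' _).mulVec v)
  rw [LinearMap.toMatrix'_mulVec, LinearEquiv.conj_apply_apply, LinearEquiv.symm_symm,
    LinearEquiv.apply_symm_apply]

variable {D}

theorem res_w : res3 wO = 0 := QO.res_wO _

theorem two9 {x : k9} (h : -x = x) : x = 0 := by
  have h3 : (3 : k9) = 0 := CharP.cast_eq_zero k9 3
  linear_combination h + x * h3

theorem Ad.res {Φ : (Fin 2 → O3) ≃ₗ[O3] D.T} (h : D.Ad Φ) {v v' : Fin 2 → O3}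
    (e : D.τT (Φ v) = Φ v') : res3 (v' 0) = -res3 (v 0) ∧ res3 (v' 1) = res3 (v 1) := by
  obtain ⟨u, hu⟩ := h v
  rw [← Φ.injective (hu.symm.trans e)]
  simp [res_w]

/-- every adapted basis gives a `Rep` -/
def Ad.rep {Φ : (Fin 2 → O3) ≃ₗ[O3] D.T} (h : D.Ad Φ) (A : G →* TW.M2 O3)
    (eqv : ∀ t v, D.rT t (Φ v) = Φ ((A t).mulVec v)) : D.Rep := by
  have tK : ∀ t ∈ D.K, ∀ x, D.τT (D.rT t x) = D.rT t (D.τT x) := fun t ht x =>
    Subtype.ext (D.rτ1 ht x).symm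
  have tO : ∀ t ∉ D.K, ∀ x, D.τT (D.rT t x) = -D.rT t (D.τT x) := fun t ht x => Subtype.ext (by
    show D.τ (D.r t x) = -D.r t (D.τ x)
    rw [D.rτ2 ht, x.2.1, map_neg, map_neg])
  have dg : ∀ t ∈ D.K, res3 (A t 0 1) = 0 ∧ res3 (A t 1 0) = 0 := fun t ht => by
    have k := fun v => (h v).imp fun u hu => h.res (v := (A t).mulVec v)
      (v' := (A t).mulVec (![-v 0, v 1] + (wO : O3) • u)) (by rw [← eqv, tK t ht, hu, eqv])
    obtain ⟨u, k1, -⟩ := k ![0, 1]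
    obtain ⟨u', -, k2⟩ := k ![1, 0]
    simp [mulVec, dotProduct, vecHead, vecTail, res_w] at k1 k2
    exact ⟨two9 k1.symm, two9 k2⟩
  refine ⟨Φ, A, eqv, dg, fun t ht => ?_, fun t ht a b hab => ?_⟩
  · have k := fun v => (h v).imp fun u hu => h.res (v := (A t).mulVec v)
      (v' := -(A t).mulVec (![-v 0, v 1] + (wO : O3) • u)) (by
        rw [← eqv, tO t ht, hu, eqv, ← map_neg])
    obtain ⟨u, k1, -⟩ := k ![1, 0]
    obtain ⟨u', -, k2⟩ := k ![0, 1]
    simp [mulVec, dotProduct, vecHead, vecTail, res_w] at k1 k2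
    exact ⟨two9 k1.symm, two9 k2⟩
  · obtain ⟨y, hy⟩ := D.exists_y
    obtain ⟨v, hv⟩ := Φ.surjective (D.Th y)
    have v1 : res3 (v 1) = 0 := two9 (by
      simpa using (h.res (v := v) (v' := -v) (by rw [map_neg, hv, τ_Th])).2)
    have v0 : res3 (v 0) ≠ 0 := fun v0 => hy (by
      obtain ⟨c, hc⟩ := (res3_eq_zero _).1 v0
      obtain ⟨d, hd⟩ := (res3_eq_zero _).1 v1
      refine ⟨Φ ![c, d], ?_⟩
      rw [← hv, ← map_smul]
      congr 1
      ext1 i
      fin_cases i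
      exacts [hc, hd])
    obtain ⟨x, k⟩ := (D.Th_iff (D.r t y - (a • y + b • D.ι y))).2 (by
      simpa only [map_sub, map_add, map_zsmul, ι_jNE, D.r_jNE ht] using hab (D.NE y))
    obtain ⟨u, rfl⟩ := Φ.surjective x
    rw [map_sub, map_add, map_zsmul, map_zsmul, Th_ι, D.Th_r ht, ← hv, eqv, ← map_smul Φ iO,
      ← map_zsmul, ← map_zsmul, ← map_add, ← map_sub, ← map_smul] at k
    have k1 := congrArg res3 (congrFun (Φ.injective k) 0)
    simp [mulVec, dotProduct, res_w, v1, show res3 iO = i9 from QO.res_iO _] at k1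
    exact mul_right_cancel₀ v0 (by linear_combination k1)

/-! ### one point of order three is enough -/

theorem exists_ιE (ξ : HE) : ∃ η, D.jE η = D.ι (D.jE ξ) := by
  obtain ⟨u, hu⟩ := unit2
  have e : D.jE (D.NE (D.ι (D.jE ξ))) = (3 : ℤ_[3]) • (2 : ℤ_[3]) • D.ι (D.jE ξ) := by
    rw [ι_jNE, D.NjE, map_smul, map_smul, smul_smul]; norm_num
  obtain ⟨η, hη⟩ := D.j3 _ _ e
  rw [hη, map_smul, ← sub_eq_zero, ← smul_sub] at e
  exact ⟨(↑u⁻¹ : ℤ_[3]) • η, by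
    rw [map_smul, sub_eq_zero.1 (D.tf _ e), ← hu, smul_smul, Units.inv_mul, one_smul]⟩

theorem dvd_sq {a b : ℤ_[3]} (h : ¬ IsUnit (a ^ 2 + b ^ 2)) : 3 ∣ a ∧ 3 ∣ b := by
  have e : ∀ c : ℤ_[3], PadicInt.toZMod c = 0 ↔ ¬ IsUnit c := fun c => by
    rw [← RingHom.mem_ker, PadicInt.ker_toZMod]; rfl
  have e' : ∀ c : ℤ_[3], PadicInt.toZMod c = 0 → 3 ∣ c := fun c hc => by
    rw [← RingHom.mem_ker, PadicInt.ker_toZMod, PadicInt.maximalIdeal_eq_span_p,
      Ideal.mem_span_singleton] at hc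
    exact_mod_cast hc
  rw [← e, map_add, map_pow, map_pow] at h
  have : ∀ x y : ZMod 3, x ^ 2 + y ^ 2 = 0 → x = 0 ∧ y = 0 := by decide
  exact ⟨e' _ (this _ _ h).1, e' _ (this _ _ h).2⟩

theorem span_E {ξ : HE} (hξ : ¬ ∃ η, ξ = (3 : ℤ_[3]) • η) (η : HE) :
    ∃ a b : ℤ_[3], D.jE η = a • D.jE ξ + b • D.ι (D.jE ξ) := by
  have ii := D.ιι_of_τ (D.τ_jE ξ)
  have sat : ∀ (n : ℕ) (a b : ℤ_[3]) (z : H), a • D.jE ξ + b • D.ι (D.jE ξ) = (3 : ℤ_[3]) ^ n • z →
      ∃ a' b' : ℤ_[3], a = 3 ^ n * a' ∧ b = 3 ^ n * b' ∧ z = a' • D.jE ξ + b' • D.ι (D.jE ξ) := by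
    intro n
    induction n with
    | zero => exact fun a b z h => ⟨a, b, by simp, by simp, by simpa using h.symm⟩
    | succ n ih =>
      intro a b z h
      rw [pow_succ, mul_smul] at h
      obtain ⟨a, b, rfl, rfl, h'⟩ := ih a b _ h
      replace h := h'
      obtain ⟨⟨a, rfl⟩, b, rfl⟩ := dvd_sq (a := a) (b := b) fun ⟨u, hu⟩ => hξ (D.j3 ξ
        ((↑u⁻¹ : ℤ_[3]) • (a • z - b • D.ι z)) (by
          have h1 := congrArg D.ι h
          simp only [map_add, map_smul, ii] at h1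
          rw [smul_comm, eq_comm, ← Units.smul_def, inv_smul_eq_iff, Units.smul_def, hu]
          linear_combination (norm := module) a • h - b • h1))
      exact ⟨a, b, by ring, by ring, sub_eq_zero.1 (D.tf _ (by
        linear_combination (norm := module) h))⟩
  obtain ⟨ξ', hξ'⟩ := exists_ιE (D := D) ξ
  haveI := D.finE
  obtain ⟨g, hg, i, hi⟩ := Fintype.not_linearIndependent_iff.1 fun k : LinearIndependent ℤ_[3]
    ![ξ, ξ', η] => by simpa [D.rkE] using k.fintype_card_le_finrank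
  have h1 := congrArg D.jE hg
  simp only [Fin.sum_univ_three, cons_val_zero, cons_val_one, cons_val, map_add, map_smul,
    map_zero, hξ'] at h1
  have z : ∀ c : ℤ_[3], (∀ n : ℕ, 3 ^ n ∣ c) → c = 0 := fun c hc =>
    congrArg (·.re.re) (eq_zero_of_dvd (z := algebraMap ℤ_[3] O3 c) fun n => by
      simpa only [map_pow, map_ofNat] using map_dvd (algebraMap ℤ_[3] O3) (hc n))
  have g2 : g 2 ≠ 0 := fun g2 => hi (by
    have k := fun n => sat n (g 0) (g 1) 0 (by simpa [g2] using h1)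
    fin_cases i
    · exact z _ fun n => (k n).elim fun a ⟨_, h, _⟩ => ⟨a, h⟩
    · exact z _ fun n => (k n).elim fun _ ⟨b, _, h, _⟩ => ⟨b, h⟩
    · exact g2)
  rw [PadicInt.unitCoeff_spec g2, mul_comm, mul_smul] at h1
  obtain ⟨a, b, -, -, h⟩ := sat (g 2).valuation (-g 0) (-g 1)
    ((PadicInt.unitCoeff g2 : ℤ_[3]) • D.jE η) (by
      rw [neg_smul, neg_smul, ← neg_add]; exact neg_eq_of_add_eq_zero_right h1)
  refine ⟨(↑(PadicInt.unitCoeff g2)⁻¹ : ℤ_[3]) * a, (↑(PadicInt.unitCoeff g2)⁻¹ : ℤ_[3]) * b, ?_⟩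
  rw [mul_smul, mul_smul, ← smul_add, ← h, smul_smul, Units.inv_mul, one_smul]

theorem Rep.chr_pow (R : D.Rep) {t : G} (ht : t ∈ D.K) {ξ : HE}
    (hξ : ¬ ∃ η, ξ = (3 : ℤ_[3]) • η) (n : ℕ)
    (h : ∃ z, D.r t (D.jE ξ) - ((1 - D.ι) ^ n) (D.jE ξ) = (3 : ℤ_[3]) • z) :
    res3 (R.ρA t 0 0) = (1 - i9) ^ n := by
  have ii := D.ιι_of_τ (D.τ_jE ξ)
  have : ∃ a b : ℤ, ((1 - D.ι) ^ n) (D.jE ξ) = a • D.jE ξ + b • D.ι (D.jE ξ) ∧
      (1 - i9) ^ n = a + b * i9 := by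
    clear h
    induction n with
    | zero => exact ⟨1, 0, by simp, by simp⟩
    | succ n ih =>
      obtain ⟨a, b, h1, h2⟩ := ih
      refine ⟨a + b, b - a, ?_, ?_⟩
      · rw [pow_succ', Module.End.mul_apply, h1]
        simp only [LinearMap.sub_apply, Module.End.one_apply, map_add, map_zsmul, ii]
        module
      · rw [pow_succ, h2]
        push_cast
        linear_combination (-b : k9) * i9_sq
  obtain ⟨a, b, h1, h2⟩ := this
  obtain ⟨z, hz⟩ := h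
  rw [h2]
  refine R.chr t ht a b fun η => ?_
  obtain ⟨c, d, e⟩ := span_E (D := D) hξ η
  have h3 := congrArg D.ι hz
  rw [h1] at hz h3
  simp only [map_sub, map_add, map_zsmul, map_smul, ii, ← rι'] at h3
  refine ⟨c • z + d • D.ι z, ?_⟩
  simp only [e, map_add, map_smul, ii]
  linear_combination (norm := module) c • hz + d • h3

end TD

end Vale.Agent.P027M.F
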