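import Vale.Agent.P027M.F.ArDefs

/-!
# P027, route M, block F8: the arithmetic data of a standard parameter
-/

set_option linter.all false

noncomputable section

namespace Vale.Agent.P027M.F

namespace Ari

theorem val_eq {p : ℕ} (hp : p.Prime) (k : ℕ) (a b : ℤ) {W : ℕ} {u x : ℚ} (ha : ¬ (p : ℤ) ∣ a)
    (hb : ¬ (p : ℤ) ∣ b) (hW : p ^ (k + 1) ∣ W) (hu : u.den.Coprime W)
    (hx : x = p ^ k * a / b + W * u) : padicValRat p x = k := by
  haveI := Fact.mk hp
  have hp' : Prime (p : ℤ) := Nat.prime_iff_prime_int.mp hp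
  have h1 : ¬ (p : ℤ) ∣ (u.den : ℤ) := fun h => hp.one_lt.ne' (Nat.eq_one_of_dvd_coprimes hu
    (Int.natCast_dvd_natCast.mp h) ((dvd_pow_self p k.succ_ne_zero).trans hW))
  obtain ⟨c, rfl⟩ := hW
  have h2 : ¬ (p : ℤ) ∣ a * u.den + p * (c * b * u.num) := fun h =>
    (hp'.dvd_or_dvd ((dvd_add_left (dvd_mul_right _ _)).mp h)).elim ha h1
  have h3 : ¬ (p : ℤ) ∣ b * u.den := fun h => (hp'.dvd_or_dvd h).elim hb h1
  have n0 : ∀ z : ℤ, ¬ (p : ℤ) ∣ z → (z : ℚ) ≠ 0 := fun z hz h =>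
    hz (Int.cast_eq_zero.mp h ▸ dvd_zero _)
  have hp0 : (p : ℚ) ≠ 0 := Nat.cast_ne_zero.mpr hp.ne_zero
  have h4 : x = p ^ k * ((a * u.den + p * (c * b * u.num) : ℤ) : ℚ) / ((b * u.den : ℤ) : ℚ) := by
    have h5 := n0 b hb
    have h6 : (u.den : ℚ) ≠ 0 := Nat.cast_ne_zero.mpr u.den_nz
    rw [hx]
    push_cast
    rw [← Rat.mul_den_eq_num]
    field_simp
    ring
  rw [h4, padicValRat.div (mul_ne_zero (pow_ne_zero _ hp0) (n0 _ h2)) (n0 _ h3),
    padicValRat.mul (pow_ne_zero _ hp0) (n0 _ h2), padicValRat.pow, padicValRat.self hp.one_lt,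
    padicValRat.of_int, padicValRat.of_int, padicValInt.eq_zero_of_not_dvd h2,
    padicValInt.eq_zero_of_not_dvd h3]
  simp

theorem nat_four {n : ℕ} (hn : n ≠ 0) (h : ∀ q : ℕ, q.Prime → 4 ∣ padicValNat q n) :
    ∃ a : ℕ, n = a ^ 4 := by
  refine ⟨∏ q ∈ n.primeFactors, q ^ (padicValNat q n / 4), ?_⟩
  rw [← Finset.prod_pow]
  refine (Nat.factorization_prod_pow_eq_self hn).symm.trans (Finset.prod_congr rfl fun q hq => ?_)
  have hq' := Nat.prime_of_mem_primeFactors hq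
  rw [← pow_mul, Nat.div_mul_cancel (h q hq'), Nat.factorization_def n hq']

theorem rat_four {x : ℚ} (hx : 0 < x) (h : ∀ q : ℕ, q.Prime → (4 : ℤ) ∣ padicValRat q x) :
    ∃ z : ℚ, x = z ^ 4 := by
  have h1 : ∀ q : ℕ, q.Prime → 4 ∣ padicValNat q x.num.natAbs ∧ 4 ∣ padicValNat q x.den := by
    intro q hq
    have h2 := h q hq
    rw [padicValRat_def, padicValInt] at h2
    have h3 : padicValNat q x.num.natAbs = 0 ∨ padicValNat q x.den = 0 := by
      by_cases h4 : q ∣ x.den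
      · exact Or.inl (padicValNat.eq_zero_of_not_dvd fun h5 =>
          hq.one_lt.ne' (Nat.eq_one_of_dvd_coprimes x.reduced h5 h4))
      · exact Or.inr (padicValNat.eq_zero_of_not_dvd h4)
    omega
  obtain ⟨a, ha⟩ := nat_four (Int.natAbs_ne_zero.mpr (Rat.num_ne_zero.mpr hx.ne'))
    fun q hq => (h1 q hq).1
  obtain ⟨b, hb⟩ := nat_four x.den_nz fun q hq => (h1 q hq).2
  have h2 : x.num = (a : ℤ) ^ 4 := by
    rw [← Int.natAbs_of_nonneg (Rat.num_nonneg.mpr hx.le), ha, Nat.cast_pow]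
  refine ⟨a / b, (Rat.num_div_den x).symm.trans ?_⟩
  rw [h2, hb, div_pow]
  push_cast
  rfl

theorem val_c3 {p : ℕ} (hp : p.Prime) {g : ℚ} (h0 : g ≠ 0) (h1 : g + 1 ≠ 0) (h3 : g - 3 ≠ 0) :
    padicValRat p (c3 g) = padicValRat p g + padicValRat p (g - 3) - padicValRat p (g + 1) := by
  haveI := Fact.mk hp
  have h4 : 3 - g ≠ 0 := fun h => h3 (by linarith)
  rw [c3, padicValRat.div (mul_ne_zero h0 h4) h1, padicValRat.mul h0 h4, ← neg_sub g 3,
    padicValRat.neg]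

theorem add_val {p : ℕ} (hp : p.Prime) (h3 : 3 < p) {x y : ℚ} (hx : x ≠ 0) (hy : y ≠ 0) (a : ℤ)
    (ha : a ∣ 12) (h : y = x + a) :
    padicValRat p x ≠ 0 → padicValRat p y = min (padicValRat p x) 0 := by
  haveI := Fact.mk hp
  have h1 : ¬ (p : ℤ) ∣ a := fun h2 => by
    have h4 : p ∣ 2 ^ 2 * 3 := Int.natCast_dvd_natCast.mp (h2.trans ha)
    rcases (Nat.Prime.dvd_mul hp).mp h4 with h5 | h5
    · have := Nat.le_of_dvd two_pos (hp.dvd_of_dvd_pow h5)
      omega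
    · have := Nat.le_of_dvd three_pos h5
      omega
  have h2 : padicValRat p (a : ℚ) = 0 := by
    rw [padicValRat.of_int, padicValInt.eq_zero_of_not_dvd h1, Nat.cast_zero]
  intro h4
  rw [h, ← h2]
  exact padicValRat.add_eq_min (h ▸ hy) hx
    (fun h5 => h1 (Int.cast_eq_zero.mp h5 ▸ dvd_zero _)) (h2 ▸ h4)

theorem mem_vis {p : ℕ} {g : ℚ} (h0 : g ≠ 0) (h1 : g + 1 ≠ 0) (h3 : g - 3 ≠ 0) :
    p ∈ visSet g ↔ p.Prime ∧ 3 < p ∧ ¬ (4 : ℤ) ∣ padicValRat p (c3 g) := by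
  rw [visSet, Finset.mem_filter, Nat.mem_primeFactors]
  constructor
  · rintro ⟨⟨hp, -, -⟩, h4, h5⟩
    refine ⟨hp, h4, fun h6 => h5 ?_⟩
    rw [val_c3 hp h0 h1 h3] at h6
    have f1 := add_val hp h4 h0 h1 1 (by norm_num) (by norm_num)
    have f2 := add_val hp h4 h0 h3 (-3) (by norm_num) (by push_cast; ring)
    have f3 := add_val hp h4 h1 h3 (-4) (by norm_num) (by push_cast; ring)
    have f4 := add_val hp h4 h3 h1 4 (by norm_num) (by push_cast; ring)
    have f5 := add_val hp h4 h1 h0 (-1) (by norm_num) (by push_cast; ring)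
    omega
  · rintro ⟨hp, h4, h5⟩
    rw [val_c3 hp h0 h1 h3] at h5
    refine ⟨⟨hp, ?_, ?_⟩, h4, fun h6 => h5 (dvd_sub (dvd_add h6.1 h6.2.2) h6.2.1)⟩
    · by_contra h6
      rw [Int.natAbs_mul, Int.natAbs_mul, hp.dvd_mul, hp.dvd_mul, hp.dvd_mul] at h6
      have h7 : ∀ x : ℚ, x.den = g.den → ¬ p ∣ x.num.natAbs → padicValRat p x = 0 := by
        intro x hx h8
        rw [padicValRat_def, padicValInt, hx, padicValNat.eq_zero_of_not_dvd h8,
          padicValNat.eq_zero_of_not_dvd fun h9 => h6 (Or.inr h9), sub_self]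
      rw [h7 g rfl fun h => h6 (Or.inl (Or.inl (Or.inl h))),
        h7 (g + 1) (by simp) fun h => h6 (Or.inl (Or.inl (Or.inr h))),
        h7 (g - 3) (by simp) fun h => h6 (Or.inl (Or.inr h))] at h5
      exact h5 (by norm_num)
    · exact mul_ne_zero (Int.natAbs_ne_zero.mpr (mul_ne_zero (mul_ne_zero (Rat.num_ne_zero.mpr h0)
        (Rat.num_ne_zero.mpr h1)) (Rat.num_ne_zero.mpr h3))) g.den_nz

theorem small {g u : ℚ} (hg : g = g0 + W0 * u) (hu : u.den.Coprime W0) (h0 : g ≠ 0)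
    (h1 : g + 1 ≠ 0) (h3 : g - 3 ≠ 0) :
    padicValRat 2 (c3 g) = 0 ∧ padicValRat 3 (c3 g) = 0 ∧ padicValRat 7 (c3 g) = 2 ∧
      padicValRat 19 (c3 g) = 2 := by
  have p2 : Nat.Prime 2 := by norm_num
  have p3 : Nat.Prime 3 := by norm_num
  have p7 : Nat.Prime 7 := by norm_num
  have p19 : Nat.Prime 19 := by norm_num
  have e0 : g = 17689 / 16729 + W0 * u := hg
  have e1 : g + 1 = 34418 / 16729 + W0 * u := by
    rw [e0]
    ring
  have e3 : g - 3 = -32498 / 16729 + W0 * u := by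
    rw [e0]
    ring
  rw [val_c3 p2 h0 h1 h3, val_c3 p3 h0 h1 h3, val_c3 p7 h0 h1 h3, val_c3 p19 h0 h1 h3,
    val_eq p2 0 17689 16729 (by norm_num) (by norm_num) (by norm_num [W0]) hu (e0.trans (by norm_num)),
    val_eq p2 1 17209 16729 (by norm_num) (by norm_num) (by norm_num [W0]) hu (e1.trans (by norm_num)),
    val_eq p2 1 (-16249) 16729 (by norm_num) (by norm_num) (by norm_num [W0]) hu
      (e3.trans (by norm_num)),
    val_eq p3 0 17689 16729 (by norm_num) (by norm_num) (by norm_num [W0]) hu (e0.trans (by norm_num)),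
    val_eq p3 0 34418 16729 (by norm_num) (by norm_num) (by norm_num [W0]) hu (e1.trans (by norm_num)),
    val_eq p3 0 (-32498) 16729 (by norm_num) (by norm_num) (by norm_num [W0]) hu
      (e3.trans (by norm_num)),
    val_eq p7 2 361 16729 (by norm_num) (by norm_num) (by norm_num [W0]) hu (e0.trans (by norm_num)),
    val_eq p7 0 34418 16729 (by norm_num) (by norm_num) (by norm_num [W0]) hu (e1.trans (by norm_num)),
    val_eq p7 0 (-32498) 16729 (by norm_num) (by norm_num) (by norm_num [W0]) hu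
      (e3.trans (by norm_num)),
    val_eq p19 2 49 16729 (by norm_num) (by norm_num) (by norm_num [W0]) hu (e0.trans (by norm_num)),
    val_eq p19 0 34418 16729 (by norm_num) (by norm_num) (by norm_num [W0]) hu
      (e1.trans (by norm_num)),
    val_eq p19 0 (-32498) 16729 (by norm_num) (by norm_num) (by norm_num [W0]) hu
      (e3.trans (by norm_num))]
  norm_num

theorem not_dvd_prod {V : Finset ℕ} (hV : ∀ q ∈ V, q.Prime) (e : ℕ → ℕ) {p : ℕ} (hp : p.Prime)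
    (h : p ∉ V) : ¬ p ∣ ∏ q ∈ V, q ^ e q := by
  intro h1
  obtain ⟨q, hq, h2⟩ := (hp.prime.dvd_finset_prod_iff _).mp h1
  exact h ((Nat.prime_dvd_prime_iff_eq hp (hV q hq)).mp (hp.dvd_of_dvd_pow h2) ▸ hq)

theorem ne_zero_of_dvd_ne_zero_aux {p n : ℕ} (h : ¬ p ∣ n) : n ≠ 0 := by
  rintro rfl
  exact h (dvd_zero p)

theorem val_prod {V : Finset ℕ} (hV : ∀ q ∈ V, q.Prime) (e : ℕ → ℕ) {p : ℕ} (h : p ∈ V) :
    padicValNat p (∏ q ∈ V, q ^ e q) = e p := by
  have hp := hV p h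
  haveI := Fact.mk hp
  have h1 := not_dvd_prod (V := V.erase p) (fun q hq => hV q (Finset.mem_of_mem_erase hq)) e hp
    (Finset.notMem_erase p V)
  rw [← Finset.mul_prod_erase V _ h, padicValNat.mul (pow_ne_zero _ hp.ne_zero)
    (ne_zero_of_dvd_ne_zero_aux h1), padicValNat.prime_pow, padicValNat.eq_zero_of_not_dvd h1,
    add_zero]

theorem cop {x : GaussianInt} {k : ℤ} (h : IsCoprime x.norm k) : IsCoprime x (k : GaussianInt) := by
  have h1 : IsCoprime ((x.norm : ℤ) : GaussianInt) (k : GaussianInt) := h.intCast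
  rw [Zsqrtd.norm_eq_mul_conj] at h1
  exact h1.of_mul_left_left

theorem norm_dvd {x y : GaussianInt} (h : x ∣ y) : x.norm ∣ y.norm :=
  map_dvd Zsqrtd.normMonoidHom h

theorem star_not_dvd {p : ℕ} (hp : p.Prime) (h2 : 3 < p) {π β : GaussianInt} (hπ : π.norm = p)
    (hβ : ¬ (p : ℤ) ∣ β.norm) (e : ℕ) : ¬ star π ∣ π ^ e * β := by
  have hp' : Prime (p : ℤ) := Nat.prime_iff_prime_int.mp hp
  have h0 : (star π).norm = p := by rw [Zsqrtd.norm_conj, hπ]
  have h1 : IsCoprime (star π) β := by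
    have h3 := cop (x := star π) (k := β.norm) (by
      rw [h0]
      exact hp'.coprime_iff_not_dvd.mpr hβ)
    rw [Zsqrtd.norm_eq_mul_conj] at h3
    exact h3.of_mul_right_left
  have h3 : ¬ (p : ℤ) ∣ 2 * π.re := by
    intro h
    have h4 : π.re * π.re + π.im * π.im = p := by
      rw [← hπ, Zsqrtd.norm_def]
      ring
    rcases hp'.dvd_or_dvd h with h5 | h5
    · have := Int.le_of_dvd two_pos h5
      omega
    · have h6 : (p : ℤ) ∣ π.im := (hp'.dvd_or_dvd ((dvd_add_right (h5.mul_right π.re)).mp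
        (h4 ▸ dvd_refl _))).elim id id
      have h7 : (p : ℤ) * p ∣ p * 1 := by
        rw [mul_one]
        exact (dvd_add (mul_dvd_mul h5 h5) (mul_dvd_mul h6 h6)).trans (dvd_of_eq h4)
      exact hp'.not_dvd_one ((mul_dvd_mul_iff_left hp'.ne_zero).mp h7)
  have h4 : IsCoprime (star π) π := by
    have h5 := cop (x := star π) (k := 2 * π.re) (by
      rw [h0]
      exact hp'.coprime_iff_not_dvd.mpr h3)
    have h6 : ((2 * π.re : ℤ) : GaussianInt) = π + star π * 1 := by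
      ext
      · simp [two_mul]
      · simp
    rw [h6] at h5
    exact h5.of_add_mul_left_right
  intro h
  have h5 := ((h4.pow_right (n := e)).mul_right h1).isUnit_of_dvd h
  rw [Zsqrtd.isUnit_iff_norm_isUnit, h0] at h5
  exact hp'.not_unit h5

theorem exists_rho (p : ℕ) : ∃ ρ : GaussianInt, (p.Prime → p % 8 = 1 → ρ.norm = p) ∧
    (p % 8 ≠ 1 → ρ = p) := by
  by_cases h : p.Prime ∧ p % 8 = 1
  · haveI := Fact.mk h.1
    obtain ⟨a, b, h1⟩ := Nat.Prime.sq_add_sq (p := p) (by omega)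
    refine ⟨⟨a, b⟩, fun _ _ => ?_, fun h2 => absurd h.2 h2⟩
    rw [Zsqrtd.norm_def, ← h1]
    push_cast
    ring
  · exact ⟨p, fun h1 h2 => absurd ⟨h1, h2⟩ h, fun _ => rfl⟩

end Ari

open Ari in
theorem arith : ARITH := by
  intro g hg
  obtain ⟨u, hgu, hu⟩ := hg.loc
  obtain ⟨hr1, hr2⟩ := abs_lt.mp hg.real
  have hg1 : 1 < g := by
    rw [g0] at hr1
    linarith
  have hg2 : g < 2 := by
    rw [g0] at hr2
    linarith
  have h0 : g ≠ 0 := by linarith
  have h1 : g + 1 ≠ 0 := by linarith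
  have h3 : g - 3 ≠ 0 := by linarith
  have hc : 0 < c3 g := div_pos (mul_pos (by linarith) (by linarith)) (by linarith)
  obtain ⟨v2, v3, v7, v19⟩ := small hgu hu h0 h1 h3
  have hV := fun p => mem_vis (p := p) h0 h1 h3
  have hP : ∀ p ∈ visSet g, p.Prime := fun p hp => ((hV p).mp hp).1
  obtain ⟨e, he⟩ : ∃ e : ℕ → ℕ, ∀ p, (e p : ℤ) = padicValRat p (c3 g) % 4 :=
    ⟨fun p => (padicValRat p (c3 g) % 4).toNat, fun p =>
      Int.toNat_of_nonneg (Int.emod_nonneg _ (by norm_num))⟩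
  have he1 : ∀ p ∈ visSet g, 1 ≤ e p ∧ e p ≤ 3 := fun p hp => by
    have h4 := ((hV p).mp hp).2.2
    have h5 := he p
    omega
  have he2 : ∀ p : ℕ, p = 7 ∨ p = 19 → p ∈ visSet g ∧ e p = 2 := by
    intro p hp
    have h4 := he p
    rcases hp with rfl | rfl
    · exact ⟨(hV 7).mpr ⟨by norm_num, by norm_num, by omega⟩, by omega⟩
    · exact ⟨(hV 19).mpr ⟨by norm_num, by norm_num, by omega⟩, by omega⟩
  choose ρ hρ1 hρ2 using exists_rho
  obtain ⟨f, hf1, hf2⟩ : ∃ f : ℕ → ℕ, (∀ p, p % 8 = 1 → f p = e p) ∧ ∀ p, p % 8 ≠ 1 → f p = 1 :=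
    ⟨fun p => if p % 8 = 1 then e p else 1, fun p h => if_pos h, fun p h => if_neg h⟩
  have hn : ∀ S ⊆ visSet g, (∏ p ∈ S, ρ p ^ f p).norm = ((∏ p ∈ S, p ^ e p : ℕ) : ℤ) := by
    intro S hS
    rw [Nat.cast_prod]
    refine (map_prod Zsqrtd.normMonoidHom _ _).trans (Finset.prod_congr rfl fun p hp => ?_)
    rw [map_pow, Nat.cast_pow]
    change (ρ p).norm ^ f p = _
    rcases hg.vis p (hS hp) with h4 | h4
    · rw [hρ1 p (hP p (hS hp)) h4, hf1 p h4]
    · rw [hρ2 p (by omega), hf2 p (by omega), (he2 p h4).2, Zsqrtd.norm_natCast, pow_one, sq]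
  have hβ := hn _ subset_rfl
  have hnd : ∀ p ∈ visSet g, ¬ (p : ℤ) ∣ (∏ q ∈ (visSet g).erase p, ρ q ^ f q).norm := by
    intro p hp
    rw [hn _ (Finset.erase_subset _ _), Int.natCast_dvd_natCast]
    exact not_dvd_prod (fun q hq => hP q (Finset.mem_of_mem_erase hq)) e (hP p hp)
      (Finset.notMem_erase p _)
  have hn0 : (∏ p ∈ visSet g, p ^ e p : ℕ) ≠ 0 :=
    Finset.prod_ne_zero_iff.mpr fun p hp => pow_ne_zero _ (hP p hp).ne_zero
  have hn1 : (0 : ℚ) < (∏ p ∈ visSet g, p ^ e p : ℕ) := Nat.cast_pos.mpr (Nat.pos_of_ne_zero hn0)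
  obtain ⟨z, hz⟩ := rat_four (div_pos hc hn1) fun q hq => by
    haveI := Fact.mk hq
    rw [padicValRat.div hc.ne' hn1.ne', padicValRat.of_nat]
    by_cases h4 : q ∈ visSet g
    · have h5 := he q
      rw [val_prod hP e h4]
      omega
    · rw [padicValNat.eq_zero_of_not_dvd (not_dvd_prod hP e hq h4), Nat.cast_zero, sub_zero]
      by_contra h5
      have h6 : ¬ 3 < q := fun h7 => h4 ((hV q).mpr ⟨hq, h7, h5⟩)
      have h7 := hq.two_le
      have h8 : q = 2 ∨ q = 3 := by omega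
      rcases h8 with rfl | rfl <;> omega
  have hm : (∏ p ∈ visSet g, ρ p).norm = ((7 * 19 * Vis g : ℕ) : ℤ) := by
    have h4 : ({7, 19} : Finset ℕ) ⊆ visSet g := fun p hp => (he2 p (by simpa using hp)).1
    have h5 : ∏ p ∈ visSet g, (if p ∈ ({7, 19} : Finset ℕ) then p else 1) = 7 * 19 := by
      rw [Finset.prod_ite_mem, Finset.inter_eq_right.mpr h4, Finset.prod_pair (by norm_num)]
    rw [← h5, Vis, ← Finset.prod_mul_distrib, Nat.cast_prod]
    refine (map_prod Zsqrtd.normMonoidHom _ _).trans (Finset.prod_congr rfl fun p hp => ?_)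
    change (ρ p).norm = _
    rcases hg.vis p hp with h6 | h6
    · rw [hρ1 p (hP p hp) h6, if_neg (by simp; omega), one_mul]
    · rw [hρ2 p (by omega), if_pos (by simpa using h6), Zsqrtd.norm_natCast, Nat.cast_mul]
  have hcop : ∀ k : ℕ, k.Prime → k ≤ 3 → IsCoprime (∏ p ∈ visSet g, ρ p) (k : GaussianInt) := by
    intro k hk hk3
    refine Int.cast_natCast (R := GaussianInt) k ▸ cop ?_
    rw [hm, Nat.isCoprime_iff_coprime]
    refine Nat.Coprime.mul_left (Nat.Coprime.mul_left ?_ ?_) (Nat.Coprime.prod_left fun p hp => ?_)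
    · exact (Nat.coprime_primes (by norm_num) hk).mpr (by omega)
    · exact (Nat.coprime_primes (by norm_num) hk).mpr (by omega)
    · have h4 := ((hV p).mp hp).2.1
      exact (Nat.coprime_primes (hP p hp) hk).mpr (by omega)
  have hf : ∀ p ∈ visSet g, 1 ≤ f p ∧ f p ≤ 3 := fun p hp => by
    by_cases h4 : p % 8 = 1
    · rw [hf1 p h4]
      exact he1 p hp
    · rw [hf2 p h4]
      omega
  refine ⟨{
    β := ∏ p ∈ visSet g, ρ p ^ f p
    m := ∏ p ∈ visSet g, ρ p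
    z := z
    hz := ?_
    hc := ?_
    normm := hm
    m_dvd := Finset.prod_dvd_prod_of_dvd _ _ fun p hp => dvd_pow_self _ (by have := hf p hp; omega)
    dvd_m := ?_
    mod8 := ?_
    cop2 := hcop 2 Nat.prime_two (by norm_num)
    cop3 := hcop 3 Nat.prime_three le_rfl
    visp := fun p hp => ⟨hP p hp, ((hV p).mp hp).2.1, hg.vis p hp⟩
    vis1 := fun p hp h4 => ⟨ρ p, ∏ q ∈ (visSet g).erase p, ρ q ^ f q, f p, hρ1 p (hP p hp) h4,
      (hf p hp).1, (hf p hp).2, (Finset.mul_prod_erase _ (fun q => ρ q ^ f q) hp).symm, ?_, ?_, ?_⟩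
    vis2 := fun p h4 => ⟨(he2 p h4).1, ?_, ∏ q ∈ (visSet g).erase p, ρ q ^ f q, ?_, ?_⟩
    hg := h0
    hp1 := h1
    hm3 := by linarith
    hm1 := by linarith
    hp3 := by linarith }⟩
  · rintro rfl
    exact (div_pos hc hn1).ne' (hz.trans (by norm_num))
  · rw [hβ, Int.cast_natCast, ← hz, mul_div_cancel₀ _ hn1.ne']
  · rw [← Finset.prod_pow]
    exact Finset.prod_dvd_prod_of_dvd _ _ fun p hp => pow_dvd_pow _ (hf p hp).2
  · have h4 : (∏ p ∈ visSet g, p ^ e p) % 8 = 1 := by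
      refine Finset.prod_induction _ (fun x => x % 8 = 1) (fun a b ha hb => ?_) rfl fun p hp => ?_
      · rw [Nat.mul_mod, ha, hb]
      · rcases hg.vis p hp with h5 | h5
        · rw [Nat.pow_mod, h5, one_pow]
          rfl
        · rw [(he2 p h5).2]
          rcases h5 with rfl | rfl <;> norm_num
    rw [hβ]
    omega
  · exact fun h5 => hnd p hp (hρ1 p (hP p hp) h4 ▸ norm_dvd h5)
  · rw [← Finset.mul_prod_erase _ (fun q => ρ q ^ f q) hp]
    exact star_not_dvd (hP p hp) ((hV p).mp hp).2.1 (hρ1 p (hP p hp) h4) (hnd p hp) _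
  · rw [hβ, padicValInt.of_nat, val_prod hP e hp, hf1 p h4]
  · rw [hβ, padicValInt.of_nat, val_prod hP e (he2 p h4).1, (he2 p h4).2]
  · rw [← Finset.mul_prod_erase _ (fun q => ρ q ^ f q) (he2 p h4).1, hρ2 p (by omega),
      hf2 p (by omega), pow_one]
  · intro h5
    have h6 := norm_dvd h5
    rw [Zsqrtd.norm_natCast] at h6
    exact hnd p (he2 p h4).1 ((dvd_mul_right _ _).trans h6)

end Vale.Agent.P027M.F
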