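import Vale.Agent.P027M.F.BrDef

/-! # P027 route M, block F: the bridge to the abstract Tate modules -/

set_option linter.all false

noncomputable section

namespace Vale.Agent.P027M.F

open Vale.Agent.P019P P025H816 _root_.P027M.K

namespace BrAux

theorem sum_gal {k K F : Type} [Field k] [Field K] [Field F] [Algebra k K] [Algebra k F]
    [Algebra K F] [IsScalarTower k K F] [FiniteDimensional K F] [IsGalois K F] {I : Type}
    [Fintype I] (e : I → SL k F) (hc : Module.finrank K F = Fintype.card I)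
    (h : ∀ σ : F ≃ₐ[K] F, ∃ i, σ.toRingEquiv = e i) {M : Type} [AddCommMonoid M]
    (f : SL k F → M) : ∑ σ : F ≃ₐ[K] F, f (autSL k σ) = ∑ i, f (e i) := by
  choose g hg using h
  refine Fintype.sum_bijective g ((Fintype.bijective_iff_injective_and_card g).2
    ⟨fun a b q => AlgEquiv.ext fun z => ?_, by
      rw [← hc, ← IsGalois.card_aut_eq_finrank, Nat.card_eq_fintype_card]⟩) _ _
    fun σ => congrArg f (Subtype.ext (hg σ))
  exact DFunLike.congr_fun ((hg a).trans ((congrArg (fun i => (e i : F ≃+* F)) q).trans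
    (hg b).symm)) z

theorem tf {k F : Type} [Field k] [Field F] [Algebra k F] [CFF k F] (x : TT 3 k F)
    (h : (3 : ℤ_[3]) • x = 0) : x = 0 :=
  TM.eq_zero_of_pow_smul (r := 1) (by rw [pow_one]; exact_mod_cast h)

theorem cp1 {k F : Type} [Field k] [Field F] [Algebra k F] [CFF k F] {x : TT 3 k F} :
    TM.cp 1 x = 0 ↔ ∃ y, x = (3 : ℤ_[3]) • y := by
  rw [TM.cp_eq_zero_iff, pow_one, Nat.cast_ofNat]

variable {k : Type} [Field k] [IsAlgClosed k] (P : Par k)

/-- a cube root of an element of `FE` lies in `FE` -/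
theorem cube {u : P.FF} (h : u ^ 3 ∈ P.FE) : u ∈ P.FE := by
  by_cases u0 : u = 0
  · rw [u0]; exact zero_mem _
  have key : ∀ e : RingAut P.FF, e (u ^ 3) = u ^ 3 → ∃ a : k, P.ι a ^ 3 = 1 ∧ e u = P.ι a * u :=
    fun e he => by
      have h1 : (e u / u) ^ 3 = 1 := by rw [div_pow, ← map_pow, he, div_self (pow_ne_zero _ u0)]
      obtain ⟨a, ha⟩ := const_of_pow_eq_one (k := k) (by norm_num) h1
      exact ⟨a, by rw [← h1, ha], by rw [Par.ι, ← ha, div_mul_cancel₀ _ u0]⟩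
  obtain ⟨a, a3, ha⟩ := key _ (P.mem_FE.1 h).1
  obtain ⟨b, b3, hb⟩ := key _ (P.mem_FE.1 h).2
  have h1 := DFunLike.congr_fun P.tau_sq u
  rw [P.mul_ap, P.one_ap, ha, map_mul, P.tau_c, ha] at h1
  have h2 : P.ι a * P.ι a = 1 := mul_right_cancel₀ u0 (by linear_combination h1)
  have h3 : P.ι a = 1 := by linear_combination a3 - P.ι a * h2
  rw [h3, one_mul] at ha
  have h4 := DFunLike.congr_fun P.tau_rho u
  rw [P.mul_ap, P.mul_ap, P.mul_ap, ha, hb, map_mul, map_mul, P.tau_c, P.rho_c, ha, hb] at h4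
  have h5 : P.ι b = P.ι b * P.ι b := mul_right_cancel₀ u0 (by linear_combination h4)
  have h6 : P.ι b = 1 := by linear_combination b3 + (P.ι b + 1) * h5
  rw [h6, one_mul] at hb
  exact P.mem_FE.2 ⟨ha, hb⟩

theorem j3 (x : TT 3 k P.FE) (z : P.H) (h : jT 3 k P.FE P.FF x = (3 : ℤ_[3]) • z) :
    ∃ y, x = (3 : ℤ_[3]) • y := by
  obtain ⟨f, hf, hx⟩ := exists_cp_tP x 1
  have h1 := cp1.2 ⟨z, h⟩
  rw [cp_jT, ← hx, pullP_tP (lp_ne 3 1) hf, tP_eq_zero_iff (lp_ne 3 1) (jU_mem hf),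
    mem_powU'] at h1
  obtain ⟨u, hu⟩ := h1
  rw [pow_one] at hu
  rw [← cp1, ← hx, tP_eq_zero_iff (lp_ne 3 1) hf, mem_powU']
  exact ⟨⟨u, cube P (by rw [hu]; exact (f : P.FE).2)⟩, Subtype.ext (by rw [pow_one]; exact hu)⟩

/-- the action by endomorphisms -/
def A : SL k P.FF →* Module.End ℤ_[3] P.H :=
  LinearEquiv.automorphismGroup.toLinearMapMonoidHom.comp (act 3 k P.FF)

theorem A_ap (θ : SL k P.FF) (x : P.H) : A P θ x = act 3 k P.FF θ x := rfl

theorem rel {a b : SL k P.FF} (h : (a : RingAut P.FF) = b) : A P a = A P b :=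
  congrArg _ (Subtype.ext h)

theorem jN (S : IntermediateField k P.FF) [CFF k S] [FiniteDimensional S P.FF] [IsGalois S P.FF]
    {I : Type} [Fintype I] (e : I → SL k P.FF) (hc : Module.finrank S P.FF = Fintype.card I)
    (h : ∀ σ : P.FF ≃ₐ[S] P.FF, ∃ i, σ.toRingEquiv = e i) (y : P.H) :
    jT 3 k S P.FF (NT 3 k S P.FF y) = ∑ i, A P (e i) y :=
  (jT_NT y).trans (sum_gal e hc h fun s => A P s y)

theorem gam : ∃ (e : RingAut P.FF) (ν θ : k), (∀ a, e (P.ι a) = P.ι a) ∧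
    ν = -(θ ^ 2 / (P.c * P.b2)) ∧ θ ^ 4 = P.c ^ 3 * P.b2 ^ 2 * P.g0 ^ 2 ∧
    P.IsInv (e : P.FF →+* P.FF) ν θ ∧ e * e = P.iota * P.iota := by
  obtain ⟨e, ν, θ, hc, θ0, hν, hθ, hI⟩ := P.exists_gam
  have c0 := P.c_ne
  have b0 := P.b2_ne
  have ν0 : ν ≠ 0 := by
    rw [hν]; exact neg_ne_zero.2 (div_ne_zero (pow_ne_zero 2 θ0) (mul_ne_zero c0 b0))
  have ν2 : ν ^ 2 = P.c * P.g0 * P.g0 := by
    rw [hν]; field_simp; linear_combination hθ
  refine ⟨e, ν, θ, hc, hν, hθ, hI, P.aut_ext (fun a => ?_) ?_ ?_ ?_⟩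
  · rw [P.iota2_c, P.mul_ap, hc, hc]
  · rw [P.iota2_M1, P.mul_ap, show e P.M1 = _ from hI.m1]
    exact Par.IsInv.mm (e := (e : P.FF →+* P.FF)) (hc ν) ν0 hI.m1
  · rw [P.iota2_M2, P.mul_ap, show e P.M2 = _ from hI.m2]
    exact Par.IsInv.mm (e := (e : P.FF →+* P.FF)) (hc ν) ν0 hI.m2
  · rw [P.iota2_Y, P.mul_ap]
    refine (hI.yy hI (hc θ) ν0 θ0).trans ?_
    rw [← map_pow, ν2]
    have := P.ι_ne θ0
    have := P.ι_ne c0
    have := P.ι_ne P.hg0
    simp only [map_mul]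
    field_simp

omit [IsAlgClosed k] in
/-- the fourth power fixes a fourth root -/
theorem fix4 {σ : RingAut k} {θ : k} (hi : σ P.i = P.i) (h : σ (θ ^ 4) = θ ^ 4) :
    (σ ^ 4) θ = θ := by
  obtain ⟨z, z4, hz, e⟩ : ∃ z : k, z ^ 4 = 1 ∧ σ z = z ∧ σ θ = z * θ := by
    have h1 : (σ θ - θ) * (σ θ + θ) * ((σ θ - P.i * θ) * (σ θ + P.i * θ)) = 0 := by
      rw [map_pow] at h
      linear_combination h - (σ θ ^ 2 - θ ^ 2) * θ ^ 2 * P.hi
    have i4 : P.i ^ 4 = 1 := by linear_combination (P.i ^ 2 - 1) * P.hi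
    simp only [mul_eq_zero] at h1
    rcases h1 with (q | q) | q | q
    · exact ⟨1, by ring, map_one _, by linear_combination q⟩
    · exact ⟨-1, by ring, by rw [map_neg, map_one], by linear_combination q⟩
    · exact ⟨P.i, i4, hi, by linear_combination q⟩
    · exact ⟨-P.i, by linear_combination i4, by rw [map_neg, hi], by linear_combination q⟩
  have : (σ ^ 4) θ = σ (σ (σ (σ θ))) := by
    simp only [pow_succ, pow_zero, one_mul]; rfl
  rw [this]
  simp only [e, map_mul, hz]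
  linear_combination θ * z4

theorem comm4 {T : Tw P} {σ : T.Sig} (h : T.Fx σ) {e : RingAut P.FF} {ν θ : k}
    (hc : ∀ a, e (P.ι a) = P.ι a) (hν : ν = -(θ ^ 2 / (P.c * P.b2)))
    (hθ : θ ^ 4 = P.c ^ 3 * P.b2 ^ 2 * P.g0 ^ 2) (hI : P.IsInv (e : P.FF →+* P.FF) ν θ) :
    T.rr (σ ^ 4) * e = e * T.rr (σ ^ 4) := by
  have c1 : ∀ s : T.Sig, (s : RingAut k) P.c = P.c := fun s => by
    simp only [Par.c, map_div₀, map_mul, map_sub, map_add, map_one, map_ofNat, s.2.1]
  have b1 : ∀ s : T.Sig, (s : RingAut k) P.b2 = P.b2 := fun s => by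
    simp only [Par.b2, map_div₀, map_mul, map_pow, map_add, map_one, map_ofNat, s.2.1]
  have h4 : ((σ ^ 4 : T.Sig) : RingAut k) θ = θ :=
    fix4 P h.1 (by rw [hθ]; simp only [map_mul, map_pow, c1, b1, h.2.1])
  have hi : ((σ ^ 4 : T.Sig) : RingAut k) P.i = P.i :=
    fix4 P h.1 (by rw [map_pow, h.1])
  exact Tw.rr_inv (Tw.fx_of hi) hc hI
    (by rw [hν]; simp only [map_neg, map_div₀, map_mul, map_pow, c1, b1, h4]) h4

variable [NeZero ((3 : ℕ) : k)]

theorem ee_lin (θ : SL k P.FF) (h : ∀ a, (θ : RingAut P.FF) (P.ι a) = P.ι a) (x y : P.H) :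
    ee 3 k P.FF (A P θ x) (A P θ y) = ee 3 k P.FF x y := by
  rw [A_ap, A_ap, ee_act, cyc_apply, res0_eq (s := 1) h, map_one, Units.val_one, one_mul]

end BrAux

open BrAux in
theorem br (sub : SUB) (gens : GENS) : BR := by
  intro k _ _ _ P T G _ φ R hR
  obtain ⟨⟨gC, gE, gM, -⟩, ⟨dC, dE, dM, -⟩, aC, aE, aM, -⟩ := sub k P
  obtain ⟨nC, nE, nM, -⟩ := gens k P
  obtain ⟨e, ν, θ, hc, hν, hθ, hI, ee2⟩ := gam P
  let sG : SL k P.FF := ⟨e, 1, hc⟩
  have r0 : ∀ t, res0 (R t) = (φ t : RingAut k) := fun t =>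
    res0_eq fun a => by rw [hR]; exact Tw.rr_c _ a
  have τρ : A P P.sT * A P P.sR = A P P.sR * A P P.sR * A P P.sT := by
    simp only [← map_mul]; exact rel P P.tau_rho
  have ρ3 : A P P.sR * A P P.sR * A P P.sR = 1 := by
    simp only [← map_mul]; exact (rel P (b := 1) P.rho_cube).trans (map_one _)
  have ιτ : A P P.sI * A P P.sT = A P P.sT * A P P.sI := by
    simp only [← map_mul]; exact rel P P.iota_tau
  refine ⟨{
    ι := A P P.sI, ρ := A P P.sR, τ := A P P.sT, γ := A P sG, r := (A P).comp R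
    K := (MulAction.stabilizer (RingAut k) P.i).comap (T.Sig.subtype.comp φ)
    cyc := fun t => cyc0 3 k (res0 (R t))
    ee := ee 3 k P.FF, eE := ee 3 k P.FE
    jC := jT 3 k P.FC P.FF, NC := NT 3 k P.FC P.FF, jE := jT 3 k P.FE P.FF
    NE := NT 3 k P.FE P.FF
    fin := inferInstance, finC := inferInstance, finE := inferInstance
    tf := tf, tfC := tf, tfE := tf
    rkC := by rw [finrank_TT, nC]
    rkE := by rw [finrank_TT, nE]
    ττ := by simp only [← map_mul]; exact (rel P (b := 1) P.tau_sq).trans (map_one _)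
    ρ3 := ρ3, τρ := τρ, ιτ := ιτ
    ιρ := by simp only [← map_mul]; exact rel P P.iota_rho
    ι4 := by simp only [← map_mul]; exact (rel P (b := 1) P.iota_four).trans (map_one _)
    γρ := by simp only [← map_mul]; exact rel P (hI.comm_rho fun a => ⟨a, hc a⟩)
    τγ := by simp only [← map_mul]; exact rel P (hI.comm_tau fun a => ⟨a, hc a⟩)
    ιγ := by simp only [← map_mul]; exact rel P (hI.iota_lin hc)
    γγ := by simp only [← map_mul]; exact rel P ee2
    rρ := fun t => by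
      simp only [MonoidHom.comp_apply, ← map_mul]
      exact rel P (by simp only [Subgroup.coe_mul, hR]; exact Tw.rr_rho _)
    rι := fun t => by
      simp only [MonoidHom.comp_apply, ← map_mul]
      exact rel P (by simp only [Subgroup.coe_mul, hR]; exact Tw.rr_iota _)
    rτ := fun t ht => by
      simp only [MonoidHom.comp_apply, ← map_mul]
      exact rel P (by simp only [Subgroup.coe_mul, hR]; exact Tw.rr_tau_fx (Tw.fx_of ht))
    rτ' := fun t ht => by
      simp only [MonoidHom.comp_apply, ← map_mul]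
      exact rel P (by simp only [Subgroup.coe_mul, hR]; exact Tw.rr_tau_sw (Tw.sw_of ht))
    line := ?_
    skew := fun x y => ee_skew y x
    eι := ee_lin P _ P.iota_c, eρ := ee_lin P _ P.rho_c, eτ := ee_lin P _ P.tau_c
    eγ := ee_lin P _ hc
    er := fun t x y => ee_act (R t) x y
    perf := fun x h => cp1.1 (TM.cp_eq_zero_iff.2 (ee_perfect fun y => by
      rw [pow_one]; exact_mod_cast h y))
    jNC := fun y => ?_
    NjC := fun x => by rw [NT_jT, dC, two_smul, two_smul]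
    jNE := fun y => ?_
    NjE := fun x => by rw [NT_jT, dE, ← Nat.cast_smul_eq_nsmul ℤ_[3], Nat.cast_ofNat]
    adj := ee_adj
    j3 := j3 P }, fun _ => rfl, fun _ => rfl, fun _ => rfl, fun _ _ => rfl,
    fun t => by rw [r0]; rfl, fun _ => rfl, fun _ => rfl, fun _ => rfl, fun t ht => ?_⟩
  · refine LinearMap.ext fun y => ?_
    have h0 : NT 3 k P.FM P.FF y = 0 :=
      ((Module.finrank_zero_iff (R := ℤ_[3])).1 (by rw [finrank_TT, nM])).elim _ _
    have h1 := jN P P.FM (fun p : Fin 2 × Fin 2 => (P.sI * P.sI) ^ (p.1 : ℕ) * P.sT ^ (p.2 : ℕ))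
      (by rw [dM]; rfl) (fun σ => by
        obtain ⟨a, b, h⟩ := aM σ
        exact ⟨(a, b), h⟩) y
    rw [h0, map_zero] at h1
    have h2 : A P P.sI * A P P.sI * A P P.sT = A P P.sT * (A P P.sI * A P P.sI) := by
      rw [mul_assoc, ιτ, ← mul_assoc, ιτ, mul_assoc]
    simp only [Fintype.sum_prod_type, Fin.sum_univ_two, Fin.val_zero, Fin.val_one, pow_zero,
      pow_one, one_mul, mul_one, map_mul, map_one, h2] at h1
    rw [LinearMap.zero_apply, h1, add_mul, mul_add, mul_add, one_mul, one_mul, mul_one]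
    simp only [LinearMap.add_apply]
    abel
  · rw [jN P P.FC (fun b : Fin 2 => P.sT ^ (b : ℕ)) (by rw [dC]; rfl) (fun σ => by
      rcases aC σ with h | h
      exacts [⟨0, h⟩, ⟨1, h.trans (pow_one P.tau).symm⟩])]
    simp only [Fin.sum_univ_two, Fin.val_zero, Fin.val_one, pow_zero, pow_one, map_one,
      Module.End.one_apply]
  · rw [jN P P.FE (fun p : Fin 2 × Fin 3 => P.sT ^ (p.1 : ℕ) * P.sR ^ (p.2 : ℕ))
      (by rw [dE]; rfl) (fun σ => by
        obtain ⟨a, b, h⟩ := aE σ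
        exact ⟨(a, b), h⟩)]
    have h2 : A P P.sT * (A P P.sR * A P P.sR) = A P P.sR * A P P.sT := by
      rw [← mul_assoc, τρ, mul_assoc, τρ, ← mul_assoc, ← mul_assoc, ρ3, one_mul]
    simp only [Fintype.sum_prod_type, Fin.sum_univ_two, Fin.sum_univ_three, Fin.val_zero,
      Fin.val_one, Fin.val_two, pow_zero, pow_one, pow_two, one_mul, mul_one, map_mul, map_one,
      h2, τρ]
    simp only [LinearMap.add_apply, map_add, Module.End.mul_apply, Module.End.one_apply]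
    abel
  · show A P (R (t ^ 4)) * A P sG = A P sG * A P (R (t ^ 4))
    simp only [← map_mul]
    refine rel P ?_
    simp only [Subgroup.coe_mul, hR, map_pow φ]
    exact comm4 P (Tw.fx_of ht) hc hν hθ hI

end Vale.Agent.P027M.F
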