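import Vale.Agent.P027M.F.Defs
import Vale.Agent.P027M.TW.Tow

/-! # P027 route M, block F: the determinant (row DET) -/

set_option linter.all false

noncomputable section

namespace Vale.Agent.P027M.F

open NumberField Vale.Agent.P022 _root_.P027M.K

namespace Dt

/-- `gi` as a ring homomorphism -/
def gh {R : Type*} [CommRing R] (i : R) (hi : i ^ 2 = -1) : GaussianInt →+* R :=
  Zsqrtd.lift ⟨i, by rw [← sq, hi]; simp⟩

theorem gh_apply {R : Type*} [CommRing R] (i : R) (hi : i ^ 2 = -1) (z : GaussianInt) :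
    gh i hi z = gi i z := rfl

theorem gi4 {R : Type*} [CommRing R] {i : R} (hi : i ^ 2 = -1) {z : GaussianInt} (h : z ^ 4 = 1) :
    gi i z ^ 4 = 1 := by
  rw [← gh_apply i hi, ← map_pow, h, map_one]

theorem res_gi (z : GaussianInt) : res3 (gi (iO : O3) z) = gi i9 z := by
  have : res3 iO = i9 := QO.res_iO _
  simp [gi, this]

/-- the cyclotomic character on the Galois group -/
def cc : GQ →* ℤ_[3]ˣ where
  toFun σ := cyc0 3 Qb σ.toRingEquiv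
  map_one' := map_one (cyc0 3 Qb)
  map_mul' σ τ := map_mul (cyc0 3 Qb) σ.toRingEquiv τ.toRingEquiv

theorem isCy (r : ℕ) (σ : GQ) :
    TW.IsCy (3 ^ r) σ (Units.map (PadicInt.toZModPow r : ℤ_[3] →+* _).toMonoidHom (cc σ)) :=
  fun ζ h => cyc0_spec σ.toRingEquiv h

theorem cc_frob (C : TW.Spec_CY) {l : ℕ} (hl : l.Prime) (h3 : ¬ l ∣ 3) {φ : GQ}
    (hφ : IsFrob l φ) : (cc φ : ℤ_[3]) = l :=
  PadicInt.ext_of_toZModPow.1 fun r => by
    obtain ⟨cy, -, h2, -, -, h5⟩ := C.2 (3 ^ r) (by positivity)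
    have k := (h5 l hl fun d => h3 (hl.dvd_of_dvd_pow d)).1 φ hφ
    rw [← h2 φ _ (isCy r φ)] at k
    rw [map_natCast]
    exact k

/-- the residue of a `3`-adic integer -/
def rs : ℤ_[3] →+* k9 := res3.comp (algebraMap ℤ_[3] O3)

theorem rs_eq (c : ℤ_[3]) :
    rs c = resL 0 (algebraMap (ZMod (3 ^ (0 + 1))) (La (0 + 1)) (PadicInt.toZModPow (0 + 1) c)) := by
  rw [← QO.map_alg]
  exact (resL_toLa 0 _).symm

theorem rs_sq (c : ℤ_[3]ˣ) : rs c ^ 2 = 1 := by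
  have e : ∀ a b : ZMod (3 ^ (0 + 1)), a * b = 1 → a ^ 2 = 1 := by decide
  rw [rs_eq, ← map_pow, ← map_pow, e _ (PadicInt.toZModPow (0 + 1) (c⁻¹ : ℤ_[3]ˣ))
    (by rw [← map_mul, Units.mul_inv, map_one]), map_one, map_one]

theorem rs4 (c : ℤ_[3]ˣ) : rs c ^ 4 = 1 := by
  rw [show 4 = 2 * 2 from rfl, pow_mul, rs_sq, one_pow]

section

variable {N : ℕ} {ε : ZMod N →* GaussianInt} {ρ : GQ →* TW.M2 O3}

theorem up (e4 : ∀ u : (ZMod N)ˣ, ε u ^ 4 = 1) (h4 : Det4 ρ) (σ : GQ) (u : (ZMod N)ˣ)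
    (h : res3 (ρ σ).det = rs (cc σ) * gi i9 (ε u)) :
    (ρ σ).det = algebraMap ℤ_[3] O3 (cc σ : ℤ_[3]) * gi (iO : O3) (ε u) := by
  have e : res3 (algebraMap ℤ_[3] O3 (cc σ : ℤ_[3]) * gi (iO : O3) (ε u)) =
      rs (cc σ) * gi i9 (ε u) := by rw [map_mul, res_gi]; rfl
  refine eq_of_pow_eq (n := 4) (by norm_num) (fun k => ?_) ?_ (h.trans e.symm)
  · have : (rs (cc σ) * gi i9 (ε u)) ^ 4 = 1 := by
      rw [mul_pow, rs4, gi4 i9_sq (e4 u), one_mul]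
    rw [← e, k] at this
    simp at this
  · rw [h4 σ, mul_pow, gi4 iO_sq (e4 u), mul_one]
    rfl

/-- the pair of characters -/
def rr (ε : ZMod N →* GaussianInt) (ρ : GQ →* TW.M2 O3) (cy : GQ →* (ZMod N)ˣ) : GQ →* k9 × k9 :=
  (res3.toMonoidHom.comp (Matrix.detMonoidHom.comp ρ)).prod
    ((rs.toMonoidHom.comp ((Units.coeHom _).comp cc)) *
      ((gh i9 i9_sq).toMonoidHom.comp (ε.comp ((Units.coeHom _).comp cy))))

theorem rr_apply (cy : GQ →* (ZMod N)ˣ) (σ : GQ) :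
    rr ε ρ cy σ = (res3 (ρ σ).det, rs (cc σ) * gi i9 (ε (cy σ))) := rfl

theorem rr_open (C : TW.Spec_CY) (ho : Opn ρ) {cy : GQ →* (ZMod N)ˣ}
    (hc : IsOpen {g : GQ | cy g = 1}) : IsOpen {g : GQ | rr ε ρ cy g = 1} := by
  obtain ⟨U, hU, hu⟩ := ho (0 + 1)
  obtain ⟨c3, -, h2, h3, -⟩ := C.2 (3 ^ (0 + 1)) (by positivity)
  refine Subgroup.isOpen_mono (H₁ := U ⊓ (c3.ker ⊓ cy.ker)) (H₂ := (rr ε ρ cy).ker) ?_
    (hU.inter (h3.inter hc))
  rintro g ⟨a, b, c⟩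
  have b' : c3 g = 1 := b
  have c' : cy g = 1 := c
  rw [← h2 g _ (isCy _ g)] at b'
  have b2 : PadicInt.toZModPow (0 + 1) (cc g : ℤ_[3]) = 1 := congrArg Units.val b'
  have a2 : toLa (0 + 1) (ρ g).det = 1 := by
    rw [RingHom.map_det, RingHom.mapMatrix_apply, hu g a, Matrix.det_one]
  rw [MonoidHom.mem_ker, rr_apply, ← resL_toLa 0, a2, rs_eq, b2, c', Units.val_one, map_one,
    map_one, map_one, map_one, one_mul, ← gh_apply i9 i9_sq, map_one]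
  rfl

theorem rr4 (e4 : ∀ u : (ZMod N)ˣ, ε u ^ 4 = 1) (h4 : Det4 ρ) (cy : GQ →* (ZMod N)ˣ) (σ : GQ) :
    rr ε ρ cy σ ^ 4 = 1 := by
  rw [rr_apply]
  refine Prod.ext ?_ ?_
  · show res3 (ρ σ).det ^ 4 = 1
    rw [← map_pow, h4 σ, map_pow]
    exact rs4 (cc σ)
  · show (rs (cc σ) * gi i9 (ε (cy σ))) ^ 4 = 1
    rw [mul_pow, rs4, gi4 i9_sq (e4 _), one_mul]

end

theorem good {N l : ℕ} (h : GoodP N l) : ¬ l ∣ 3 ∧ ¬ l ∣ N :=
  ⟨fun d => h.2 ((d.trans (by norm_num : 3 ∣ 6)).mul_right N), fun d => h.2 (d.mul_left 6)⟩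

end Dt

open Dt in
/-- row DET -/
theorem det (hD : TW.Spec_DENS) (C : TW.Spec_CY) : DET := by
  intro N ε M ξ ρ hk ho h4 hr
  obtain ⟨cy, h1, -, h3, -, h5⟩ := C.2 N hk.pos
  have fr : ∀ (l : ℕ) (φ : GQ), GoodP N l → IsFrob l φ →
      res3 (ρ φ).det = rs (cc φ) * gi i9 (ε (cy φ)) := fun l φ hl hφ => by
    rw [hr l φ hl hφ, cc_frob C hl.1 (good hl).1 hφ, (h5 l hl.1 (good hl).2).1 φ hφ,
      map_natCast rs]
  refine ⟨fun l φ hl hφ => ?_, fun σ n hn => ?_⟩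
  · rw [up hk.eps4 h4 φ _ (fr l φ hl hφ), cc_frob C hl.1 (good hl).1 hφ,
      (h5 l hl.1 (good hl).2).1 φ hφ, map_natCast]
  · have hN : NeZero N := ⟨hk.pos.ne'⟩
    have hN' : NeZero (N : Qb) := ⟨Nat.cast_ne_zero.2 hk.pos.ne'⟩
    have en : (n : ZMod N) = cy σ := by
      obtain ⟨ζ, hζ⟩ := HasEnoughRootsOfUnity.exists_primitiveRoot Qb N
      have k := (hn ζ hζ.pow_eq_one).symm.trans (h1 σ ζ hζ.pow_eq_one)
      rw [(hζ.isOfFinOrder hk.pos.ne').pow_eq_pow_iff_modEq, ← hζ.eq_orderOf,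
        ← ZMod.natCast_eq_natCast_iff, ZMod.natCast_zmod_val] at k
      exact k
    have : Finite k9 := Finite.of_surjective (resL 0) (coef 0).surj
    obtain ⟨φ, ⟨l, hl, hS, hφ⟩, m, hm, e⟩ := hD (k9 × k9) (rr ε ρ cy) (rr_open C ho h3)
      (6 * N).primeFactors σ {2} (by simp [Nat.prime_two]) (by simp; norm_num) fun p hp d => by
        have := d.trans (orderOf_dvd_of_pow_eq_one (rr4 hk.eps4 h4 cy σ))
        rw [Finset.mem_singleton]
        exact (Nat.prime_dvd_prime_iff_eq hp Nat.prime_two).1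
          (hp.dvd_of_dvd_pow (n := 2) this)
    have gl : GoodP N l := ⟨hl, fun d => hS (Nat.mem_primeFactors.2 ⟨hl, d, by
      have := hk.pos; positivity⟩)⟩
    obtain ⟨t, ht⟩ := exists_pow_eq_self_of_coprime hm
    rw [← e, rr_apply, rr_apply, fr l φ gl hφ] at ht
    have k := (congrArg Prod.fst ht).symm.trans (congrArg Prod.snd ht)
    rw [en]
    exact up hk.eps4 h4 σ _ k

end Vale.Agent.P027M.F
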