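import Vale.Agent.P027M.F.ArDefs

/-!
# P027, route M, block F: the tangent at a point of order three is not a cube
-/

set_option linter.all false

noncomputable section

namespace Vale.Agent.P027M.F

open Polynomial

namespace PtcAux

variable {k F : Type*} [Field k] [Field F] [Algebra k F]

theorem par {f a b : k[X]} (hf : f.natDegree = 3) (h : a ^ 2 = b ^ 2 * f) : a = 0 ∧ b = 0 := by
  have f0 : f ≠ 0 := fun e => by rw [e, natDegree_zero] at hf; omega
  have hb : b = 0 := by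
    by_contra hb
    have h2 := congrArg natDegree h
    rw [natDegree_mul (pow_ne_zero _ hb) f0, natDegree_pow, natDegree_pow, hf] at h2
    omega
  rw [hb] at h
  exact ⟨(pow_eq_zero_iff two_ne_zero).1 (by rw [h]; ring), hb⟩

theorem indep {N Y : F} (hN : Transcendental k N) {f : k[X]} (hf : f.natDegree = 3)
    (hY : Y ^ 2 = aeval N f) {a b : k[X]} (e : aeval N a + aeval N b * Y = 0) : a = 0 ∧ b = 0 :=
  par hf (transcendental_iff_injective.1 hN (by
    rw [map_mul, map_pow, map_pow, ← hY]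
    linear_combination (aeval N a - aeval N b * Y) * e))

theorem rep {N Y : F} (hN : Transcendental k N) {f : k[X]} (hf : f.natDegree = 3)
    (hY : Y ^ 2 = aeval N f) {u : F} (hu : u ∈ IntermediateField.adjoin k ({N, Y} : Set F)) :
    ∃ a b c : k[X], c ≠ 0 ∧ aeval N c * u = aeval N a + aeval N b * Y := by
  induction hu using IntermediateField.adjoin_induction with
  | mem x hx =>
    rcases hx with rfl | rfl
    · exact ⟨X, 0, 1, one_ne_zero, by simp⟩
    · exact ⟨0, 1, 1, one_ne_zero, by simp⟩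
  | algebraMap r => exact ⟨C r, 0, 1, one_ne_zero, by simp⟩
  | add x y _ _ hx hy =>
    obtain ⟨a, b, c, h0, e⟩ := hx
    obtain ⟨a', b', c', h0', e'⟩ := hy
    refine ⟨c' * a + c * a', c' * b + c * b', c * c', mul_ne_zero h0 h0', ?_⟩
    simp only [map_add, map_mul]
    linear_combination aeval N c' * e + aeval N c * e'
  | inv x _ hx =>
    obtain ⟨a, b, c, h0, e⟩ := hx
    by_cases x0 : x = 0
    · exact ⟨0, 0, 1, one_ne_zero, by simp [x0]⟩
    · refine ⟨c * a, -(c * b), a ^ 2 - b ^ 2 * f, fun h => ?_, ?_⟩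
      · obtain ⟨h1, h2⟩ := par hf (sub_eq_zero.1 h)
        rw [h1, h2, map_zero, zero_mul, add_zero] at e
        exact mul_ne_zero ((map_ne_zero_iff _ (transcendental_iff_injective.1 hN)).2 h0) x0 e
      · simp only [map_sub, map_mul, map_pow, map_neg, ← hY]
        field_simp
        linear_combination (aeval N b * Y - aeval N a) * e
  | mul x y _ _ hx hy =>
    obtain ⟨a, b, c, h0, e⟩ := hx
    obtain ⟨a', b', c', h0', e'⟩ := hy
    refine ⟨a * a' + b * b' * f, a * b' + a' * b, c * c', mul_ne_zero h0 h0', ?_⟩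
    simp only [map_add, map_mul, ← hY]
    linear_combination (aeval N c' * y) * e + (aeval N a + aeval N b * Y) * e'

theorem cubes [IsAlgClosed k] {n m : k[X]} (h : n ^ 3 = m ^ 3) : ∃ ω : k, ω ^ 3 = 1 ∧ n = C ω * m := by
  obtain ⟨ω, hω⟩ := IsAlgClosed.exists_root (X ^ 2 + X + 1 : k[X]) (by
    rw [show (X ^ 2 + X + 1 : k[X]).degree = 2 by compute_degree!]; norm_num)
  have h1 : ω ^ 2 + ω + 1 = 0 := by simpa using hω
  have h2 : (C ω : k[X]) ^ 2 + C ω + 1 = 0 := by simpa using congrArg C h1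
  have h3 : (n - m) * (n - C ω * m) * (n - C ω ^ 2 * m) = 0 := by
    linear_combination h + (-n ^ 2 * m + n * m ^ 2 * C ω - m ^ 3 * (C ω - 1)) * h2
  have h4 : ω ^ 3 = 1 := by linear_combination (ω - 1) * h1
  rcases mul_eq_zero.1 h3 with h5 | h5
  · rcases mul_eq_zero.1 h5 with h5 | h5
    · exact ⟨1, by simp, by simpa using sub_eq_zero.1 h5⟩
    · exact ⟨ω, h4, sub_eq_zero.1 h5⟩
  · exact ⟨ω ^ 2, by rw [← pow_mul, mul_comm, pow_mul, h4, one_pow], by
      rw [map_pow]; exact sub_eq_zero.1 h5⟩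

theorem const {s d : k[X]} {ω x y l : k} (d0 : d ≠ 0)
    (h : s ^ 3 + C ω * s * d ^ 2 * (X - C x) + d ^ 3 * (C y + C l * (X - C x)) = 0) :
    ∃ r : k, r ^ 3 + y = 0 ∧ ω * r + l = 0 := by
  obtain ⟨d', s', g, hr, rfl, rfl⟩ := UniqueFactorizationMonoid.exists_reduced_factors d d0 s
  have g0 : g ≠ 0 := left_ne_zero_of_mul d0
  have h1 : s' ^ 3 + C ω * s' * d' ^ 2 * (X - C x) + d' ^ 3 * (C y + C l * (X - C x)) = 0 :=
    mul_left_cancel₀ (pow_ne_zero 3 g0) (by linear_combination h)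
  obtain ⟨e, he, rfl⟩ := Polynomial.isUnit_iff.1 ((hr.pow_right (n := 3)).isUnit_of_dvd
    ⟨-(C ω * s' * d' * (X - C x) + d' ^ 2 * (C y + C l * (X - C x))), by linear_combination h1⟩)
  have h2 : s' ^ 3 = -(C (ω * e ^ 2) * (s' * (X - C x)) + C e ^ 3 * (C y + C l * (X - C x))) := by
    rw [map_mul, map_pow]
    linear_combination h1
  have h3 : (C (ω * e ^ 2) * (s' * (X - C x))).natDegree ≤ s'.natDegree + 1 :=
    (natDegree_C_mul_le _ _).trans (natDegree_mul_le.trans (by rw [natDegree_X_sub_C]))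
  have h4 : (C e ^ 3 * (C y + C l * (X - C x))).natDegree ≤ 1 := by compute_degree
  have h5 := congrArg natDegree h2
  rw [natDegree_pow, natDegree_neg] at h5
  have h6 := natDegree_add_le (C (ω * e ^ 2) * (s' * (X - C x))) (C e ^ 3 * (C y + C l * (X - C x)))
  obtain ⟨r, rfl⟩ := natDegree_eq_zero.1 (show s'.natDegree = 0 by omega)
  have e0 := he.ne_zero
  have h7 := congrArg (eval x) h1
  have h8 := congrArg (eval (x + 1)) h1
  simp only [eval_add, eval_mul, eval_pow, eval_C, eval_sub, eval_X, eval_zero] at h7 h8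
  refine ⟨r / e, ?_, mul_left_cancel₀ (pow_ne_zero 3 e0) ?_⟩
  · field_simp
    linear_combination h7
  · field_simp
    linear_combination (1 / e ^ 2) * (h8 - h7) + (ω * r + e * l) * (mul_inv_cancel₀ e0) *
      (-1 - e * e⁻¹)

end PtcAux

open PtcAux in
theorem ptc' : PTC := by
  intro k F _ _ _ _ D N Y u p h6 hD hp hN hY hu h
  obtain ⟨x, y⟩ := p
  have hq : 3 * x ^ 4 - 6 * D * x ^ 2 - D ^ 2 = 0 := hp.q
  have he : y ^ 2 = x ^ 3 - D * x := hp.e
  have h2 : (2 : k) ≠ 0 := fun e => h6 (by linear_combination 3 * e)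
  have h3 : (3 : k) ≠ 0 := fun e => h6 (by linear_combination 2 * e)
  have y0 : y ≠ 0 := fun e => pow_ne_zero 2 h2 (mul_right_cancel₀ (pow_ne_zero 3 hD) (by
    rw [e] at he
    linear_combination (3 * x ^ 2 - 4 * D) * hq - (21 * D * x - 9 * x ^ 3) * he))
  set l := tg D (x, y) with hl
  have l1 : 2 * y * l = 3 * x ^ 2 - D := by
    rw [hl, tg]
    field_simp
  have l2 : l ^ 2 = 3 * x := mul_left_cancel₀ (pow_ne_zero 2 (mul_ne_zero h2 y0)) (by
    linear_combination (2 * y * l + 3 * x ^ 2 - D) * l1 - hq - 12 * x * he)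
  have hf : (X ^ 3 - C D * X : k[X]).natDegree = 3 := by compute_degree!
  have hY' : Y ^ 2 = aeval N (X ^ 3 - C D * X : k[X]) := by simpa using hY
  obtain ⟨a, b, d, d0, e⟩ := rep hN hf hY' hu
  set f : k[X] := X ^ 3 - C D * X with hf'
  have hh : u ^ 3 = Y - aeval N (C y + C l * (X - C x)) := by
    rw [h, hP, ln, ← hl]
    simp only [map_add, map_mul, map_sub, aeval_C, aeval_X]
    ring
  have ef : f = (X - C x) ^ 3 + (C y + C l * (X - C x)) ^ 2 := by
    have c1 := congrArg C l1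
    have c2 := congrArg C l2
    have c3 := congrArg C he
    simp only [map_mul, map_sub, map_pow, map_ofNat] at c1 c2 c3
    rw [hf']
    linear_combination -(X - C x) * c1 - (X - C x) ^ 2 * c2 - c3
  set c : k[X] := C y + C l * (X - C x) with hc
  obtain ⟨e1, e2⟩ := indep hN hf hY' (a := a ^ 3 + 3 * a * b ^ 2 * f + d ^ 3 * c)
    (b := 3 * a ^ 2 * b + b ^ 3 * f - d ^ 3) (by
      simp only [map_add, map_mul, map_sub, map_pow, map_ofNat, ← hY']
      linear_combination aeval N d ^ 3 * hh - ((aeval N d * u) ^ 2 + aeval N d * u *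
        (aeval N a + aeval N b * Y) + (aeval N a + aeval N b * Y) ^ 2) * e)
  obtain ⟨ω, w3, hn⟩ := cubes (n := a ^ 2 - b ^ 2 * f) (m := -(d ^ 2 * (X - C x))) (by
    linear_combination (a ^ 3 + 3 * a * b ^ 2 * f - d ^ 3 * c) * e1 -
      f * (3 * a ^ 2 * b + b ^ 3 * f + d ^ 3) * e2 - d ^ 6 * ef)
  obtain ⟨r, r1, r2⟩ := const (s := 2 * a) (ω := 3 * ω) (x := x) (y := 2 * y) (l := 2 * l) d0 (by
    simp only [map_mul, map_ofNat]
    linear_combination 2 * e1 + 6 * a * hn - 2 * d ^ 3 * hc)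
  have k1 : 4 * l ^ 3 = 27 * y := mul_left_cancel₀ h2 (by
    linear_combination (9 * ω ^ 2 * r ^ 2 - 6 * ω * r * l + 4 * l ^ 2) * r2 - 27 * r ^ 3 * w3 -
      27 * r1)
  have k2 : x ^ 2 = 3 * D := mul_left_cancel₀ (pow_ne_zero 2 h3) (by
    linear_combination 8 * (l ^ 2 + 3 * x) * l2 - 2 * l * k1 - 27 * l1)
  exact mul_ne_zero (pow_ne_zero 3 h2) (pow_ne_zero 2 hD) (by
    linear_combination hq - (3 * x ^ 2 + 3 * D) * k2)

theorem ptc (_ : ALG) (_ : PTA) : PTC := ptc'

end Vale.Agent.P027M.F
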