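import Vale.Agent.P027M.F.Defs
import Vale.Agent.P027M.F.PtC
import Vale.Agent.P027M.B.Gen3
import Vale.Agent.P027M.B.Pts
import Vale.Agent.P025.R2.H725.Genus

/-! # P027 route M, block F: the genera of the subfields -/

set_option linter.all false

noncomputable section

namespace Vale.Agent.P027M.F

open Polynomial IntermediateField Vale.Agent.P019P P025H492 P025H725

namespace GensAux

theorem sep_two {K L : Type*} [Field K] [Field L] [Algebra K L] [FiniteDimensional K L]
    (h2 : (2 : K) ≠ 0) (h : Module.finrank K L = 2) : Algebra.IsSeparable K L := ⟨fun z => by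
  have hi : IsIntegral K z := IsIntegral.of_finite K z
  have h1 := minpoly.natDegree_le (A := K) z
  have h0 := minpoly.natDegree_pos hi
  have hm := (minpoly.monic hi).coeff_natDegree
  refine (separable_iff_derivative_ne_zero (minpoly.irreducible hi)).2 fun hd => ?_
  obtain e | e : (minpoly K z).natDegree = 1 ∨ (minpoly K z).natDegree = 2 := by omega
  · have := congrArg (coeff · 0) hd
    rw [e] at hm
    simp [coeff_derivative, hm] at this
  · have := congrArg (coeff · 1) hd
    rw [e] at hm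
    simp only [coeff_derivative, coeff_zero] at this
    rw [show 1 + 1 = 2 from rfl, hm, one_mul] at this
    exact h2 (by rw [← this]; norm_num)⟩

variable {k F : Type*} [Field k] [Field F] [Algebra k F] [CFF k F] {x y : F}

theorem fib_le (hx : ∀ a : k, x ≠ algebraMap k F a) (hr : Module.finrank k⟮x⟯ F = 2) {a b c : k}
    (hb : a ≠ b) (hc : a ≠ c) (hy : y ^ 2 = (x - algebraMap k F a) * (x - algebraMap k F b) *
      (x - algebraMap k F c)) : (fib_finite hx a).toFinset.card ≤ 1 := by
  have h1 := fib_sum hx a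
  have h2 := Finset.card_nsmul_le_sum (fib_finite hx a).toFinset
    (fun P => ord P (x - algebraMap k F a)) 2 fun P hP => by
      rw [Set.Finite.mem_toFinset] at hP
      have h3 : 0 < ord P (x - algebraMap k F a) := hP
      have u : ∀ d : k, a ≠ d → x - algebraMap k F d ≠ 0 ∧ ord P (x - algebraMap k F d) = 0 :=
        fun d hd => B.PtsAux.unit (sub_ne_zero.2 hd) (by
          rw [map_sub, sub_sub_sub_cancel_right]; exact mem_Mge_one_of_pos h3)
      have h4 := congrArg (ord P) hy
      have a0 := sub_ne_zero.2 (hx a)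
      rw [ord_pow, ord_mul P (mul_ne_zero a0 (u b hb).1) (u c hc).1, ord_mul P a0 (u b hb).1,
        (u b hb).2, (u c hc).2] at h4
      push_cast at h4
      omega
  rw [h1, hr, nsmul_eq_mul] at h2
  omega

theorem one_le (h2 : (2 : k) ≠ 0) (hx : ∀ a : k, x ≠ algebraMap k F a)
    (hr : Module.finrank k⟮x⟯ F = 2) {a b c : k} (hb : a ≠ b) (hc : a ≠ c) (hd : b ≠ c)
    (hy : y ^ 2 = (x - algebraMap k F a) * (x - algebraMap k F b) * (x - algebraMap k F c)) :
    1 ≤ gen k F := by
  classical
  haveI := (finite_of_notMem hx).2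
  haveI : Algebra.IsSeparable k⟮x⟯ F := sep_two (by
    rw [← map_ofNat (algebraMap k k⟮x⟯) 2]; exact (_root_.map_ne_zero _).2 h2) hr
  have h := RH hx {a, b, c}
  have f1 := fib_le hx hr hb hc hy
  have f2 := fib_le hx hr hb.symm hd (y := y) (by rw [hy]; ring)
  have f3 := fib_le hx hr hc.symm hd.symm (y := y) (by rw [hy]; ring)
  rw [Finset.sum_insert (by simp [hb, hc]), Finset.sum_pair hd, hr] at h
  omega

theorem le_one (hx : ∀ a : k, x ≠ algebraMap k F a) (hr : Module.finrank k⟮x⟯ F = 2) {f : k[X]}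
    (hf : f.natDegree = 3) (hy : y ^ 2 = aeval x f) : gen k F ≤ 1 := by
  have tr := (finite_of_notMem hx).1
  have f0 : f ≠ 0 := fun e => by rw [e, natDegree_zero] at hf; omega
  obtain ⟨N, hN⟩ := exists_l_pol_eq hx
  have h := hN (N + 2) (by omega)
  have dl : ∀ (n : ℕ) (a : degreeLT k (n + 1)), aeval x (a : k[X]) ∈ Mr k x n := fun n a => by
    rw [Mr, natCast_zsmul]
    refine aeval_mem_LL x n ?_
    by_cases h0 : (a : k[X]) = 0
    · rw [h0, natDegree_zero]; omega
    · exact Nat.lt_succ_iff.1 ((natDegree_lt_iff_degree_lt h0).2 (mem_degreeLT.1 a.2))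
  have my : y ∈ Mr k x 2 := mem_Mr.2 fun P => Or.inr (by
    have h1 : 2 * ord P y = ord P (aeval x f) := by rw [← hy, ord_pow]; rfl
    rw [pol_apply]
    rcases lt_or_ge (ord P x) 0 with q | q
    · rw [B.PtsAux.ord_pole q f0, hf] at h1
      push_cast at h1
      omega
    · have := (mem_Mge.1 (aeval_mem_zero q f)).resolve_left
        ((map_ne_zero_iff _ (transcendental_iff_injective.1 tr)).2 f0)
      omega)
  let Λ : (degreeLT k (N + 2 + 1) × degreeLT k (N + 1)) →ₗ[k] F :=
    ((aeval x).toLinearMap ∘ₗ (degreeLT k (N + 2 + 1)).subtype).coprod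
      (LinearMap.mulRight k y ∘ₗ (aeval x).toLinearMap ∘ₗ (degreeLT k (N + 1)).subtype)
  have ap : ∀ u, Λ u = aeval x (u.1 : k[X]) + aeval x (u.2 : k[X]) * y := fun u => rfl
  have inj : Function.Injective Λ := (injective_iff_map_eq_zero Λ).2 fun u hu => by
    have := PtcAux.indep tr hf hy (ap u ▸ hu)
    exact Prod.ext (Subtype.ext this.1) (Subtype.ext this.2)
  have rg : LinearMap.range Λ ≤ LL k ((N + 2) • pol k x) := by
    rintro _ ⟨u, rfl⟩
    rw [← natCast_zsmul, ap]
    exact add_mem (dl (N + 2) u.1) (by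
      have := Mr_mul (dl N u.2) my
      rwa [show (N : ℤ) + 2 = ((N + 2 : ℕ) : ℤ) by push_cast; rfl] at this)
  have fr : ∀ n : ℕ, Module.finrank k (degreeLT k n) = n := fun n => by
    rw [(degreeLTEquiv k n).finrank_eq, Module.finrank_fin_fun]
  haveI := LL_finite (k := k) ((N + 2) • pol k x)
  have h1 := Submodule.finrank_mono rg
  rw [LinearMap.finrank_range_of_inj inj, Module.finrank_prod, fr, fr] at h1
  rw [hr] at h
  push_cast at h
  omega

/-- the curve `y ^ 2 = x ^ 3 - D x` has genus one -/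
theorem gen_one (h2 : (2 : k) ≠ 0) (hx : ∀ a : k, x ≠ algebraMap k F a)
    (hr : Module.finrank k⟮x⟯ F = 2) {D : k} (hD : D ≠ 0)
    (hy : y ^ 2 = x ^ 3 - algebraMap k F D * x) : gen k F = 1 := by
  haveI := CFF.ac (k := k) (F := F)
  obtain ⟨r, rfl⟩ := IsAlgClosed.exists_pow_nat_eq D two_pos
  have r0 : r ≠ 0 := fun e => hD (by rw [e]; ring)
  refine le_antisymm (le_one hx hr (y := y) (f := X ^ 3 - C (r ^ 2) * X) (by compute_degree!)
    (by rw [hy]; simp)) (one_le h2 hx hr (y := y) (a := 0) (b := r) (c := -r) r0.symm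
    (neg_ne_zero.2 r0).symm (fun e => mul_ne_zero h2 r0 (by linear_combination e)) ?_)
  rw [hy, map_pow, map_neg, map_zero]
  ring

theorem gen_zero (hx : ∀ a : k, x ≠ algebraMap k F a) (h : k⟮x⟯ = ⊤) : gen k F = 0 :=
  gen_eq_zero_of_finrank_eq_one hx (by rw [h]; exact IntermediateField.finrank_top)

end GensAux

open GensAux in
theorem gens (sub : SUB) (hyp : HYP) : GENS := by
  intro k _ _ P
  obtain ⟨-, -, -, -, -, -, -, h1, h2, -, h3⟩ := sub k P
  exact ⟨B.gen3 B.pts k _ _ _ _ (hyp k P).1, gen_one P.h2 P.nE_nc h3 P.D_ne P.yE_sq,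
    gen_zero (fun a e => P.mC_nc a (Subtype.ext (congrArg Subtype.val e :))) h1,
    gen_zero (fun a e => P.N_nc a (congrArg Subtype.val e)) h2⟩

end Vale.Agent.P027M.F
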