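import Vale.Agent.P027M.F.E3
import Vale.Agent.P027M.F.Defs
import Vale.Agent.P027M.F.ChiAll

/-! # P027M, block F: the three-torsion of `E` in the Tate module of `FF` -/

set_option linter.all false

noncomputable section

namespace Vale.Agent.P027M.F

open Vale.Agent.P019P P025H492 P025H816 _root_.P027M.K Vale.Agent.P022 E3

theorem Par.h6 {k : Type} [Field k] (P : Par k) : (6 : k) ≠ 0 := by
  rw [show (6 : k) = 2 * 3 by norm_num]; exact mul_ne_zero P.h2 P.h3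

theorem Par.nE_tr {k : Type} [Field k] [IsAlgClosed k] (P : Par k) : Transcendental k P.nE :=
  P.tr_sub (x := P.nE) P.N_tr

theorem Par.genE (hS : SUB) {k : Type} [Field k] [IsAlgClosed k] (P : Par k) (u : P.FE) :
    u ∈ IntermediateField.adjoin k ({P.nE, P.yE} : Set P.FE) :=
  gen_of_two P.nE_tr P.yE_sq (hS k P).2.2.2.2.2.2.2.2.2.2 u

theorem ptse (hS : SUB) : PTSE := by
  intro k _ _ P
  refine ⟨fun p => cl k (hP P.D P.nE P.yE p), fun p hp => ⟨?_, ?_, ?_, ?_⟩⟩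
  · exact cl_ne P.h6 P.D_ne P.nE_tr P.yE_sq (P.genE hS) hp
  · exact cl_three (dvP P.h6 P.D_ne P.nE_tr P.yE_sq hp)
  · intro θ h1 h2 h3
    exact cM P.h6 P.hi P.D_ne P.nE_tr P.yE_sq (fun a => by rw [res0_spec, h1]; rfl) h2 h3 hp
  · intro θ h1 h2
    exact cR P.h6 P.D_ne P.nE_tr P.yE_sq h1 h2 hp

/-- the restriction to `FE` of an automorphism commuting with `τ` and `ρ` -/
def Par.resE {k : Type} [Field k] [IsAlgClosed k] (P : Par k) (e : SL k P.FF)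
    (h : e.1 * P.tau = P.tau * e.1) (h' : e.1 * P.rho = P.rho * e.1) : SL k P.FE :=
  ⟨P.res P.FE e.1, res0 e, fun a =>
    Subtype.ext ((P.res_coe (P.stab_FE h h') _).trans (res0_spec e a))⟩

theorem Par.resE_coe {k : Type} [Field k] [IsAlgClosed k] (P : Par k) (e : SL k P.FF) (h h')
    (z : P.FE) : (((P.resE e h h' : SL k P.FE) : P.FE ≃+* P.FE) z : P.FF) = e.1 z :=
  P.res_coe (P.stab_FE h h') z

theorem k9_pow (n : ℕ) : ((((1 - gI) ^ n).re : ℤ) : k9) + (((1 - gI) ^ n).im : ℤ) * i9 =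
    (1 - i9) ^ n := by
  have h := map_pow (giH i9 i9_sq) (1 - gI) n
  rw [map_sub, map_one, giH_apply i9 i9_sq gI, gi_gI] at h
  exact h

/-- **the hypothesis of `TD.Rep.chr`** -/
theorem chrE (hS : SUB) (hG : GENS) {g : ℚ} (X : Cfg g) {θ : GQ → ZMod 8}
    (hθ : IsChi X.i (X.d.β ^ 3) θ) {σ : GQ} (h : σ (X.i : Qb) = X.i) (ξ : TT 3 Qb X.P.FE) :
    ∃ z, act 3 Qb X.P.FF (X.R σ) (jT 3 Qb X.P.FE X.P.FF ξ) -
      (((1 - gI) ^ (θ σ).val).re • jT 3 Qb X.P.FE X.P.FF ξ +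
        ((1 - gI) ^ (θ σ).val).im • X.P.aI (jT 3 Qb X.P.FE X.P.FF ξ)) = (3 : ℤ_[3]) • z := by
  have c1 : (X.R σ).1 * X.P.tau = X.P.tau * (X.R σ).1 := Tw.rr_tau_fx (X.fx h)
  have c2 : (X.R σ).1 * X.P.rho = X.P.rho * (X.R σ).1 := Tw.rr_rho _
  have hβ : X.d.β ^ 3 ≠ 0 := pow_ne_zero _ fun h0 => by
    have := X.d.mod8
    rw [h0] at this
    simp at this
  have r0 : ∀ a, res0 (X.P.resE (X.R σ) c1 c2) a = σ a := fun a =>
    (algebraMap Qb X.P.FE).injective (by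
      rw [← res0_spec]
      exact Subtype.ext ((X.P.resE_coe _ c1 c2 _).trans (X.r_c σ a)))
  refine e3T (J := X.P.resE X.P.sI X.P.iota_tau X.P.iota_rho) (R := X.P.resE (X.R σ) c1 c2)
    (fun z => (X.P.resE_coe X.P.sI _ _ z).symm) (fun z => (X.P.resE_coe (X.R σ) _ _ z).symm)
    (fun y hy => ?_) ξ
  refine e3P X.P.h6 X.P.hi X.P.D_ne X.P.nE_tr X.P.yE_sq (X.P.genE hS) (hG Qb X.P).2.1
    (fun a => Subtype.ext ((X.P.resE_coe _ _ _ _).trans (X.P.iota_c a)))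
    (Subtype.ext ((X.P.resE_coe _ _ _ _).trans X.P.iota_N))
    (Subtype.ext ((X.P.resE_coe _ _ _ _).trans X.P.iota_Y))
    (Subtype.ext ((X.P.resE_coe _ _ _ _).trans (Tw.rr_N (X.fx h))))
    (Subtype.ext ((X.P.resE_coe _ _ _ _).trans (Tw.rr_Y (X.fx h)))) (fun p hp => ?_) ?_ hy
  · rw [r0, r0, X.P_i]
    exact hθ σ h p (X.P_D ▸ hp)
  · rw [X.P_D]
    exact (chi0 X.i _ X.hi hβ).1

end Vale.Agent.P027M.F
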