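import Vale.Agent.P027M.F.Defs

/-! # P027 route M, block F: the residual representation (row RSD) -/

set_option linter.all false

noncomputable section

namespace Vale.Agent.P027M.F

open NumberField Vale.Agent.P022

namespace Rsd

theorem exists_conj {i : Qb} (hi : i ^ 2 = -1) : ∃ c : GQ, c * c = 1 ∧ c i = -i := by
  have : Algebra.IsAlgebraic ℚ Qb := AlgebraicClosure.isAlgebraic ℚ
  have : IsAlgClosure ℚ Qb := AlgebraicClosure.instIsAlgClosure ℚ
  let φ : Qb →+* ℂ := (IsAlgClosed.lift (R := ℚ) (S := Qb) (M := ℂ)).toRingHom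
  let _ : Algebra Qb ℂ := φ.toAlgebra
  have : IsScalarTower ℚ Qb ℂ := IsScalarTower.of_algebraMap_eq' (Subsingleton.elim _ _)
  have hn : Normal ℚ Qb := IsAlgClosure.normal ℚ Qb
  let χ : ℂ ≃ₐ[ℚ] ℂ := Complex.conjAe.restrictScalars ℚ
  have hφ : ∀ x, φ (χ.restrictNormal Qb x) = starRingEnd ℂ (φ x) := fun x =>
    AlgEquiv.restrictNormal_commutes χ Qb x
  refine ⟨χ.restrictNormal Qb, ?_, ?_⟩
  · ext x
    apply φ.injective
    rw [AlgEquiv.mul_apply, hφ, hφ]
    simp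
  · apply φ.injective
    have h1 : φ i ^ 2 = Complex.I ^ 2 := by rw [← map_pow, hi, map_neg, map_one, Complex.I_sq]
    rw [hφ, map_neg]
    rcases sq_eq_sq_iff_eq_or_eq_neg.1 h1 with e | e <;> simp [e]

theorem pm {i : Qb} (hi : i ^ 2 = -1) (g : GQ) : g i = i ∨ g i = -i :=
  sq_eq_sq_iff_eq_or_eq_neg.1 (by rw [← map_pow, hi, map_neg, map_one])

/-- some element fixes `i` and moves `b` -/
theorem exists_move {i b : Qb} {c : ℤ} (hi : i ^ 2 = -1) (hb : b ^ 4 = c) (c3 : 3 ∣ c)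
    (c9 : ¬ 9 ∣ c) : ∃ g : GQ, g i = i ∧ g b ≠ b := by
  have : Algebra.IsAlgebraic ℚ Qb := AlgebraicClosure.isAlgebraic ℚ
  have : IsAlgClosure ℚ Qb := AlgebraicClosure.instIsAlgClosure ℚ
  have : IsGalois ℚ Qb := IsAlgClosure.isGalois ℚ Qb
  by_contra h
  push Not at h
  obtain ⟨s, ss, si⟩ := exists_conj hi
  have s2 : ∀ x, s (s x) = x := fun x => by rw [← AlgEquiv.mul_apply, ss]; rfl
  have fx : ∀ g : GQ, g (b * s b) = b * s b := fun g => by
    rw [map_mul]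
    rcases pm hi g with e | e
    · have h1 := h (s * g * s) (by
        rw [AlgEquiv.mul_apply, AlgEquiv.mul_apply, si, map_neg, e, map_neg, si, neg_neg])
      rw [AlgEquiv.mul_apply, AlgEquiv.mul_apply] at h1
      have h2 := congrArg s h1
      rw [s2] at h2
      rw [h g e, h2]
    · have h1 := h (s * g) (by rw [AlgEquiv.mul_apply, e, map_neg, si, neg_neg])
      have h3 := h (g * s) (by rw [AlgEquiv.mul_apply, si, map_neg, e, neg_neg])
      rw [AlgEquiv.mul_apply] at h1 h3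
      have h2 := congrArg s h1
      rw [s2] at h2
      rw [h2, h3, mul_comm]
  obtain ⟨q, hq⟩ := (InfiniteGalois.mem_range_algebraMap_iff_fixed (b * s b)).2 fx
  have e : q ^ 4 = (c : ℚ) ^ 2 := by
    apply (algebraMap ℚ Qb).injective
    rw [map_pow, hq, mul_pow, ← map_pow, hb, map_intCast, map_pow, map_intCast, sq]
  have c0 : c ≠ 0 := by
    rintro rfl
    exact c9 (dvd_zero _)
  have : Fact (Nat.Prime 3) := ⟨by norm_num⟩
  have v := congrArg (padicValRat 3) e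
  have q0 : q ≠ 0 := by
    rintro rfl
    have : (c : ℚ) ^ 2 = 0 := by rw [← e]; norm_num
    exact c0 (by exact_mod_cast pow_eq_zero_iff (by norm_num) |>.1 this)
  rw [padicValRat.pow, padicValRat.pow, padicValRat.of_int] at v
  have v1 : 1 ≤ padicValInt 3 c := by
    have := (padicValInt_dvd_iff (p := 3) 1 c).1 (by simpa using c3)
    exact this.resolve_left c0
  have v2 : ¬ 2 ≤ padicValInt 3 c := fun k =>
    c9 (by simpa using (padicValInt_dvd_iff (p := 3) 2 c).2 (Or.inr k))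
  push_cast at v
  omega

theorem root4 {i b : Qb} {c : ℤ} (hi : i ^ 2 = -1) (hb : b ^ 4 = c) (g : GQ) :
    ∃ e : ℕ, e < 4 ∧ g b = i ^ e * b := by
  have h1 : g b ^ 4 = c := by rw [← map_pow, hb, map_intCast]
  have h2 : (g b - b) * (g b - i * b) * ((g b + b) * (g b + i * b)) = 0 := by
    linear_combination h1 - hb - (g b ^ 2 - b ^ 2) * b ^ 2 * hi
  rcases mul_eq_zero.1 h2 with k | k <;> rcases mul_eq_zero.1 k with k | k
  · exact ⟨0, by norm_num, by linear_combination k⟩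
  · exact ⟨1, by norm_num, by linear_combination k⟩
  · exact ⟨2, by norm_num, by linear_combination k - b * hi⟩
  · exact ⟨3, by norm_num, by linear_combination k - i * b * hi⟩

theorem two_ne : (2 : k9) ≠ 0 := fun h => by
  have h3 : (3 : k9) = 0 := CharP.cast_eq_zero k9 3
  exact one_ne_zero (α := k9) (by linear_combination h3 - h)

theorem pow8 {x : k9} (h : x ≠ 0) : x ^ 8 = 1 := by
  obtain ⟨a, b⟩ := x
  revert a b
  decide

theorem det_ne (ρ : GQ →* TW.M2 k9) (g : GQ) : ρ g 0 0 * ρ g 1 1 - ρ g 0 1 * ρ g 1 0 ≠ 0 := by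
  rw [← Matrix.det_fin_two]
  have : (ρ g).det * (ρ g⁻¹).det = 1 := by
    rw [← Matrix.det_mul, ← map_mul, mul_inv_cancel, map_one, Matrix.det_one]
  exact left_ne_zero_of_mul_eq_one this

theorem span_gen {G k : Type} [Group G] [Field k] (r : G →* TW.M2 k) (g s : G)
    (g1 : r g 0 1 = 0) (g2 : r g 1 0 = 0) (s0 : r s 0 0 = 0) (s3 : r s 1 1 = 0)
    (s1 : r s 0 1 ≠ 0) (s2 : r s 1 0 ≠ 0) (ne : r g 0 0 - r g 1 1 ≠ 0) (m : TW.M2 k) :
    m ∈ Submodule.span k (Set.range r) := by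
  have mem : ∀ x, r x ∈ Submodule.span k (Set.range r) := fun x => Submodule.subset_span ⟨x, rfl⟩
  have e : m = ((m 0 0 - m 1 1) / (r g 0 0 - r g 1 1)) • r g +
      ((m 1 1 * r g 0 0 - m 0 0 * r g 1 1) / (r g 0 0 - r g 1 1)) • r 1 +
      ((m 0 1 / r s 0 1 - m 1 0 / r s 1 0) / (r g 0 0 - r g 1 1)) • r (g * s) +
      ((m 1 0 / r s 1 0 * r g 0 0 - m 0 1 / r s 0 1 * r g 1 1) / (r g 0 0 - r g 1 1)) • r s := by
    ext p q
    fin_cases p <;> fin_cases q <;>
      simp [Matrix.mul_apply, Fin.sum_univ_two, g1, g2, s0, s3] <;> field_simp <;> ring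
  rw [e]
  exact add_mem (add_mem (add_mem (Submodule.smul_mem _ _ (mem _))
    (Submodule.smul_mem _ _ (mem _))) (Submodule.smul_mem _ _ (mem _)))
    (Submodule.smul_mem _ _ (mem _))

theorem two_gen {k : Type} [Field k] (A : TW.M2 k) (h1 : (A ^ 2) 0 1 = 0) (h2 : (A ^ 2) 1 0 = 0)
    (h3 : (A ^ 2) 0 0 ^ 8 = 1) (h4 : (A ^ 2) 1 1 ^ 8 = 1) : A ^ 2 ^ 4 = 1 := by
  have e : A ^ 2 = Matrix.diagonal ![(A ^ 2) 0 0, (A ^ 2) 1 1] := by
    ext p q
    fin_cases p <;> fin_cases q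
    · rfl
    · exact h1
    · exact h2
    · rfl
  rw [show 2 ^ 4 = 2 * 8 by norm_num, pow_mul, e, Matrix.diagonal_pow, ← Matrix.diagonal_one]
  congr 1
  ext p
  fin_cases p
  · exact h3
  · exact h4

theorem core {i b : Qb} {c : ℤ} (ρ : GQ →* TW.M2 O3) (hi : i ^ 2 = -1) (hb : b ^ 4 = c)
    (c3 : 3 ∣ c) (c9 : ¬ 9 ∣ c)
    (dg : ∀ σ : GQ, σ i = i → res3 (ρ σ 0 1) = 0 ∧ res3 (ρ σ 1 0) = 0)
    (an : ∀ σ : GQ, σ i ≠ i → res3 (ρ σ 0 0) = 0 ∧ res3 (ρ σ 1 1) = 0)
    (rel : ∀ (σ : GQ) (e : ℕ), σ i = i → σ b = i ^ e * b →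
      res3 (ρ σ 0 0) = i9 ^ e * res3 (ρ σ 1 1)) : ∃ c0, TW.Resid res3 ρ c0 := by
  obtain ⟨s, ss, si⟩ := exists_conj hi
  obtain ⟨g, gi, gb⟩ := exists_move hi hb c3 c9
  have i0 : i ≠ 0 := fun z => by norm_num [z] at hi
  have si' : s i ≠ i := fun z => i0 (by linear_combination (si - z) / 2)
  let r : GQ →* TW.M2 k9 := TW.redRep res3 ρ
  have hr : ∀ σ p q, r σ p q = res3 (ρ σ p q) := fun _ _ _ => rfl
  have dg' : ∀ σ : GQ, σ i = i → r σ 0 1 = 0 ∧ r σ 1 0 = 0 := dg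
  have an' : ∀ σ : GQ, σ i ≠ i → r σ 0 0 = 0 ∧ r σ 1 1 = 0 := an
  have dn : ∀ σ : GQ, σ i = i → r σ 0 0 ≠ 0 ∧ r σ 1 1 ≠ 0 := fun σ h => by
    have := det_ne r σ
    rw [(dg' σ h).1, zero_mul, sub_zero] at this
    exact mul_ne_zero_iff.1 this
  have sn : r s 0 1 ≠ 0 ∧ r s 1 0 ≠ 0 := by
    have := det_ne r s
    rw [(an' s si').1, zero_mul, zero_sub, neg_ne_zero] at this
    exact mul_ne_zero_iff.1 this
  refine ⟨s, ss, ?_, fun m => ?_, fun σ => ?_⟩
  · have h1 : (ρ s).det * (ρ s).det = 1 := by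
      rw [← Matrix.det_mul, ← map_mul, ss, map_one, Matrix.det_one]
    refine (mul_self_eq_one_iff.1 h1).resolve_left fun h => ?_
    have h2 := congrArg res3 h
    rw [Matrix.det_fin_two, map_sub, map_mul, map_mul, map_one, (an s si').1, zero_mul] at h2
    have h3 : (r s * r s) 0 0 = 1 := by rw [← map_mul, ss, map_one]; rfl
    rw [Matrix.mul_apply, Fin.sum_univ_two, (an' s si').1, zero_mul, zero_add, hr, hr] at h3
    exact two_ne (by linear_combination -h2 - h3)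
  · have ne : r g 0 0 - r g 1 1 ≠ 0 := sub_ne_zero.2 fun z => by
      obtain ⟨e, he, k1⟩ := root4 hi hb g
      have r0 : r g 0 0 = i9 ^ e * r g 1 1 := rel g e gi k1
      rw [z] at r0
      have r' : i9 ^ e = 1 := mul_right_cancel₀ (dn g gi).2 (by rw [← r0, one_mul])
      have t := two_ne
      have hι := i9_sq
      interval_cases e
      · exact gb (by simpa using k1)
      · exact t (by linear_combination hι - (i9 + 1) * r')
      · exact t (by linear_combination hι - r')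
      · exact t (by linear_combination (1 + i9 - i9 ^ 2) * hι + (i9 - 1) * r')
    exact span_gen r g s (dg' g gi).1 (dg' g gi).2 (an' s si').1 (an' s si').2 sn.1 sn.2 ne m
  · have s1 : (σ ^ 2) i = i := by
      rw [pow_two, AlgEquiv.mul_apply]
      rcases pm hi σ with e | e <;> simp only [e, map_neg, neg_neg]
    have d1 := dg' _ s1
    have d2 := dn _ s1
    rw [map_pow] at d1 d2
    exact ⟨4, two_gen (r σ) d1.1 d1.2 (pow8 d2.1) (pow8 d2.2)⟩

end Rsd

theorem rsd : RSD := by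
  intro i N c ρ hi hs h
  obtain ⟨b, hb, rel⟩ := h.rel
  have hi' : (i : Qb) ^ 2 = -1 := by
    have := congrArg (algebraMap (𝓞 Qb) Qb) hi
    rwa [map_pow, map_neg, map_one] at this
  exact Rsd.core ρ hi' hb h.d3 h.d9 hs.1 hs.2 rel

end Vale.Agent.P027M.F
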