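import Vale.Agent.P027M.F.BrDef
import Vale.Agent.P027M.F.Abs4
import Vale.Agent.P027M.F.E3b
import Vale.Agent.P027M.F.Rsd

/-! # P027 route M, block F: the geometric properties of the model -/

set_option linter.all false

noncomputable section

namespace Vale.Agent.P027M.F

open NumberField Vale.Agent.P022 Vale.Agent.P019P P025H816 _root_.P027M.K

section gen

variable {k : Type} [Field k] [IsAlgClosed k] [NeZero ((3 : ℕ) : k)] {P : Par k} {G : Type}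
  [Group G] {R : G →* SL k P.FF} {D : TD G P.H (TT 3 k P.FC) (TT 3 k P.FE)}

theorem IsTD.bas (h : IsTD P R D) {Φ : (Fin 2 → O3) ≃ₗ[O3] D.T} (hΦ : D.Ad Φ) :
    P.Bas (D.T.subtype ∘ₗ Φ.toLinearMap.restrictScalars ℤ_[3]) where
  inj := Subtype.val_injective.comp Φ.injective
  rng x := by
    simp only [← h.hι, ← h.hρ, ← D.mem_T]
    exact ⟨fun ⟨v, hv⟩ => hv ▸ (Φ v).2, fun hx => ⟨Φ.symm ⟨x, hx⟩, congrArg Subtype.val
      (Φ.apply_symm_apply _)⟩⟩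
  mi v := by
    rw [← h.hι]
    exact (congrArg Subtype.val (Φ.map_smul _ v)).trans (D.i_val _)
  mw v := by
    simp only [← h.hι, ← h.hρ]
    exact (congrArg Subtype.val (Φ.map_smul _ v)).trans (D.w_val _)
  tau v := (hΦ v).imp fun u hu => by
    rw [← h.hτ]
    exact congrArg Subtype.val hu

theorem IsTD.equiv (h : IsTD P R D) {emb : (Fin 2 → O3) →ₗ[ℤ_[3]] P.H} (hb : P.Bas emb) :
    ∃ Φ : (Fin 2 → O3) ≃ₗ[O3] D.T, (∀ v, (Φ v : P.H) = emb v) ∧ D.Ad Φ := by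
  have m : ∀ x, (∃ v, emb v = x) ↔ x ∈ D.T := fun x => by
    simp only [hb.rng, D.mem_T, h.hι, h.hρ]
  let f : (Fin 2 → O3) →ₗ[O3] D.T :=
    { toFun := fun v => ⟨emb v, (m _).1 ⟨v, rfl⟩⟩
      map_add' := fun v w => Subtype.ext (map_add _ _ _)
      map_smul' := fun a v => Subtype.ext (by
        show emb (a • v) = _
        rw [D.smul_val]
        conv_lhs => rw [QO.eq a]
        simp only [add_smul, smul_assoc, one_smul, mul_smul, map_add, map_smul, hb.mi, hb.mw,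
          TD.V_apply, h.hι, h.hρ, RingHom.id_apply]) }
  refine ⟨LinearEquiv.ofBijective f ⟨fun v w e => hb.inj (congrArg Subtype.val e), fun x => ?_⟩,
    fun _ => rfl, fun v => (hb.tau v).imp fun u hu => Subtype.ext ((h.hτ _).trans hu)⟩
  obtain ⟨v, hv⟩ := (m x).2 x.2
  exact ⟨v, Subtype.ext hv⟩

end gen

theorem bas (hB : BR) : BAS := by
  intro k _ _ P
  haveI : NeZero ((3 : ℕ) : k) := ⟨by exact_mod_cast P.h3⟩
  obtain ⟨ν, hν⟩ := IsAlgClosed.exists_pow_nat_eq (P.c * P.g0 * P.g0) (n := 2) (by norm_num)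
  obtain ⟨x, hx⟩ := IsAlgClosed.exists_pow_nat_eq (ν ^ 3 * P.b2) (n := 2) (by norm_num)
  obtain ⟨D, h⟩ := hB k P ⟨P.g0, ν, x, P.hg0, hν, hx⟩ Unit 1 1 fun _ => (map_one _).symm
  obtain ⟨Φ, hΦ⟩ := D.exists_ad
  exact ⟨_, h.bas hΦ⟩

section cfg

variable {g : ℚ} {X : Cfg g} {ρ : GQ →* TW.M2 O3} {emb : (Fin 2 → O3) →ₗ[ℤ_[3]] X.P.H}
  {D : TD GQ X.P.H (TT 3 Qb X.P.FC) (TT 3 Qb X.P.FE)}

theorem Cfg.res0_R (X : Cfg g) (σ : GQ) : res0 (X.R σ) = σ.toRingEquiv := res0_eq (X.r_c σ)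

theorem Cfg.td (hB : BR) (X : Cfg g) : ∃ D, IsTD X.P X.R D := hB Qb X.P X.T GQ X.s X.R fun _ => rfl

theorem IsTD.mem (h : IsTD X.P X.R D) (σ : GQ) : σ ∈ D.K ↔ σ (X.i : Qb) = X.i := by
  rw [h.hK, X.res0_R, X.P_i]; rfl

theorem Mod.rep (hB : BR) (hm : Mod X ρ emb) : ∃ D, IsTD X.P X.R D ∧ ∃ Q : D.Rep, Q.ρA = ρ := by
  obtain ⟨D, h⟩ := X.td hB
  obtain ⟨Φ, h1, h2⟩ := h.equiv hm.bas
  exact ⟨D, h, h2.rep ρ fun t v => Subtype.ext (by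
    rw [TD.rT_val, h1, h1, hm.act, h.hr]), rfl⟩

/-- the action on `C` in `SL` -/
def Cfg.RC (X : Cfg g) {σ : GQ} (h : σ (X.i : Qb) = X.i) : SL Qb X.P.FC :=
  ⟨X.rC σ, σ.toRingEquiv, fun a => Subtype.ext ((X.rC_coe h _).trans (X.r_c σ a))⟩

theorem IsTD.r_jC (h : IsTD X.P X.R D) {σ : GQ} (hσ : σ (X.i : Qb) = X.i) (y : TT 3 Qb X.P.FC) :
    D.r σ (D.jC y) = D.jC (act 3 Qb X.P.FC (X.RC hσ) y) := by
  rw [h.hr, h.hjC, h.hjC]
  exact act_jT (fun z => (X.rC_coe hσ z).symm) y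

theorem IsTD.NC_r (h : IsTD X.P X.R D) {σ : GQ} (hσ : σ (X.i : Qb) = X.i) (x : X.P.H) :
    D.NC (D.r σ x) = act 3 Qb X.P.FC (X.RC hσ) (D.NC x) :=
  sub_eq_zero.1 (D.jC_inj (by
    rw [map_sub, ← h.r_jC hσ, D.jNC, D.jNC, map_add, D.rτ1 ((h.mem σ).2 hσ), sub_self]))

end cfg

theorem mod0 (hB : BR) : MOD := fun g X => by
  obtain ⟨D, h⟩ := X.td hB
  obtain ⟨Φ, hΦ⟩ := D.exists_ad
  exact ⟨D.mat Φ, _, h.bas hΦ, fun σ v =>
    (congrArg Subtype.val (D.mat_eqv Φ σ v)).symm.trans (h.hr _ _)⟩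

theorem shp (hB : BR) : SHP := fun g X ρ emb hm => by
  obtain ⟨D, h, Q, rfl⟩ := hm.rep hB
  exact ⟨fun σ hσ => Q.diag σ ((h.mem σ).2 hσ), fun σ hσ => Q.anti σ (mt (h.mem σ).1 hσ)⟩

theorem chi1 (hS : SUB) (hG : GENS) (hB : BR) : CHI1 := fun g X ρ emb hm θ hθ σ hσ => by
  obtain ⟨D, h, Q, rfl⟩ := hm.rep hB
  rw [← k9_pow]
  refine Q.chr σ ((h.mem σ).2 hσ) _ _ fun ξ => ?_
  rw [h.hr, h.hι, h.hjE]
  exact chrE hS hG X hθ hσ ξ

theorem det4 (hB : BR) : DET4 := fun g X ρ emb hm => by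
  obtain ⟨D, h, Q, rfl⟩ := hm.rep hB
  let a : GQ →* O3 := Matrix.detMonoidHom.comp Q.ρA
  let b : GQ →* O3 := (((algebraMap ℤ_[3] O3 : ℤ_[3] →* O3).comp (Units.coeHom _)).comp
    (cyc0 3 Qb)).comp (res0.comp X.R)
  have k : ∀ σ : GQ, σ (X.i : Qb) = X.i → a σ ^ 4 = b σ ^ 4 := fun σ hσ => by
    have m := (h.mem σ).2 hσ
    rw [← map_pow, ← map_pow]
    exact (Q.det_cyc (pow_mem m 4) (h.h4 σ m)).trans (by rw [h.hc]; rfl)
  have hi : (X.i : Qb) ^ 2 = -1 := X.P_i ▸ X.P.hi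
  intro σ
  rw [← X.res0_R]
  show a σ ^ 4 = b σ ^ 4
  rcases Rsd.pm hi σ with e | e
  · exact k σ e
  obtain ⟨c, hc, ci⟩ := Rsd.exists_conj hi
  have c4 : c ^ 4 = 1 := by rw [show 4 = 2 * 2 from rfl, pow_mul, sq c, hc, one_pow]
  have q : ∀ f : GQ →* O3, f (c * σ) ^ 4 = f σ ^ 4 := fun f => by
    rw [map_mul, mul_pow, ← map_pow, c4, map_one, one_mul]
  exact (q a).symm.trans ((k (c * σ) (by rw [AlgEquiv.mul_apply, e, map_neg, ci, neg_neg])).trans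
    (q b))

theorem lnk (hB : BR) : LNK := fun g X ρ emb hm I hI hT σ hσ => by
  obtain ⟨D, h, Q, rfl⟩ := hm.rep hB
  refine Q.link ((h.mem σ).2 (hI σ hσ)) fun n y => ?_
  obtain ⟨f, hf, e⟩ := exists_cp_tP y n
  obtain ⟨z, hz⟩ := (TM.cp_eq_zero_iff (r := n)
    (x := act 3 Qb X.P.FC (X.RC (hI σ hσ)) y - y)).1 (by
      rw [map_sub, cp_act, ← e, actP_tP _ (lp_ne 3 n) hf, sub_eq_zero, eq_comm,
        tP_eq_iff (lp_ne 3 n) hf (act_mem _ hf), mul_comm, ← div_eq_mul_inv]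
      exact hT n σ hσ f hf)
  exact ⟨D.jC z, by rw [h.r_jC (hI σ hσ), ← map_sub, hz, map_smul]; rfl⟩

theorem flt (hB : BR) : FLT := fun g X ρ emb hm O I hI hF j χ x => by
  obtain ⟨D, h, Q, rfl⟩ := hm.rep hB
  have n0 := lp_ne 3 (j + 1)
  have fl : ∀ (ψ : AddChar (Pc Qb X.P.FC) Qb) (y : TT 3 Qb X.P.FC), (fun σ : I =>
      ψ (TM.cp (j + 1) (act 3 Qb X.P.FC (X.RC (hI σ σ.2)) y))) ∈ P027M.D.Bs O I := fun ψ y => by
    obtain ⟨f, hf, e⟩ := exists_cp_tP y (j + 1)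
    convert hF (j + 1) (fun f => ψ (tP Qb (3 ^ (j + 1)) f))
      (fun f hf g hg => by rw [tP_mul n0 hf hg, ψ.map_add_eq_mul])
      (fun f hf => by
        rw [(tP_eq_zero_iff n0 (powU_le _ hf)).2 hf, ψ.map_zero_eq_one]) f hf using 2 with σ
    rw [cp_act, ← e, actP_tP _ n0 hf]
    rfl
  let p : (Fin 2 → O3) →+ (Fin 2 → La j) := (toLa j).toAddMonoidHom.compLeft _
  let e : (Fin 2 → O3) →+ X.P.H := D.T.subtype.toAddMonoidHom.comp Q.Φ.toLinearMap.toAddMonoidHom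
  let c : X.P.H →+ Pc Qb X.P.FC := (TM.cp (j + 1)).comp D.NC.toAddMonoidHom
  let u : (Fin 2 → O3) →+ Pc Qb X.P.FC × Pc Qb X.P.FC :=
    (c.comp e).prod (c.comp (D.ρ.toAddMonoidHom.comp e))
  have ker : u.ker ≤ p.ker := fun v hv => funext ((Q.dvd_iff j v).2 (TD.link_dvd (Q.Φ v).2
    (TM.cp_eq_zero_iff.1 (congrArg Prod.fst hv)) (TM.cp_eq_zero_iff.1 (congrArg Prod.snd hv))))
  obtain ⟨ψ, hψ⟩ := P027M.D.exists_ext _ (QuotientAddGroup.kerLift_injective u)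
    (χ.compAddMonoidHom (QuotientAddGroup.lift u.ker p ker))
  obtain ⟨v, rfl⟩ : ∃ v, p v = x := ⟨fun i => (toLa_surj j (x i)).choose,
    funext fun i => (toLa_surj j (x i)).choose_spec⟩
  convert mul_mem (fl (ψ.compAddMonoidHom (AddMonoidHom.inl _ _)) (D.NC (e v)))
    (fl (ψ.compAddMonoidHom (AddMonoidHom.inr _ _)) (D.NC (D.ρ (e v)))) using 2 with σ
  have e1 : vec Q.ρA j σ (p v) = p ((Q.ρA σ).mulVec v) :=
    funext fun i => ((toLa j).map_mulVec _ v i).symm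
  have e2 : e ((Q.ρA σ).mulVec v) = D.r σ (e v) := (congrArg Subtype.val (Q.eqv σ v)).symm
  rw [e1, Pi.mul_apply, ← h.NC_r, ← h.NC_r, D.rρ', ← e2]
  refine (hψ (QuotientAddGroup.mk _)).symm.trans ?_
  rw [AddChar.compAddMonoidHom_apply, AddChar.compAddMonoidHom_apply, ← ψ.map_add_eq_mul]
  congr 1
  simp [u, c]

end Vale.Agent.P027M.F
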