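import Vale.Agent.P027M.F.Defs

/-! # P027 route M, block F: the stabilisers of the twisted action -/

set_option linter.all false

noncomputable section

namespace Vale.Agent.P027M.F

open Vale.Agent.P022

namespace OpenP

variable {G K : Type*} [Group G] [TopologicalSpace G] [IsTopologicalGroup G] [Field K]
  (r : G →* RingAut K)

/-- the stabiliser -/
def st (f : K) : Subgroup G := (MulAction.stabilizer (RingAut K) f).comap r

theorem mem_st {f : K} {σ : G} : σ ∈ st r f ↔ r σ f = f := Iff.rfl

theorem of_le {U : Subgroup G} (hU : IsOpen (U : Set G)) {f : K} (h : ∀ σ ∈ U, r σ f = f) :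
    IsOpen (st r f : Set G) := Subgroup.isOpen_mono (fun σ hσ => (mem_st r).2 (h σ hσ)) hU

theorem of_two {a b f : K} (ha : IsOpen (st r a : Set G)) (hb : IsOpen (st r b : Set G))
    (h : ∀ σ, r σ a = a → r σ b = b → r σ f = f) : IsOpen (st r f : Set G) :=
  of_le r (U := st r a ⊓ st r b) (ha.inter hb) fun σ hσ => h σ hσ.1 hσ.2

/-- the smooth elements -/
def sub : Subfield K where
  carrier := {f | IsOpen (st r f : Set G)}
  mul_mem' ha hb := of_two r ha hb fun σ a b => by rw [map_mul, a, b]
  add_mem' ha hb := of_two r ha hb fun σ a b => by rw [map_add, a, b]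
  one_mem' := of_le r (U := ⊤) isOpen_univ fun σ _ => map_one _
  zero_mem' := of_le r (U := ⊤) isOpen_univ fun σ _ => map_zero _
  neg_mem' ha := of_two r ha ha fun σ a _ => by rw [map_neg, a]
  inv_mem' _ ha := of_two r ha ha fun σ a _ => by rw [map_inv₀, a]

theorem stab (a : Qb) : IsOpen (MulAction.stabilizer GQ a : Set GQ) :=
  haveI : Algebra.IsAlgebraic ℚ Qb := AlgebraicClosure.isAlgebraic ℚ
  stabilizer_isOpen_of_isIntegral a

end OpenP

theorem opnS : OPEN := by
  intro g X f
  refine X.P.FF_ind' (OpenP.sub X.r) (fun a => ?_) ?_ ?_ ?_ f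
  · refine OpenP.of_le X.r (OpenP.stab a) fun σ h => ?_
    exact (X.r_c σ a).trans (congrArg _ h)
  · exact OpenP.of_le X.r (OpenP.stab X.i) fun σ h => Tw.rr_M1 (X.fx h)
  · exact OpenP.of_le X.r (OpenP.stab X.i) fun σ h => Tw.rr_M2 (X.fx h)
  · exact OpenP.of_le X.r (OpenP.stab X.i) fun σ h => Tw.rr_Y (X.fx h)

end Vale.Agent.P027M.F
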