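import Vale.Agent.P027M.F.Defs

/-! # P027 route M, block F: open kernels (row F.OPN) -/

set_option linter.all false

noncomputable section

namespace Vale.Agent.P027M.F

open NumberField Polynomial IntermediateField Vale.Agent.P022 Vale.Agent.P019P P025H816
  _root_.P027M.K

namespace Opn

/-- the image of an adapted basis is saturated -/
theorem sat {k : Type} [Field k] [IsAlgClosed k] {P : Par k}
    {emb : (Fin 2 → O3) →ₗ[ℤ_[3]] P.H} (h : P.Bas emb) {j : ℕ} {v : Fin 2 → O3}
    (hv : TM.cp j (emb v) = 0) (i : Fin 2) : 3 ^ j ∣ v i := by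
  obtain ⟨y, hy⟩ := TM.cp_eq_zero_iff.1 hv
  obtain ⟨h1, h2⟩ := (h.rng (emb v)).1 ⟨v, rfl⟩
  rw [hy] at h1 h2
  obtain ⟨u, hu⟩ := (h.rng y).2 ⟨by
      rw [← sub_eq_zero]
      refine TM.eq_zero_of_pow_smul (r := j) ?_
      rw [smul_sub, ← map_smul, ← map_smul, h1, smul_neg, sub_self], by
      refine TM.eq_zero_of_pow_smul (r := j) ?_
      rw [smul_add, smul_add, ← map_smul, ← map_smul, ← map_smul, h2]⟩
  have e : v = ((3 : ℕ) : ℤ_[3]) ^ j • u := h.inj (by rw [map_smul, hu, hy])
  refine ⟨u i, ?_⟩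
  rw [e, Pi.smul_apply, Algebra.smul_def, map_pow, map_natCast, Nat.cast_ofNat]

end Opn

theorem opn (H : OPEN) : OPN := by
  intro g X ρ emb hm j
  choose f hf hf' using fun k : Fin 2 => exists_cp_tP (emb (Pi.single k 1)) j
  let U : Subgroup GQ :=
    { carrier := {σ | ∀ k, X.r σ (f k : X.P.FF) = f k}
      one_mem' := fun k => by rw [map_one]; rfl
      mul_mem' := fun {a b} ha hb k => by rw [map_mul, RingAut.mul_apply, hb k, ha k]
      inv_mem' := fun {a} ha k => by
        apply (X.r a).injective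
        rw [← RingAut.mul_apply, ← map_mul, mul_inv_cancel, map_one, ha k]
        rfl }
  refine ⟨U, ?_, fun u hu => ?_⟩
  · have e : (U : Set GQ) = ⋂ k, {σ : GQ | X.r σ (f k : X.P.FF) = f k} := by
      ext σ
      rw [Set.mem_iInter]
      rfl
    rw [e]
    exact isOpen_iInter_of_finite fun k => H g X _
  · ext1 i k
    have h1 : TM.cp j (emb ((ρ u).mulVec (Pi.single k 1) - Pi.single k 1)) = 0 := by
      rw [map_sub, map_sub, hm.act, cp_act, ← hf', actP_tP _ (lp_ne 3 j) (hf k), sub_eq_zero]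
      congr 1
      exact Units.ext (hu k)
    have h2 := (toLa_eq_zero j _).2 (Opn.sat hm.bas h1 i)
    rw [Pi.sub_apply, map_sub, sub_eq_zero, Matrix.mulVec_single_one] at h2
    rw [Matrix.map_apply]
    refine h2.trans ?_
    rw [Matrix.one_apply, Pi.single_apply]
    split_ifs
    · exact map_one _
    · exact map_zero _

end Vale.Agent.P027M.F
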