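import Vale.Agent.P027M.F.Defs
import Vale.Agent.P027M.F.ChiAll

/-! # P027, route M, row F.SIN : the input of block S -/

set_option linter.all false

noncomputable section

namespace Vale.Agent.P027M.F

open NumberField Polynomial Vale.Agent.P022

namespace SinP

theorem ex_conj {i : Qb} (hi : i ^ 2 = -1) : ∃ c : GQ, c i = -i := by
  have pr : ∀ j : Qb, j ^ 2 = -1 → IsPrimitiveRoot j 4 := fun j hj => by
    have e : orderOf j = 2 ^ (1 + 1) := orderOf_eq_prime_pow (by rw [pow_one, hj]; norm_num)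
      (by rw [show 2 ^ (1 + 1) = 2 * 2 by norm_num, pow_mul, hj]; norm_num)
    exact (show orderOf j = 4 from e) ▸ IsPrimitiveRoot.orderOf j
  haveI : IsAlgClosure ℚ Qb := ⟨inferInstance, AlgebraicClosure.isAlgebraic ℚ⟩
  haveI : Normal ℚ Qb := IsAlgClosure.normal ℚ Qb
  exact IsConjRoot.exists_algEquiv (K := ℚ) ((cyclotomic_eq_minpoly_rat (pr (-i) (by
    rw [neg_sq, hi])) four_pos).symm.trans (cyclotomic_eq_minpoly_rat (pr i hi) four_pos))

theorem neg_ne {i : Qb} (hi : i ^ 2 = -1) : -i ≠ i := fun h => by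
  have h0 : i = 0 := by linear_combination (-1 / 2 : Qb) * h
  rw [h0] at hi
  norm_num at hi

theorem u_sq : (1 - i9) ^ 2 = i9 := by
  have h3 : (3 : k9) = 0 := CharP.cast_eq_zero k9 3
  linear_combination i9_sq - i9 * h3

theorem u_eight : (1 - i9) ^ 8 = 1 := by
  rw [show 8 = 2 * (2 * 2) from rfl, pow_mul, u_sq, pow_mul, i9_sq]
  norm_num

theorem u_pow (a : ZMod 8) (e : ℕ) :
    (1 - i9) ^ (a + 2 * e).val = i9 ^ e * (1 - i9) ^ a.val := by
  have h : (a + 2 * e).val ≡ 2 * e + a.val [MOD 8] :=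
    (ZMod.natCast_eq_natCast_iff _ _ 8).1 (by
      rw [ZMod.natCast_zmod_val]; push_cast; rw [ZMod.natCast_zmod_val]; ring)
  rw [pow_eq_pow_mod _ u_eight, h, ← pow_eq_pow_mod _ u_eight, pow_add, pow_mul, u_sq]

/-- conjugation by an element outside the stabiliser swaps the diagonal entries -/
theorem swap {i : 𝓞 Qb} (hi : (i : Qb) ^ 2 = -1) {ρ : GQ →* TW.M2 O3} (h : Shp i ρ) {s σ : GQ}
    (hs : s (i : Qb) = -i) (hσ : σ (i : Qb) = i) :
    res3 (ρ (s⁻¹ * σ * s) 0 0) = res3 (ρ σ 1 1) := by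
  have hs' : s⁻¹ (i : Qb) = -i := by
    apply s.injective
    rw [← AlgEquiv.mul_apply, mul_inv_cancel, map_neg, hs, neg_neg, AlgEquiv.one_apply]
  obtain ⟨a0, a1⟩ := h.2 s⁻¹ (by rw [hs']; exact neg_ne hi)
  obtain ⟨c0, c1⟩ := h.2 s (by rw [hs]; exact neg_ne hi)
  obtain ⟨b0, b1⟩ := h.1 σ hσ
  have e : (ρ s⁻¹ * ρ s) 0 0 = 1 := by rw [← map_mul, inv_mul_cancel, map_one]; rfl
  have e' := congrArg res3 e
  simp only [Matrix.mul_apply, Fin.sum_univ_two, map_add, map_mul, map_one, a0, c0] at e'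
  simp only [map_mul, Matrix.mul_apply, Fin.sum_univ_two, map_add, a0, c0, b0, b1]
  linear_combination res3 (ρ σ 1 1) * e'

variable {g : ℚ}

theorem c_eq (X : Cfg g) : X.c = -3 * X.d.β.norm ^ 3 := by
  rw [Cfg.c]
  exact congrArg _ (map_pow Zsqrtd.normMonoidHom X.d.β 3)

theorem n_pos (d : Dat g) : 0 < d.β.norm := by
  have h := d.mod8
  have := GaussianInt.norm_nonneg d.β
  omega

theorem mem_vis (d : Dat g) {l : ℕ} (hl : l.Prime) (h : l ∣ 7 * 19 * Vis g) : l ∈ visSet g := by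
  rcases (Nat.Prime.dvd_mul hl).1 h with h | h
  · refine (d.vis2 l ?_).1
    rcases (Nat.Prime.dvd_mul hl).1 h with h | h
    · exact .inl ((Nat.prime_dvd_prime_iff_eq hl (by norm_num)).1 h)
    · exact .inr ((Nat.prime_dvd_prime_iff_eq hl (by norm_num)).1 h)
  · obtain ⟨p, hp, h⟩ := (Prime.dvd_finsetProd_iff hl.prime _).1 h
    rwa [(Nat.prime_dvd_prime_iff_eq hl (d.visp p hp).1).1 h]

theorem n_three (d : Dat g) : ¬ 3 ∣ d.β.norm := fun h => by
  obtain ⟨y, hy⟩ := d.dvd_m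
  have e : d.m.norm ^ 3 = d.β.norm * y.norm := by
    rw [← Zsqrtd.norm_mul, ← hy]
    exact (map_pow Zsqrtd.normMonoidHom d.m 3).symm
  have h1 : (3 : ℤ) ∣ d.m.norm := Int.prime_three.dvd_of_dvd_pow (e ▸ h.mul_right _)
  rw [d.normm] at h1
  have := (d.visp 3 (mem_vis d Nat.prime_three (by exact_mod_cast h1))).2.1
  omega

theorem sq_ndvd (d : Dat g) {l : ℕ} (hm : l ∈ visSet g) (h8 : l % 8 = 1) : ¬ l ^ 2 ∣ lev g := by
  intro h
  have hl := (d.visp l hm).1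
  have e : lev g = l * (2 ^ 16 * 7 * 19 * ∏ p ∈ (visSet g).erase l, p) := by
    rw [lev, Vis, ← Finset.mul_prod_erase _ _ hm]; ring
  rw [e, sq, Nat.mul_dvd_mul_iff_left hl.pos] at h
  rcases (Nat.Prime.dvd_mul hl).1 h with h | h
  · rcases (Nat.Prime.dvd_mul hl).1 h with h | h
    · rcases (Nat.Prime.dvd_mul hl).1 h with h | h
      · have := (Nat.prime_dvd_prime_iff_eq hl Nat.prime_two).1 (hl.dvd_of_dvd_pow h)
        omega
      · have := (Nat.prime_dvd_prime_iff_eq hl (by norm_num)).1 h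
        omega
    · have := (Nat.prime_dvd_prime_iff_eq hl (by norm_num)).1 h
      omega
  · obtain ⟨p, hp, h⟩ := (Prime.dvd_finsetProd_iff hl.prime _).1 h
    obtain ⟨p1, p2⟩ := Finset.mem_erase.1 hp
    exact p1 ((Nat.prime_dvd_prime_iff_eq hl (d.visp p p2).1).1 h).symm

theorem val_c (X : Cfg g) {l : ℕ} (hl : l.Prime) (h3 : 3 < l) :
    padicValInt l X.c = 3 * padicValInt l X.d.β.norm := by
  haveI := Fact.mk hl
  have n0 := (n_pos X.d).ne'
  have e : padicValInt l (-3) = 0 := padicValInt.eq_zero_of_not_dvd fun h => by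
    have := Int.le_of_dvd (by norm_num) (Int.dvd_neg.1 h)
    omega
  rw [c_eq, padicValInt.mul (by norm_num) (pow_ne_zero _ n0), e, zero_add, pow_succ, sq,
    padicValInt.mul (mul_ne_zero n0 n0) n0, padicValInt.mul n0 n0]
  ring

end SinP

open SinP

/-- [F.SIN] -/
theorem sin0 : SIN := by
  intro g X ρ hS hC
  have np := n_pos X.d
  have h8 := X.d.mod8
  refine ⟨?_, ?_, ?_, ?_, ?_, ?_⟩
  · rw [c_eq]
    have := pow_pos np 3
    omega
  · rw [c_eq]
    exact Dvd.dvd.mul_right (by norm_num) _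
  · rw [c_eq]
    intro h
    exact n_three X.d (Int.prime_three.dvd_of_dvd_pow (n := 3) (by omega))
  · rw [c_eq]
    have : X.d.β.norm ^ 3 % 8 = 1 := (Int.ModEq.pow 3 (show X.d.β.norm ≡ 1 [ZMOD 8] from h8))
    omega
  · intro l hl h3 h
    have hm : l ∈ visSet g := mem_vis X.d hl (((Nat.Prime.dvd_mul hl).1 h).resolve_left fun h => by
      have := (Nat.prime_dvd_prime_iff_eq hl Nat.prime_two).1 (hl.dvd_of_dvd_pow h)
      omega)
    rw [val_c X hl h3]
    rcases (X.d.visp l hm).2.2 with k | k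
    · obtain ⟨π, β', e, -, e1, e3, -, -, -, hv⟩ := X.d.vis1 l hm k
      exact ⟨by rw [hv]; omega, .inr ⟨k, sq_ndvd X.d hm k⟩⟩
    · exact ⟨by rw [(X.d.vis2 l k).2.1]; omega, .inl (by omega)⟩
  · have hi := coe_sq X.hi
    have b0 : X.d.β ≠ 0 := fun h => by rw [h] at np; simp at np
    obtain ⟨θ, hθ⟩ := (chi0 X.i _ X.hi (pow_ne_zero 3 b0)).2.1
    obtain ⟨θ₁, hθ₁⟩ := (chi0 X.i 1 X.hi one_ne_zero).2.1
    obtain ⟨b, hb, hr⟩ := (twi0 X.i _ θ θ₁ X.hi (pow_ne_zero 3 b0) hθ hθ₁).2.2.2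
    obtain ⟨s, hs⟩ := ex_conj hi
    refine ⟨b, hb, fun σ e hσ he => ?_⟩
    have ht : (s⁻¹ * σ * s) (X.i : Qb) = X.i := by
      apply s.injective
      rw [← AlgEquiv.mul_apply, ← mul_assoc, ← mul_assoc, mul_inv_cancel, one_mul,
        AlgEquiv.mul_apply, hs, map_neg, hσ]
    rw [hC θ hθ σ hσ, hr s σ e hs hσ he, u_pow, ← hC θ hθ _ ht, swap hi hS hs hσ]

end Vale.Agent.P027M.F
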