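import Vale.Agent.P027M.F.Defs
import Vale.Agent.P027M.S.Loc

/-! # P027 route M, block F: row UNRA -/

set_option linter.all false

noncomputable section

namespace Vale.Agent.P027M.F

open NumberField Vale.Agent.P022

/-- inertia at an odd prime fixes `i` -/
theorem inert_fix_i {P : Ideal (𝓞 Qb)} (hP : P.IsPrime) {l : ℕ} (hl : l.Prime) (h2 : l ≠ 2)
    (h : (l : 𝓞 Qb) ∈ P) {g : GQ} (hg : S.Inert P g) {i : 𝓞 Qb} (hi : i ^ 2 = -1) :
    g (i : Qb) = i := by
  have hi' : (i : Qb) ^ 2 = -1 := congrArg (fun z : 𝓞 Qb => (z : Qb)) hi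
  refine (S.Loc.pm hi' g).resolve_right fun e => ?_
  have e' : g • i = -i := RingOfIntegers.ext e
  have h1 := S.Loc.not_mem hP h (c := 2) (Nat.isCoprime_iff_coprime.2
    ((Nat.coprime_primes hl Nat.prime_two).2 h2))
  exact h1 (by exact_mod_cast S.Loc.two_mem hi (e' ▸ hg i))

theorem unra : UNRA := by
  intro g X ρ G Do
  refine ⟨fun l P hl hP hlP z hz => ?_, fun P O hP h3 hO j => ?_⟩
  · have h2 : l ≠ 2 := by
      rintro rfl
      exact hl.2 (Dvd.dvd.mul_right (by norm_num) _)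
    refine G.lnk (D.inr P) (fun σ hσ => inert_fix_i hP hl.1 h2 hlP hσ X.hi)
      (fun n => Do.unr l _ P hl hP hlP fun h => hl.2 ?_) z hz
    exact ((hl.1.dvd_of_dvd_pow h).trans (by norm_num)).mul_right _
  · exact G.flt O (D.inr P) (fun σ hσ => inert_fix_i hP Nat.prime_three (by norm_num)
      (by exact_mod_cast h3) hσ X.hi) (Do.flat P O hP h3 hO) j

end Vale.Agent.P027M.F
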