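import Vale.Agent.P027M.F.Defs
import Vale.Agent.P027M.F.ChiAlg
import Vale.Agent.P027M.F.ChiChr
import Vale.Agent.P027M.F.ChiXi

/-! # P027 route M, block F: inertia at the visible primes (row F.VIS) -/

set_option linter.all false

noncomputable section

namespace Vale.Agent.P027M.F

open NumberField Vale.Agent.P022

namespace VisL

theorem mat {A : TW.M2 O3} (h4 : A ^ 4 = 1) (h01 : res3 (A 0 1) = 0) (h10 : res3 (A 1 0) = 0)
    (h : res3 (A 0 0) = 1 ∨ res3 (A 1 1) = 1) :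
    A.trace = 1 + A.det ∧ (A.det = 1 → A = 1) := by
  have t : A.trace = 1 + A.det := by
    by_contra k
    have d : (A - 1).det ≠ 0 := fun e => k (by
      simp [Matrix.det_fin_two, Matrix.trace_fin_two] at e ⊢
      linear_combination -e)
    have z : (A - 1) * (A * A * A + A * A + A + 1) = 0 := by
      rw [← sub_eq_zero.2 h4]; noncomm_ring
    have z' : (A - 1).det • (A * A * A + A * A + A + 1) = 0 := by
      rw [← Matrix.one_mul (A * A * A + A * A + A + 1), ← Matrix.smul_mul, ← Matrix.adjugate_mul,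
        Matrix.mul_assoc, z, Matrix.mul_zero]
    have B := (smul_eq_zero.1 z').resolve_left d
    have n : (1 + 1 + 1 + 1 : k9) ≠ 0 := by decide
    rcases h with h | h
    · have e := congrArg (fun M : TW.M2 O3 => res3 (M 0 0)) B
      simp only [Matrix.add_apply, Matrix.mul_apply, Fin.sum_univ_two, map_add, map_mul, h01, h10,
        h, Matrix.one_apply_eq, map_one, Matrix.zero_apply, map_zero] at e
      exact n (by linear_combination e)
    · have e := congrArg (fun M : TW.M2 O3 => res3 (M 1 1)) B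
      simp only [Matrix.add_apply, Matrix.mul_apply, Fin.sum_univ_two, map_add, map_mul, h01, h10,
        h, Matrix.one_apply_eq, map_one, Matrix.zero_apply, map_zero] at e
      exact n (by linear_combination e)
  refine ⟨t, fun d => ?_⟩
  have c : A * A = (2 : O3) • A - 1 := by
    rw [d, Matrix.trace_fin_two] at t
    rw [Matrix.det_fin_two] at d
    ext a b : 1
    fin_cases a <;> fin_cases b <;> simp [Matrix.mul_apply, Fin.sum_univ_two]
    · linear_combination A 0 0 * t - d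
    · linear_combination A 0 1 * t
    · linear_combination A 1 0 * t
    · linear_combination A 1 1 * t - d
  have e : (4 : O3) • (A - 1) = 0 := by
    rw [← sub_eq_zero.2 h4, show A ^ 4 = A * A * (A * A) by noncomm_ring, c]
    simp only [sub_mul, mul_sub, smul_mul_assoc, mul_smul_comm, c, one_mul, mul_one]
    module
  have n : (4 : O3) ≠ 0 := fun k => by
    have := congrArg res3 k
    rw [map_ofNat, map_zero] at this
    exact absurd this (by decide)
  exact sub_eq_zero.1 ((smul_eq_zero.1 e).resolve_left n)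

variable {i : 𝓞 Qb}

theorem csq (hi : i ^ 2 = -1) : (i : Qb) ^ 2 = -1 := by
  exact_mod_cast congrArg (fun z : 𝓞 Qb => (z : Qb)) hi

theorem cas (hi : i ^ 2 = -1) (σ : GQ) : σ i = i ∨ σ i = -i := by
  have h := csq hi
  have h1 : σ i ^ 2 = -1 := by rw [← map_pow, h, map_neg, map_one]
  have h2 : (σ i - i) * (σ i + i) = 0 := by linear_combination h1 - h
  exact (mul_eq_zero.1 h2).imp sub_eq_zero.1 eq_neg_of_add_eq_zero_left

theorem ex_s (hi : i ^ 2 = -1) : ∃ s : GQ, s i = -i := by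
  by_contra k
  haveI : IsAlgClosure ℚ Qb := AlgebraicClosure.instIsAlgClosure ℚ
  haveI : IsGalois ℚ Qb := IsAlgClosure.isGalois ℚ Qb
  obtain ⟨q, hq⟩ := (InfiniteGalois.mem_range_algebraMap_iff_fixed (k := ℚ) (i : Qb)).2
    fun s => (cas hi s).resolve_right fun e => k ⟨s, e⟩
  have h := csq hi
  rw [← hq, ← map_pow, ← map_one (algebraMap ℚ Qb), ← map_neg] at h
  nlinarith [sq_nonneg q, (algebraMap ℚ Qb).injective h]

theorem neg_ne (hi : i ^ 2 = -1) : -(i : Qb) ≠ i := fun e => by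
  have h := csq hi
  have : (4 : Qb) = 0 := by linear_combination 4 * h + 2 * (i : Qb) * e
  norm_num at this

theorem top {P : Ideal (𝓞 Qb)} (hP : P.IsPrime) {a b : 𝓞 Qb} (h : IsCoprime a b) (ha : a ∈ P)
    (hb : b ∈ P) : False := by
  obtain ⟨u, v, e⟩ := h
  exact hP.ne_top ((Ideal.eq_top_iff_one _).2
    (e ▸ P.add_mem (P.mul_mem_left _ ha) (P.mul_mem_left _ hb)))

theorem fix (hi : i ^ 2 = -1) {P : Ideal (𝓞 Qb)} (hP : P.IsPrime) {l : ℕ} (h8 : l % 8 = 1)
    (hl : (l : 𝓞 Qb) ∈ P) {z : GQ} (hz : z ∈ D.inr P) : z i = i := by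
  refine (cas hi z).resolve_right fun e => ?_
  have h1 : z • i = -i := RingOfIntegers.ext e
  have h2 := D.mem_inr.1 hz i
  have h3 : ((4 : ℕ) : 𝓞 Qb) ∈ P := by
    have := P.mul_mem_left (2 * i) h2
    rwa [h1, show 2 * i * (-i - i) = ((4 : ℕ) : 𝓞 Qb) by push_cast; linear_combination -4 * hi]
      at this
  have h4 : Nat.Coprime 4 l :=
    Nat.Coprime.pow_left 2 ((Nat.Prime.coprime_iff_not_dvd Nat.prime_two).2 (by omega))
  exact top hP h4.cast h3 hl

theorem pow4 (hi : i ^ 2 = -1) {z : GQ} (hz : z i = i) {δ : Qb} {l : ℕ} (h : δ ^ 4 = l) :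
    (z ^ 4) δ = δ := by
  have h0 := csq hi
  have h1 : z δ ^ 4 = δ ^ 4 := by rw [← map_pow, h, map_natCast]
  have h2 : (z δ - δ) * ((z δ - -δ) * ((z δ - i * δ) * (z δ - -(i * δ)))) = 0 := by
    linear_combination h1 - (z δ ^ 2 - δ ^ 2) * δ ^ 2 * h0
  have e : (z ^ 4) δ = z (z (z (z δ))) := rfl
  rw [e]
  simp only [mul_eq_zero, sub_eq_zero] at h2
  rcases h2 with k | k | k | k <;> simp only [k, map_mul, map_neg, hz, neg_neg]
  · linear_combination ((i : Qb) ^ 2 - 1) * δ * h0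
  · linear_combination ((i : Qb) ^ 2 - 1) * δ * h0

/-- `gi` as a ring homomorphism -/
def gH (hi : i ^ 2 = -1) : GaussianInt →+* 𝓞 Qb := Zsqrtd.lift ⟨i, by rw [← sq, hi]; simp⟩

theorem split (hi : i ^ 2 = -1) {P : Ideal (𝓞 Qb)} (hP : P.IsPrime) {l : ℕ} (hp : l.Prime)
    (h8 : l % 8 = 1) (hl : (l : 𝓞 Qb) ∈ P) {π β : GaussianInt} (hn : π.norm = l)
    (hb : ¬ star π ∣ β) :
    gi i (2 * (3 * β ^ 3)) ∉ P ∨ gi i (star (2 * (3 * β ^ 3))) ∉ P := by
  by_contra k
  push Not at k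
  have n : (star π).norm = l := by rw [Zsqrtd.norm_conj, hn]
  have p : Prime (star π) := XiP.prime_of_norm (by rwa [n, Int.natAbs_natCast])
  have q : ∀ r : ℕ, r.Prime → r < 4 → ¬ star π ∣ r := fun r hr h4 => XiP.ndvd_of_norm (by
    rw [n, Zsqrtd.norm_natCast, ← Nat.cast_mul, Int.natCast_dvd_natCast, hp.dvd_mul, or_self]
    intro d
    have := Nat.le_of_dvd hr.pos d
    have := hp.two_le
    omega)
  have c : IsCoprime (star π) (2 * (3 * β ^ 3)) := by
    refine (p.irreducible.coprime_iff_not_dvd).2 fun d => ?_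
    rcases p.dvd_or_dvd d with d | d
    · exact q 2 Nat.prime_two (by norm_num) (by exact_mod_cast d)
    rcases p.dvd_or_dvd d with d | d
    · exact q 3 Nat.prime_three (by norm_num) (by exact_mod_cast d)
    · exact hb (p.dvd_of_dvd_pow d)
  have m : gH hi π * gH hi (star π) ∈ P := by
    rwa [← map_mul, ← Zsqrtd.norm_eq_mul_conj, hn, map_intCast, Int.cast_natCast]
  rcases hP.mem_or_mem m with m | m
  · have c' : IsCoprime π (star (2 * (3 * β ^ 3))) := by
      have := c.map (starRingEnd GaussianInt)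
      rwa [starRingEnd_apply, star_star] at this
    exact top hP (c'.map (gH hi)) m k.2
  · exact top hP (c.map (gH hi)) m k.1

theorem mem_vis {g : ℚ} (d : Dat g) {l : ℕ} (hp : l.Prime) (h8 : l % 8 = 1) (h : l ∣ lev g) :
    l ∈ visSet g := by
  have q : ∀ r : ℕ, r.Prime → r % 8 ≠ 1 → ¬ l ∣ r := fun r hr h1 d =>
    h1 ((Nat.prime_dvd_prime_iff_eq hp hr).1 d ▸ h8)
  rcases hp.dvd_mul.1 h with h | h
  · exact absurd (hp.dvd_of_dvd_pow h) (q 2 Nat.prime_two (by norm_num))
  rcases hp.dvd_mul.1 h with h | h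
  · rcases hp.dvd_mul.1 h with h | h
    · exact absurd h (q 7 (by norm_num) (by norm_num))
    · exact absurd h (q 19 (by norm_num) (by norm_num))
  obtain ⟨r, hr, e⟩ := (Prime.dvd_finsetProd_iff hp.prime _).1 h
  rwa [(Nat.prime_dvd_prime_iff_eq hp (d.visp r hr).1).1 e]

theorem swap {ρ : GQ →* TW.M2 O3} (h : Shp i ρ) {s : GQ} (hs : s i ≠ i) (z : GQ) :
    res3 (ρ (s⁻¹ * z * s) 0 0) = res3 (ρ z 1 1) := by
  obtain ⟨a, b⟩ := h.2 s hs
  have e : ρ s * ρ (s⁻¹ * z * s) = ρ z * ρ s := by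
    rw [← map_mul, ← map_mul, mul_assoc, mul_inv_cancel_left]
  have u : ρ s * ρ s⁻¹ = 1 := by rw [← map_mul, mul_inv_cancel, map_one]
  have e1 := congrArg (fun M : TW.M2 O3 => res3 (M 1 0)) e
  have u1 := congrArg (fun M : TW.M2 O3 => res3 (M 1 1)) u
  simp only [Matrix.mul_apply, Fin.sum_univ_two, map_add, map_mul res3, a, b, Matrix.one_apply_eq,
    map_one] at e1 u1
  linear_combination res3 (ρ s⁻¹ 0 1) * e1 -
    (res3 (ρ (s⁻¹ * z * s) 0 0) - res3 (ρ z 1 1)) * u1

end VisL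

open VisL

theorem vis : VIS := by
  intro g X ρ G Do l P hp h8 hd hP hl z hz
  have hi := X.hi
  have hz' : z ∈ D.inr P := hz
  have fz := fix hi hP h8 hl hz'
  obtain ⟨δ, hδ⟩ := IsAlgClosed.exists_pow_nat_eq (l : Qb) (n := 4) (by norm_num)
  have h4 : ρ z ^ 4 = 1 := by
    rw [← map_pow]
    refine G.lnk (D.inr P ⊓ MulAction.stabilizer GQ δ) (fun σ h => fix hi hP h8 hl h.1)
      (fun n => Do.vis l _ P δ hp h8 hd hP hl (fun d => ?_) hδ) _
      ⟨pow_mem hz' 4, pow4 hi fz hδ⟩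
    have := (Nat.prime_dvd_prime_iff_eq hp Nat.prime_three).1 (hp.dvd_of_dvd_pow d)
    omega
  obtain ⟨π, -, -, hn, -, -, -, -, hb, -⟩ := X.d.vis1 l (mem_vis X.d hp h8 hd) h8
  have b0 : X.d.β ^ 3 ≠ 0 := pow_ne_zero _ fun e => hb (e ▸ dvd_zero _)
  obtain ⟨-, ⟨θ, hθ⟩, hC⟩ := chi alg X.i _ hi b0
  have U := (hC θ hθ).2.1
  refine mat h4 (G.shp.1 z fz).1 (G.shp.1 z fz).2 ?_
  rcases split hi hP hp h8 hl hn hb with k | k
  · left
    rw [G.chi θ hθ z fz, U P hP k z fz hz, ZMod.val_zero, pow_zero]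
  · right
    obtain ⟨s, hs⟩ := ex_s hi
    have f : (s⁻¹ * z * s) (X.i : Qb) = X.i := by
      have : s⁻¹ (X.i : Qb) = -X.i := by
        rw [← neg_eq_iff_eq_neg, ← map_neg, ← hs, ← AlgEquiv.mul_apply, inv_mul_cancel]
        rfl
      rw [AlgEquiv.mul_apply, AlgEquiv.mul_apply, hs, map_neg, fz, map_neg, this, neg_neg]
    have s1 : MulSemiringAction.toRingHom GQ (𝓞 Qb) s X.i = -X.i := RingOfIntegers.ext hs
    rw [← swap G.shp (hs ▸ neg_ne hi) z, G.chi θ hθ _ f,
      U (P.comap (MulSemiringAction.toRingHom GQ (𝓞 Qb) s)) (Ideal.comap_isPrime _ _)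
        (fun m => k ?_) _ f (fun x => ?_), ZMod.val_zero, pow_zero]
    · rw [Ideal.mem_comap] at m
      convert m using 1
      generalize 2 * (3 * X.d.β ^ 3) = y
      rw [gi, gi, map_add, map_mul, map_intCast, map_intCast, s1]
      simp
    · rw [Ideal.mem_comap, map_sub, MulSemiringAction.toRingHom_apply,
        MulSemiringAction.toRingHom_apply, ← mul_smul, mul_assoc, mul_inv_cancel_left, mul_smul]
      exact hz _

end Vale.Agent.P027M.F
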