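import Vale.Agent.P027M.F.Cfg
import Vale.Agent.P027M.F.Arith
import Vale.Agent.P027M.F.Sub
import Vale.Agent.P027M.F.Gens
import Vale.Agent.P027M.F.Br
import Vale.Agent.P027M.F.Geo
import Vale.Agent.P027M.F.Open
import Vale.Agent.P027M.F.Opn
import Vale.Agent.P027M.F.Unra
import Vale.Agent.P027M.F.Tra
import Vale.Agent.P027M.F.Res
import Vale.Agent.P027M.F.Sin
import Vale.Agent.P027M.F.Rsd
import Vale.Agent.P027M.F.Vis
import Vale.Agent.P027M.F.Det
import Vale.Agent.P027M.TW.Cy
import Vale.Agent.P027M.TW.Dens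
import Vale.Agent.P027M.D.OutAll

/-! # P027 route M, block F: the closed statements -/

namespace Vale.Agent.P027M.F

theorem cfg0 : CFG := cfg arith

theorem gens0 : GENS := gens sub D.hyp0

theorem br0 : BR := br sub gens0

theorem bas0 : BAS := bas br0

theorem mod1 : MOD := mod0 br0

theorem geo0 {g : ℚ} {X : Cfg g} {ρ emb} (h : Mod X ρ emb) : Geo X ρ :=
  ⟨opn opnS g X ρ emb h, lnk br0 g X ρ emb h, flt br0 g X ρ emb h, det4 br0 g X ρ emb h,
    shp br0 g X ρ emb h, chi1 sub gens0 br0 g X ρ emb h⟩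

theorem det0 : DET := det TW.dens TW.cy

/-- **block F** -/
theorem gala0 : GALA :=
  gala D.dout0 mod1 (opn opnS) (lnk br0) (flt br0) (shp br0) (chi1 sub gens0 br0) (det4 br0)
    unra tra res det0 sin0 rsd vis

end Vale.Agent.P027M.F
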