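import Vale.Agent.P027M.F.Geo
import Vale.Agent.P027M.F.Br
import Vale.Agent.P027M.F.Gens
import Vale.Agent.P027M.F.Sub
import Vale.Agent.P027M.F.Open
import Vale.Agent.P027M.F.Opn
import Vale.Agent.P027M.F.Unra
import Vale.Agent.P027M.F.Tra
import Vale.Agent.P027M.F.Res
import Vale.Agent.P027M.F.Det
import Vale.Agent.P027M.F.Sin
import Vale.Agent.P027M.F.Rsd
import Vale.Agent.P027M.F.Vis
import Vale.Agent.P027M.D.OutAll
import Vale.Agent.P027M.TW.Dens
import Vale.Agent.P027M.TW.Cy

/-! # P027, route M, block F : the closed term -/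

namespace Vale.Agent.P027M.F

theorem brA : BR := br sub (gens sub D.hyp0)

theorem galaA : GALA := gala D.dout0 (mod0 brA) (opn opnS) (lnk brA) (flt brA) (shp brA)
  (chi1 sub (gens sub D.hyp0) brA) (det4 brA) unra tra res (det TW.dens TW.cy) sin0 rsd vis

end Vale.Agent.P027M.F
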