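import Vale.Agent.P027M.F.Hom

/-! # P027 route M, block F: the automorphisms `tau`, `rho`, `iota`, `gam` of `FF` -/

namespace Vale.Agent.P027M.F

variable {k : Type*} [Field k]

namespace Par

variable (P : Par k) [IsAlgClosed k]

/-- an endomorphism with a two-sided inverse -/
noncomputable def mkAut (φ ψ : P.FF →+* P.FF) (h1 : φ.comp ψ = RingHom.id _)
    (h2 : ψ.comp φ = RingHom.id _) : RingAut P.FF := RingEquiv.ofRingHom φ ψ h1 h2

theorem mkAut_apply (φ ψ : P.FF →+* P.FF) (h1 h2) (z : P.FF) : P.mkAut φ ψ h1 h2 z = φ z := rfl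

theorem aut_ext {φ ψ : RingAut P.FF} (hk : ∀ a : k, φ (P.ι a) = ψ (P.ι a))
    (h1 : φ P.M1 = ψ P.M1) (h2 : φ P.M2 = ψ P.M2) (hY : φ P.Y = ψ P.Y) : φ = ψ :=
  RingEquiv.ext fun z => DFunLike.congr_fun
    (P.hom_ext (φ := (φ : P.FF →+* P.FF)) (ψ := (ψ : P.FF →+* P.FF)) hk h1 h2 hY) z

theorem mul_ap (φ ψ : RingAut P.FF) (z : P.FF) : (φ * ψ) z = φ (ψ z) := rfl
theorem one_ap (z : P.FF) : (1 : RingAut P.FF) z = z := rfl

/-! ### `tau` -/

theorem exists_tau' : ∃ e : RingAut P.FF,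
    P.Vals (e : P.FF →+* P.FF) (RingHom.id k) P.M1 P.M3 P.M2 P.Y := by
  obtain ⟨φ, h⟩ := P.exists_tau
  have h1 : φ.comp φ = RingHom.id _ :=
    P.hom_ext (fun a => by simp [h.c]) (by simp [h.m1]) (by simp [h.m2, h.m3]) (by simp [h.y])
  exact ⟨P.mkAut φ φ h1 h1, h⟩

/-- the transposition of `M2` and `M3` -/
noncomputable def tau : RingAut P.FF := P.exists_tau'.choose

theorem tau_c (a : k) : P.tau (P.ι a) = P.ι a := P.exists_tau'.choose_spec.c a
theorem tau_M1 : P.tau P.M1 = P.M1 := P.exists_tau'.choose_spec.m1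
theorem tau_M2 : P.tau P.M2 = P.M3 := P.exists_tau'.choose_spec.m2
theorem tau_M3 : P.tau P.M3 = P.M2 := P.exists_tau'.choose_spec.m3
theorem tau_Y : P.tau P.Y = P.Y := P.exists_tau'.choose_spec.y
theorem tau_N : P.tau P.N = P.N := by
  rw [N, map_add, map_add, tau_M1, tau_M2, tau_M3]; ring
theorem tau_De : P.tau P.De = -P.De := by
  simp only [De, map_mul, map_sub, tau_M1, tau_M2, tau_M3]; ring

/-! ### `rho` -/

theorem exists_rho' : ∃ e : RingAut P.FF,
    P.Vals (e : P.FF →+* P.FF) (RingHom.id k) P.M2 P.M3 P.M1 P.Y := by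
  obtain ⟨φ, h⟩ := P.exists_rho
  have h1 : φ.comp (φ.comp φ) = RingHom.id _ :=
    P.hom_ext (fun a => by simp [h.c]) (by simp [h.m1, h.m2, h.m3]) (by simp [h.m1, h.m2, h.m3])
      (by simp [h.y])
  exact ⟨P.mkAut φ (φ.comp φ) h1 h1, h⟩

/-- the cyclic permutation of the roots -/
noncomputable def rho : RingAut P.FF := P.exists_rho'.choose

theorem rho_c (a : k) : P.rho (P.ι a) = P.ι a := P.exists_rho'.choose_spec.c a
theorem rho_M1 : P.rho P.M1 = P.M2 := P.exists_rho'.choose_spec.m1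
theorem rho_M2 : P.rho P.M2 = P.M3 := P.exists_rho'.choose_spec.m2
theorem rho_M3 : P.rho P.M3 = P.M1 := P.exists_rho'.choose_spec.m3
theorem rho_Y : P.rho P.Y = P.Y := P.exists_rho'.choose_spec.y
theorem rho_N : P.rho P.N = P.N := by
  rw [N, map_add, map_add, rho_M1, rho_M2, rho_M3]; ring
theorem rho_De : P.rho P.De = P.De := by
  simp only [De, map_mul, map_sub, rho_M1, rho_M2, rho_M3]; ring

/-! ### `iota` -/

theorem exists_iota' : ∃ e : RingAut P.FF, P.Vals (e : P.FF →+* P.FF) (RingHom.id k)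
    (-P.M1) (-P.M2) (-P.M3) (P.ι P.i * P.Y) := by
  obtain ⟨φ, h⟩ := P.exists_iota
  have hi := P.ιi_sq
  have h1 : φ.comp (φ.comp (φ.comp φ)) = RingHom.id _ :=
    P.hom_ext (fun a => by simp [h.c]) (by simp [h.m1]) (by simp [h.m2]) (by
      simp only [RingHom.comp_apply, h.y, map_mul, h.c, RingHom.id_apply]
      linear_combination (P.ι P.i ^ 2 - 1) * P.Y * hi)
  exact ⟨P.mkAut φ (φ.comp (φ.comp φ)) h1 h1, h⟩

/-- the automorphism of order four -/
noncomputable def iota : RingAut P.FF := P.exists_iota'.choose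

theorem iota_c (a : k) : P.iota (P.ι a) = P.ι a := P.exists_iota'.choose_spec.c a
theorem iota_M1 : P.iota P.M1 = -P.M1 := P.exists_iota'.choose_spec.m1
theorem iota_M2 : P.iota P.M2 = -P.M2 := P.exists_iota'.choose_spec.m2
theorem iota_M3 : P.iota P.M3 = -P.M3 := P.exists_iota'.choose_spec.m3
theorem iota_Y : P.iota P.Y = P.ι P.i * P.Y := P.exists_iota'.choose_spec.y
theorem iota_N : P.iota P.N = -P.N := by
  rw [N, map_add, map_add, iota_M1, iota_M2, iota_M3]; ring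
theorem iota_De : P.iota P.De = -P.De := by
  simp only [De, map_mul, map_sub, iota_M1, iota_M2, iota_M3]; ring

/-! ### relations -/

theorem tau_sq : P.tau * P.tau = 1 :=
  P.aut_ext (fun a => by simp only [mul_ap, one_ap, tau_c]) (by simp only [mul_ap, one_ap, tau_M1])
    (by simp only [mul_ap, one_ap, tau_M2, tau_M3]) (by simp only [mul_ap, one_ap, tau_Y])

theorem rho_cube : P.rho * P.rho * P.rho = 1 :=
  P.aut_ext (fun a => by simp only [mul_ap, one_ap, rho_c])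
    (by simp only [mul_ap, one_ap, rho_M1, rho_M2, rho_M3])
    (by simp only [mul_ap, one_ap, rho_M1, rho_M2, rho_M3]) (by simp only [mul_ap, one_ap, rho_Y])

theorem tau_rho : P.tau * P.rho = P.rho * P.rho * P.tau :=
  P.aut_ext (fun a => by simp only [mul_ap, rho_c, tau_c])
    (by simp only [mul_ap, rho_M1, rho_M2, tau_M1, tau_M2])
    (by simp only [mul_ap, rho_M1, rho_M2, rho_M3, tau_M2, tau_M3])
    (by simp only [mul_ap, rho_Y, tau_Y])

theorem iota_tau : P.iota * P.tau = P.tau * P.iota :=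
  P.aut_ext (fun a => by simp only [mul_ap, iota_c, tau_c])
    (by simp only [mul_ap, iota_M1, tau_M1, map_neg])
    (by simp only [mul_ap, iota_M2, iota_M3, tau_M2, map_neg])
    (by simp only [mul_ap, iota_Y, tau_Y, map_mul, tau_c])

theorem iota_rho : P.iota * P.rho = P.rho * P.iota :=
  P.aut_ext (fun a => by simp only [mul_ap, iota_c, rho_c])
    (by simp only [mul_ap, iota_M1, iota_M2, rho_M1, map_neg])
    (by simp only [mul_ap, iota_M2, iota_M3, rho_M2, map_neg])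
    (by simp only [mul_ap, iota_Y, rho_Y, map_mul, rho_c])

theorem iota2_c (a : k) : (P.iota * P.iota) (P.ι a) = P.ι a := by simp only [mul_ap, iota_c]
theorem iota2_M1 : (P.iota * P.iota) P.M1 = P.M1 := by simp only [mul_ap, iota_M1, map_neg, neg_neg]
theorem iota2_M2 : (P.iota * P.iota) P.M2 = P.M2 := by simp only [mul_ap, iota_M2, map_neg, neg_neg]
theorem iota2_M3 : (P.iota * P.iota) P.M3 = P.M3 := by simp only [mul_ap, iota_M3, map_neg, neg_neg]
theorem iota2_Y : (P.iota * P.iota) P.Y = -P.Y := by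
  simp only [mul_ap, iota_Y, map_mul, iota_c]
  linear_combination P.Y * P.ιi_sq

theorem iota_four : P.iota * P.iota * (P.iota * P.iota) = 1 :=
  P.aut_ext (fun a => by rw [mul_ap, iota2_c, iota2_c, one_ap])
    (by rw [mul_ap, iota2_M1, iota2_M1, one_ap]) (by rw [mul_ap, iota2_M2, iota2_M2, one_ap])
    (by rw [mul_ap, iota2_Y, map_neg, iota2_Y, neg_neg, one_ap])

/-! ### inversions -/

/-- `e` is an inversion with constants `ν`, `θ` -/
structure IsInv (e : P.FF →+* P.FF) (ν θ : k) : Prop where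
  m1 : e P.M1 = P.ι ν / P.M1
  m2 : e P.M2 = P.ι ν / P.M2
  m3 : e P.M3 = P.ι ν / P.M3
  y : e P.Y = P.ι θ * P.De / (2 * P.N * P.Y)

variable {P}

theorem IsInv.n {e : P.FF →+* P.FF} {ν θ : k} (h : P.IsInv e ν θ) :
    e P.N = P.ι ν * P.ι P.c / P.N := by
  rw [N, map_add, map_add, h.m1, h.m2, h.m3]
  exact P.rel.inv_sum P.M1_ne P.M2_ne P.M3_ne (P.ι_ne P.hg0) P.N_ne _

theorem IsInv.de {e : P.FF →+* P.FF} {ν θ : k} (h : P.IsInv e ν θ) :
    e P.De = -(P.ι ν ^ 3 * P.De / (P.ι P.g0 * P.N) ^ 2) := by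
  simp only [De, map_mul, map_sub, h.m1, h.m2, h.m3]
  exact P.rel.inv_de P.M1_ne P.M2_ne P.M3_ne _

variable (P)

theorem De_ne : P.De ≠ 0 := by
  have h1 := P.M2_ne_M3
  have h2 : P.M3 ≠ P.M1 := fun h => h1 (P.rho.injective (by rw [rho_M2, rho_M3, h]))
  have h3 : P.M1 ≠ P.M2 := fun h => h2 (P.rho.injective (by rw [rho_M1, rho_M3, h]))
  exact mul_ne_zero (mul_ne_zero (sub_ne_zero.2 h3) (sub_ne_zero.2 h1)) (sub_ne_zero.2 h2)

variable {P}

/-- the composition of two inversions on `Y` -/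
theorem IsInv.yy {e e' : P.FF →+* P.FF} {ν θ ν' θ' θ'' : k} (h : P.IsInv e ν θ)
    (h' : P.IsInv e' ν' θ') (hc : e (P.ι θ') = P.ι θ'') (hν : ν ≠ 0) (hθ : θ ≠ 0) :
    e (e' P.Y) = -(P.ι θ'' * P.ι ν ^ 2 / (P.ι θ * P.ι P.c * P.ι P.g0 ^ 2) * P.Y) := by
  rw [h'.y, map_div₀, map_mul, map_mul, map_mul, hc, h.de, h.n, h.y, map_ofNat]
  have := P.N_ne
  have := P.Y_ne
  have := P.De_ne
  have := P.two_ne
  have := P.ι_ne hν
  have := P.ι_ne hθ
  have := P.ι_ne P.c_ne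
  have := P.ι_ne P.hg0
  field_simp

theorem IsInv.mm {e : P.FF →+* P.FF} {ν : k} (hc : e (P.ι ν) = P.ι ν) (hν : ν ≠ 0) {M : P.FF}
    (h : e M = P.ι ν / M) : e (P.ι ν / M) = M := by
  rw [map_div₀, hc, h]
  have := P.ι_ne hν
  field_simp

variable (P)

theorem exists_gam : ∃ (e : RingAut P.FF) (ν θ : k), (∀ a, e (P.ι a) = P.ι a) ∧
    θ ≠ 0 ∧ ν = -(θ ^ 2 / (P.c * P.b2)) ∧ θ ^ 4 = P.c ^ 3 * P.b2 ^ 2 * P.g0 ^ 2 ∧
    P.IsInv (e : P.FF →+* P.FF) ν θ := by
  obtain ⟨θ, hθ⟩ := IsAlgClosed.exists_pow_nat_eq (P.c ^ 3 * P.b2 ^ 2 * P.g0 ^ 2) (n := 4)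
    (by norm_num)
  have hc := P.c_ne
  have hb := P.b2_ne
  have hg := P.hg0
  have hθ0 : θ ≠ 0 := by
    rintro rfl
    exact mul_ne_zero (mul_ne_zero (pow_ne_zero 3 hc) (pow_ne_zero 2 hb)) (pow_ne_zero 2 hg)
      (by rw [← hθ]; ring)
  set ν := -(θ ^ 2 / (P.c * P.b2)) with hν
  have hν0 : ν ≠ 0 := neg_ne_zero.2 (div_ne_zero (pow_ne_zero 2 hθ0) (mul_ne_zero hc hb))
  have hν2 : ν ^ 2 = P.c * P.g0 * P.g0 := by
    rw [hν]; field_simp; linear_combination hθ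
  obtain ⟨φ, h⟩ := P.exists_inv (RingHom.id k) rfl (ν := ν) (θ := θ) hν2
    (by rw [hν, RingHom.id_apply]; field_simp)
  have hI : P.IsInv φ ν θ := ⟨h.m1, h.m2, h.m3, h.y⟩
  have hy : φ (φ P.Y) = -P.Y := by
    rw [hI.yy hI (h.c θ) hν0 hθ0, RingHom.id_apply, ← map_pow, hν2]
    have := P.ι_ne hθ0
    have := P.ι_ne hc
    have := P.ι_ne hg
    simp only [map_mul]
    field_simp
  have h1 : φ (φ P.M1) = P.M1 := by rw [h.m1]; exact IsInv.mm (h.c ν) hν0 h.m1
  have h2 : φ (φ P.M2) = P.M2 := by rw [h.m2]; exact IsInv.mm (h.c ν) hν0 h.m2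
  have h4 : φ.comp (φ.comp (φ.comp φ)) = RingHom.id _ :=
    P.hom_ext (fun a => by simp [h.c]) (by simp [h1]) (by simp [h2]) (by simp [hy])
  exact ⟨P.mkAut φ (φ.comp (φ.comp φ)) h4 h4, ν, θ, h.c, hθ0, rfl, hθ, hI⟩

variable {P}

/-- an inversion commutes with `rho` -/
theorem IsInv.comm_rho {e : RingAut P.FF} {ν θ : k} (h : P.IsInv (e : P.FF →+* P.FF) ν θ)
    (hc : ∀ a, ∃ b, e (P.ι a) = P.ι b) : e * P.rho = P.rho * e := by
  have h1 : e P.M1 = _ := h.m1
  have h2 : e P.M2 = _ := h.m2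
  have h3 : e P.M3 = _ := h.m3
  have h4 : e P.Y = _ := h.y
  refine P.aut_ext (fun a => ?_) ?_ ?_ ?_
  · obtain ⟨b, hb⟩ := hc a
    simp only [mul_ap, rho_c, hb]
  · simp only [mul_ap, rho_M1, h1, h2, map_div₀, rho_c]
  · simp only [mul_ap, rho_M2, h2, h3, map_div₀, rho_c]
  · simp only [mul_ap, rho_Y, h4, map_div₀, map_mul, rho_c, rho_De, rho_N, map_ofNat]

/-- an inversion anticommutes with `tau` -/
theorem IsInv.comm_tau {e : RingAut P.FF} {ν θ : k} (h : P.IsInv (e : P.FF →+* P.FF) ν θ)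
    (hc : ∀ a, ∃ b, e (P.ι a) = P.ι b) : P.tau * e = e * P.tau * (P.iota * P.iota) := by
  have h1 : e P.M1 = _ := h.m1
  have h2 : e P.M2 = _ := h.m2
  have h3 : e P.M3 = _ := h.m3
  have h4 : e P.Y = _ := h.y
  refine P.aut_ext (fun a => ?_) ?_ ?_ ?_
  · obtain ⟨b, hb⟩ := hc a
    rw [mul_ap, mul_ap, iota2_c, mul_ap, tau_c, hb, tau_c]
  · rw [mul_ap, mul_ap, iota2_M1, mul_ap, tau_M1, h1, map_div₀, tau_c, tau_M1]
  · rw [mul_ap, mul_ap, iota2_M2, mul_ap, tau_M2, h2, h3, map_div₀, tau_c, tau_M2]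
  · rw [mul_ap, mul_ap, iota2_Y, mul_ap, map_neg, tau_Y, map_neg, h4]
    simp only [map_div₀, map_mul, tau_c, tau_De, tau_N, tau_Y, map_ofNat]
    ring

/-- an inversion and `iota`: the case of a linear inversion -/
theorem IsInv.iota_lin {e : RingAut P.FF} {ν θ : k} (h : P.IsInv (e : P.FF →+* P.FF) ν θ)
    (hc : ∀ a, e (P.ι a) = P.ι a) : P.iota * e * P.iota = e := by
  have h1 : e P.M1 = _ := h.m1
  have h2 : e P.M2 = _ := h.m2
  have h4 : e P.Y = _ := h.y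
  refine P.aut_ext (fun a => ?_) ?_ ?_ ?_
  · simp only [mul_ap, iota_c, hc]
  · simp only [mul_ap, iota_M1, h1, map_neg, map_div₀, iota_c, div_neg, neg_neg]
  · simp only [mul_ap, iota_M2, h2, map_neg, map_div₀, iota_c, div_neg, neg_neg]
  · simp only [mul_ap, iota_Y, h4, map_div₀, map_mul, iota_c, hc, iota_De, iota_N, map_ofNat]
    have := P.N_ne
    have := P.Y_ne
    have := P.two_ne
    have := P.ι_ne P.i_ne
    field_simp

/-- an inversion and `iota`: the case of an antilinear inversion -/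
theorem IsInv.iota_anti {e : RingAut P.FF} {ν θ : k} (h : P.IsInv (e : P.FF →+* P.FF) ν θ)
    (hc : ∀ a, ∃ b, e (P.ι a) = P.ι b) (hi : e (P.ι P.i) = -P.ι P.i) :
    e * P.iota = P.iota * e := by
  have h1 : e P.M1 = _ := h.m1
  have h2 : e P.M2 = _ := h.m2
  have h4 : e P.Y = _ := h.y
  refine P.aut_ext (fun a => ?_) ?_ ?_ ?_
  · obtain ⟨b, hb⟩ := hc a
    simp only [mul_ap, iota_c, hb]
  · simp only [mul_ap, iota_M1, h1, map_neg, map_div₀, iota_c, div_neg]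
  · simp only [mul_ap, iota_M2, h2, map_neg, map_div₀, iota_c, div_neg]
  · simp only [mul_ap, iota_Y, h4, map_div₀, map_mul, iota_c, hi, iota_De, iota_N, map_ofNat]
    have := P.N_ne
    have := P.Y_ne
    have := P.two_ne
    have := P.ι_ne P.i_ne
    field_simp
    linear_combination (-(P.ι θ * P.De)) * P.ιi_sq

end Par

end Vale.Agent.P027M.F
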