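import Vale.Agent.P027M.F.Defs
import Vale.Agent.P027M.F.Abs1

/-! # P027 route M, block F: the statement of the bridge to the abstract Tate modules -/

set_option linter.all false

noncomputable section

namespace Vale.Agent.P027M.F

open Vale.Agent.P019P P025H816 _root_.P027M.K

/-- `D` is realised on the Tate modules of `FF`, `FC`, `FE` -/
structure IsTD {k : Type} [Field k] [IsAlgClosed k] [NeZero ((3 : ℕ) : k)] (P : Par k) {G : Type}
    [Group G] (R : G →* SL k P.FF) (D : TD G P.H (TT 3 k P.FC) (TT 3 k P.FE)) : Prop where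
  hι : ∀ x, D.ι x = P.aI x
  hρ : ∀ x, D.ρ x = P.aR x
  hτ : ∀ x, D.τ x = P.aT x
  hr : ∀ t x, D.r t x = act 3 k P.FF (R t) x
  hK : ∀ t, t ∈ D.K ↔ res0 (R t) P.i = P.i
  hc : ∀ t, D.cyc t = (cyc0 3 k (res0 (R t)) : ℤ_[3])
  hjC : ∀ x, D.jC x = jT 3 k P.FC P.FF x
  hjE : ∀ x, D.jE x = jT 3 k P.FE P.FF x
  h4 : ∀ t ∈ D.K, D.r (t ^ 4) * D.γ = D.γ * D.r (t ^ 4)

/-- [F.BR] -/
def BR : Prop := ∀ (k : Type) [Field k] [IsAlgClosed k] [NeZero ((3 : ℕ) : k)] (P : Par k)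
  (T : Tw P) (G : Type) [Group G] (φ : G →* T.Sig) (R : G →* SL k P.FF),
  (∀ t, (R t : P.FF ≃+* P.FF) = T.rr (φ t)) → ∃ D, IsTD P R D

end Vale.Agent.P027M.F
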