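import Vale.Agent.P027M.F.Defs
import Vale.Agent.P027M.F.Dat

/-! # P027 route M, block F: the standard configuration -/

set_option linter.all false

noncomputable section

namespace Vale.Agent.P027M.F

open NumberField Vale.Agent.P022

/-- the configuration attached to arithmetic data and a square root of `-1` -/
def Dat.cfg {g : ℚ} (d : Dat g) {i : 𝓞 Qb} (hi : i ^ 2 = -1) : Cfg g where
  d := d
  i := i
  P := d.P hi
  T := d.T hi
  s := d.sig hi
  hi := hi
  P_i := rfl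
  P_g := rfl
  P_D := d.par_D _ _
  hs _ _ := rfl

theorem Dat.cfg_r {g : ℚ} (d : Dat g) {i : 𝓞 Qb} (hi : i ^ 2 = -1) : (d.cfg hi).r = d.r hi := rfl

theorem Dat.lev_eq_lev {g : ℚ} (d : Dat g) : d.lev = F.lev g := rfl

theorem exists_i : ∃ i : 𝓞 Qb, i ^ 2 = -1 := by
  obtain ⟨z, hz⟩ := IsAlgClosed.exists_pow_nat_eq (-1 : Qb) (n := 2) (by norm_num)
  have : IsIntegral ℤ z := IsIntegral.of_pow (n := 2) (by norm_num) (by
    rw [hz]; exact isIntegral_one.neg)
  exact ⟨⟨z, this⟩, Subtype.ext hz⟩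

theorem cfg (h : ARITH) : CFG := fun g hg => by
  obtain ⟨d⟩ := h g hg
  obtain ⟨i, hi⟩ := exists_i
  exact ⟨d.cfg hi⟩

end Vale.Agent.P027M.F
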