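import Vale.Agent.P027M.F.Cfg
import Vale.Agent.P027M.F.Arith
import Vale.Agent.P027M.FA.Unit
import Vale.Agent.P027M.D.Fc

/-! # P027 route M, block F: the standard configuration, with all the facts for the top -/

set_option linter.all false

noncomputable section

namespace Vale.Agent.P027M.F

open NumberField Vale.Agent.P022

namespace Cfg2

theorem g_pos {g : ℚ} (hg : Std g) : 0 < g := by
  have := (abs_lt.1 hg.real).1
  rw [g0] at this
  linarith

theorem good {g : ℚ} (d : Dat g) {p : ℕ} (hp : p = 11 ∨ p = 23) : ¬ p ∣ 7 * 19 * Vis g := by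
  have h1 : p.Prime := by rcases hp with rfl | rfl <;> norm_num
  intro h
  rcases (Nat.Prime.dvd_mul h1).1 h with h | h
  · rcases hp with rfl | rfl <;> omega
  · obtain ⟨q, hq, h2⟩ := (Prime.dvd_finset_prod_iff h1.prime _).1 h
    obtain ⟨h3, -, h4⟩ := d.visp q hq
    obtain rfl := (Nat.prime_dvd_prime_iff_eq h1 h3).1 h2
    omega

theorem goodP {g : ℚ} (d : Dat g) {p : ℕ} (hp : p = 11 ∨ p = 23) : GoodP (lev g) p := by
  have h1 : p.Prime := by rcases hp with rfl | rfl <;> norm_num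
  refine ⟨h1, fun h => ?_⟩
  rw [lev] at h
  rcases (Nat.Prime.dvd_mul h1).1 h with h | h
  · rcases hp with rfl | rfl <;> omega
  · rcases (Nat.Prime.dvd_mul h1).1 h with h | h
    · rcases hp with rfl | rfl <;> omega
    · exact good d hp h

variable {O : ValuationSubring Qb}

theorem val_shift {g : ℚ} (hg : Std g) {p : ℕ} (hp : p = 11 ∨ p = 23)
    (hv : O.valuation (p : Qb) < 1) (a : Qb) (n : ℕ) (hn : ¬ p ∣ n)
    (h : 17689 + a * 16729 = n ∨ 17689 + a * 16729 = -n) : O.valuation ((g : Qb) + a) = 1 := by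
  have h1 : p.Prime := by rcases hp with rfl | rfl <;> norm_num
  obtain ⟨u, hu, hc⟩ := hg.loc
  obtain ⟨W, hW⟩ : p ∣ W0 := by rcases hp with rfl | rfl <;> norm_num [W0]
  have d1 := FA.UnitP.val_nat O h1 hv (B := u.den) fun h =>
    h1.one_lt.ne' (Nat.eq_one_of_dvd_coprimes hc h ⟨W, hW⟩)
  have d2 := FA.UnitP.val_nat O h1 hv (B := 16729) (by rcases hp with rfl | rfl <;> norm_num)
  have d3 := FA.UnitP.val_nat O h1 hv hn
  have d4 : O.valuation ((17689 + a * 16729) / ((16729 : ℕ) : Qb)) = 1 := by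
    rw [map_div₀, d2, div_one]
    rcases h with h | h
    · rw [h, d3]
    · rw [h, Valuation.map_neg, d3]
  have d5 : O.valuation ((p : Qb) * ((W : ℤ) * (u.num / u.den))) < 1 := by
    rw [map_mul, map_mul, map_div₀, d1, div_one]
    exact mul_lt_one_of_lt_of_le hv (mul_le_one' (D.Fc.int_le _) (D.Fc.int_le _))
  have e : (g : Qb) + a = (17689 + a * 16729) / ((16729 : ℕ) : Qb) +
      (p : Qb) * ((W : ℤ) * (u.num / u.den)) := by
    rw [← Rat.cast_def, hu, g0, hW]
    push_cast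
    ring
  rw [e, Valuation.map_add_eq_of_lt_left _ (by rwa [d4]), d4]

theorem unit {g : ℚ} (hg : Std g) (d : Dat g) {i : 𝓞 Qb} (hi : i ^ 2 = -1) {p : ℕ}
    (hp : p = 11 ∨ p = 23) : FA.Unit (d.cfg hi) p := by
  intro O hv
  have h1 : p.Prime := by rcases hp with rfl | rfl <;> norm_num
  have hi' := coe_sq hi
  have s := fun a n hn h => val_shift hg hp hv a n hn h
  have v2 : O.valuation 2 = 1 := by
    exact_mod_cast FA.UnitP.val_nat O h1 hv (B := 2) (by rcases hp with rfl | rfl <;> norm_num)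
  have v3 : O.valuation 3 = 1 := by
    exact_mod_cast FA.UnitP.val_nat O h1 hv (B := 3) (by rcases hp with rfl | rfl <;> norm_num)
  have v4 : O.valuation 4 = 1 := by rw [show (4 : Qb) = 2 * 2 by norm_num, map_mul, v2, one_mul]
  have a0 : O.valuation (g : Qb) = 1 := by
    simpa using s 0 17689 (by rcases hp with rfl | rfl <;> norm_num) (by norm_num)
  have a1 := s 1 34418 (by rcases hp with rfl | rfl <;> norm_num) (by norm_num)
  have a3 : O.valuation (3 - (g : Qb)) = 1 := by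
    rw [← Valuation.map_neg, neg_sub, sub_eq_add_neg]
    exact s (-3) 32498 (by rcases hp with rfl | rfl <;> norm_num) (by norm_num)
  have a4 : O.valuation ((g : Qb) - 1) = 1 := by
    rw [sub_eq_add_neg]
    exact s (-1) 960 (by rcases hp with rfl | rfl <;> norm_num) (by norm_num)
  have a5 := s 3 67876 (by rcases hp with rfl | rfl <;> norm_num) (by norm_num)
  have vb : O.valuation ((b2 g : ℚ) : Qb) = 1 := by
    rw [Dat.b2_cast, b2, map_div₀, map_mul, map_pow, map_pow, v4, a0, a1]; simp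
  have vc : O.valuation ((c3 g : ℚ) : Qb) = 1 := by
    rw [Dat.c3_cast, c3, map_div₀, map_mul, a0, a1, a3]; simp
  have vm : O.valuation (gi (i : Qb) d.m * gi (i : Qb) (star d.m)) = 1 := by
    rw [gi_mul_star hi', d.normm, Int.cast_natCast]
    exact FA.UnitP.val_nat O h1 hv (good d hp)
  have m1 := D.Fc.one_of_mul (D.Fc.gi_le hi' _) (D.Fc.gi_le hi' _) vm
  have m2 : O.valuation (gi (i : Qb) (star d.m)) = 1 :=
    D.Fc.one_of_mul (D.Fc.gi_le hi' _) (D.Fc.gi_le hi' _) (by rwa [mul_comm] at vm)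
  have b1 : O.valuation (gi (i : Qb) d.β) = 1 :=
    D.Fc.val_dvd hi' d.dvd_m (by rw [gi_pow hi', map_pow, m1, one_pow])
  have b2' : O.valuation (gi (i : Qb) (star d.β)) = 1 :=
    D.Fc.val_dvd hi' (map_dvd (starRingEnd _) d.dvd_m) (by
      rw [map_pow, gi_pow hi', map_pow, starRingEnd_apply, m2, one_pow])
  have vn : O.valuation ((d.β.norm : ℤ) : Qb) = 1 := by
    rw [← gi_mul_star hi', map_mul, b1, b2', one_mul]
  have vz : O.valuation (d.z : Qb) = 1 := by
    rw [d.hc] at vc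
    push_cast at vc
    rw [map_mul, vn, one_mul, map_pow] at vc
    exact (pow_eq_one_iff_left (n := 4) (by norm_num)).1 vc
  have vν : O.valuation (d.ν : Qb) = 1 := by
    rw [Dat.ν]
    push_cast
    rw [map_div₀, map_mul, map_pow, map_pow, vn, vz, vb]; simp
  have vx : O.valuation (d.x : Qb) = 1 := by
    rw [Dat.x]
    push_cast
    rw [map_mul, map_mul, vν, vn, vz]; simp
  have g1 : O.valuation (gi (i : Qb) d.D / ((b2 g : ℚ) : Qb)) = 1 := by
    rw [map_div₀, vb, Dat.D, gi_pow hi', map_pow, b1]; simp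
  have g2 : O.valuation (gi (i : Qb) (star d.D) / ((b2 g : ℚ) : Qb)) = 1 := by
    rw [map_div₀, vb, Dat.D, star_pow, gi_pow hi', map_pow, b2']; simp
  simp only [List.forall_mem_cons, List.not_mem_nil, false_imp_iff, implies_true, and_true]
  exact ⟨v2, v3, a0, a1, a3, a4, a5, g1, g2, vν, vx⟩

theorem ν_pos {g : ℚ} (hg : Std g) (d : Dat g) : 0 < d.ν := by
  have h1 := g_pos hg
  have h2 : (0 : ℚ) < d.β.norm := by exact_mod_cast d.norm_pos
  have h3 := d.hz
  rw [Dat.ν, b2]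
  positivity

theorem ν_sq {g : ℚ} (d : Dat g) : d.ν ^ 2 * b2 g ^ 2 = c3 g * (d.β ^ 3).norm := by
  have := d.b2_ne
  rw [show (d.β ^ 3).norm = _ from d.norm_D, d.hc, Dat.ν]
  push_cast
  field_simp

end Cfg2

/-- the facts on the standard configuration -/
structure Cfg.Top {g : ℚ} (X : Cfg g) (ν x : ℚ) : Prop where
  u11 : FA.Unit X 11
  u23 : FA.Unit X 23
  g11 : GoodP (lev g) 11
  g23 : GoodP (lev g) 23
  pos : 0 < ν
  hν : X.T.ν = ν
  hx : X.T.x = x
  g0 : X.P.g0 = gi (X.i : Qb) (X.d.β ^ 3) / ((b2 g : ℚ) : Qb)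
  g0' : X.T.g0' = gi (X.i : Qb) (star (X.d.β ^ 3)) / ((b2 g : ℚ) : Qb)
  sq : ν ^ 2 * b2 g ^ 2 = c3 g * (X.d.β ^ 3).norm

/-- **the configuration with a prescribed square root of `-1`** -/
theorem cfg2 (g : ℚ) (hg : Std g) (i : 𝓞 Qb) (hi : i ^ 2 = -1) :
    ∃ (X : Cfg g) (ν x : ℚ), X.i = i ∧ X.Top ν x := by
  obtain ⟨d⟩ := arith g hg
  exact ⟨d.cfg hi, d.ν, d.x, rfl, Cfg2.unit hg d hi (Or.inl rfl), Cfg2.unit hg d hi (Or.inr rfl),
    Cfg2.goodP d (Or.inl rfl), Cfg2.goodP d (Or.inr rfl), Cfg2.ν_pos hg d, rfl, rfl, rfl, rfl,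
    Cfg2.ν_sq d⟩

end Vale.Agent.P027M.F
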