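import Vale.Agent.P027M.Defs
import Vale.Agent.P022.H20.GalDef

/-!
# P027, route M, block F5: the character on the points of order three of `y^2 = x^3 - D x`
-/

set_option linter.all false

noncomputable section

namespace Vale.Agent.P027M.F

open NumberField Vale.Agent.P022

/-- the Gaussian integer `i` -/
def gI : GaussianInt := ⟨0, 1⟩

/-- a point of order three of `y^2 = x^3 - D x` -/
structure Pt {k : Type*} [Field k] (D : k) (p : k × k) : Prop where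
  q : 3 * p.1 ^ 4 - 6 * D * p.1 ^ 2 - D ^ 2 = 0
  e : p.2 ^ 2 = p.1 ^ 3 - D * p.1

/-- the slope of the line through `(x, y)` and `(-x, i y)` -/
def sl {k : Type*} [Field k] (i : k) (p : k × k) : k := (1 - i) * p.2 / (2 * p.1)

/-- the sum of `(x, y)` and `(-x, i y)` : multiplication by `1 + i` -/
def mu {k : Type*} [Field k] (i : k) (p : k × k) : k × k :=
  (sl i p ^ 2, sl i p * (p.1 - sl i p ^ 2) - p.2)

/-- the stabiliser of `i` acts on the points by `(1 + i) ^ θ` -/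
def IsChi (i : 𝓞 Qb) (D : GaussianInt) (θ : GQ → ZMod 8) : Prop :=
  ∀ g : GQ, g i = i → ∀ p : Qb × Qb, Pt (gi (i : Qb) D) p →
    (g p.1, g p.2) = (mu (i : Qb))^[(θ g).val] p

/-- a character of the stabiliser of `i` with open kernel -/
structure Chr (i : 𝓞 Qb) (θ : GQ → ZMod 8) : Prop where
  add : ∀ g h : GQ, g i = i → h i = i → θ (g * h) = θ g + θ h
  opn : ∃ U : Subgroup GQ, IsOpen (U : Set GQ) ∧ ∀ g ∈ U, g i = i ∧ θ g = 0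

/-- unramified outside `2 m` -/
def Unr (i : 𝓞 Qb) (θ : GQ → ZMod 8) (m : GaussianInt) : Prop :=
  ∀ P : Ideal (𝓞 Qb), P.IsPrime → gi i (2 * m) ∉ P → ∀ g : GQ, g i = i →
    (∀ x : 𝓞 Qb, g • x - x ∈ P) → θ g = 0

/-- `g` is a Frobenius element at `P` over the Gaussian prime `π` -/
def FrG (i : 𝓞 Qb) (π : GaussianInt) (P : Ideal (𝓞 Qb)) (g : GQ) : Prop :=
  P.IsPrime ∧ gi i π ∈ P ∧ g i = i ∧ ∀ x : 𝓞 Qb, g • x - x ^ π.norm.natAbs ∈ P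

/-- the Artin symbol of `θ` on nonzero Gaussian integers -/
structure Sym (i : 𝓞 Qb) (θ : GQ → ZMod 8) (m : GaussianInt) (F : GaussianInt → ZMod 8) :
    Prop where
  mul : ∀ a b, a ≠ 0 → b ≠ 0 → F (a * b) = F a + F b
  unit : ∀ u, IsUnit u → F u = 0
  frob : ∀ π P g, Prime π → ¬ π ∣ 2 * m → FrG i π P g → F π = θ g
  ray : ∀ a, a ≠ 0 → (128 : GaussianInt) ∣ a - 1 → (∀ π, Prime π → π ∣ m → π ∣ a - 1) → F a = 0

/-- the finite part `ξ` (modulus `M`) of the Hecke character `α ↦ α / ξ α` attached to `θ` -/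
structure Xi (i : 𝓞 Qb) (θ : GQ → ZMod 8) (M : GaussianInt)
    (ξ : GaussianInt →* GaussianInt) : Prop where
  per : ∀ a b, M ∣ a - b → ξ a = ξ b
  four : ∀ a, IsCoprime a M → ξ a ^ 4 = 1
  zero : ∀ a, ¬ IsCoprime a M → ξ a = 0
  ii : ξ gI = gI
  frob : ∀ π P g, Prime π → ¬ π ∣ 3 * M → FrG i π P g →
    (3 : GaussianInt) ∣ (1 + gI) ^ (θ g).val * ξ π - π

/-! ### the blocks -/

/-- reciprocity over the Gaussian field -/
def RECG : Prop := ∀ i : 𝓞 Qb, i ^ 2 = -1 → (∀ π, Prime π → ∃ P g, FrG i π P g) ∧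
  ∀ (θ : GQ → ZMod 8) (m : GaussianInt), Chr i θ → m ≠ 0 → Unr i θ m → ∃ F, Sym i θ m F

/-- the algebra of the eight points (any field with `6 ≠ 0`) -/
def ALG : Prop := ∀ (k : Type) [Field k] (i D : k) (p : k × k), (6 : k) ≠ 0 → i ^ 2 = -1 →
  D ≠ 0 → Pt D p → p.1 ≠ 0 ∧ p.2 ≠ 0 ∧ Pt D (mu i p) ∧ mu i (mu i p) = (-p.1, -i * p.2) ∧
    mu (-i) p = (mu i)^[3] p ∧ (mu i p).1 ^ 2 = 2 * D - p.1 ^ 2 ∧
    16 * D ^ 3 * (mu i p).2 = (1 + i) * p.2 * (20 * D ^ 3 - 9 * p.2 ^ 4) ∧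
    27 * p.2 ^ 8 - 72 * D ^ 3 * p.2 ^ 4 - 16 * D ^ 6 = 0 ∧
    ((mu i p).1 ^ 2 + D) / (2 * (mu i p).1) = i * ((p.1 ^ 2 + D) / (2 * p.1)) ∧
    3 * ((p.1 ^ 2 + D) / (2 * p.1)) ^ 4 = 4 * D ^ 2 ∧
    (∀ q, Pt D q → ∃ n : ZMod 8, q = (mu i)^[n.val] p) ∧
    ∀ a b : ℕ, (mu i)^[a] p = (mu i)^[b] p ↔ (a : ZMod 8) = b

/-- the character exists, is unramified outside `6 D`, and is unique -/
def CHI : Prop := ∀ (i : 𝓞 Qb) (D : GaussianInt), i ^ 2 = -1 → D ≠ 0 →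
  (∃ p : Qb × Qb, Pt (gi (i : Qb) D) p) ∧ (∃ θ, IsChi i D θ) ∧
  ∀ θ, IsChi i D θ → Chr i θ ∧ Unr i θ (3 * D) ∧
    ∀ θ', IsChi i D θ' → ∀ g : GQ, g i = i → θ g = θ' g

/-- quartic twists, conjugation, and the quotient of the character by its conjugate -/
def TWI : Prop := ∀ (i : 𝓞 Qb) (D : GaussianInt) (θ θ₁ : GQ → ZMod 8), i ^ 2 = -1 → D ≠ 0 →
  IsChi i D θ → IsChi i 1 θ₁ →
  (∀ (δ : Qb) (g : GQ) (e : ℕ), δ ^ 4 = gi (i : Qb) D → g i = i → g δ = (i : Qb) ^ e * δ →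
    θ g = θ₁ g + 2 * e) ∧
  Unr i (fun g => θ g - θ₁ g) D ∧
  (∀ θ' : GQ → ZMod 8, IsChi i (star D) θ' → ∀ s g : GQ, s i = -i → g i = i →
    θ (s⁻¹ * g * s) = 3 * θ' g) ∧
  ∃ b : Qb, b ^ 4 = ((-3 * D.norm : ℤ) : Qb) ∧ ∀ (s g : GQ) (e : ℕ), s i = -i → g i = i →
    g b = (i : Qb) ^ e * b → θ g = θ (s⁻¹ * g * s) + 2 * e

/-- three Frobenius values and the parity -/
def FROB : Prop := ∀ (i : 𝓞 Qb) (θ : GQ → ZMod 8) (P : Ideal (𝓞 Qb)) (g : GQ), i ^ 2 = -1 →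
  (IsChi i 1 θ → (FrG i ⟨-1, 2⟩ P g → θ g = 5) ∧ (FrG i ⟨-1, -2⟩ P g → θ g = 7) ∧
    (FrG i ⟨3, 2⟩ P g → θ g = 2)) ∧
  ∀ D π : GaussianInt, D ≠ 0 → IsChi i D θ → Prime π → ¬ π ∣ 6 → FrG i π P g →
    (4 * θ g = 0 ↔ π.norm % 3 = 1)

/-- **the Hecke character** -/
def XI : Prop := ∀ (i : 𝓞 Qb) (D m : GaussianInt) (θ : GQ → ZMod 8), i ^ 2 = -1 → D ≠ 0 →
  IsCoprime m 3 → (∀ π, Prime π → π ∣ D → π ∣ m) → IsChi i D θ → ∃ ξ, Xi i θ (128 * m) ξ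

end Vale.Agent.P027M.F
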