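import Vale.Agent.P027M.F.ChiK
import Vale.Agent.P016Z.Sym.Art

/-! # P027M, block F5: Artin reciprocity over the Gaussian field -/

set_option linter.all false

noncomputable section

namespace Vale.Agent.P027M.F

open NumberField IsDedekindDomain Vale.Agent.P022 Vale.Agent.P022.C

variable {i : 𝓞 Qb}

/-- the character as a homomorphism -/
def chH (hi : i ^ 2 = -1) {θ : GQ → ZMod 8} (h : Chr i θ) :
    GK (jK hi) →* Multiplicative (ZMod 8) :=
  MonoidHom.mk' (fun g => Multiplicative.ofAdd (θ g)) fun g g' => by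
    rw [← ofAdd_add, ← h.add _ _ ((mem_GK hi _).1 g.2) ((mem_GK hi _).1 g'.2)]; rfl

theorem chH_open (hi : i ^ 2 = -1) {θ : GQ → ZMod 8} (h : Chr i θ) :
    IsOpen ((chH hi h).ker : Set (GK (jK hi))) := by
  obtain ⟨U, hU, hθ⟩ := h.opn
  refine Subgroup.isOpen_mono (H₁ := U.subgroupOf (GK (jK hi))) (fun g hg => ?_)
    (hU.preimage continuous_subtype_val)
  show Multiplicative.ofAdd (θ g) = 1
  rw [(hθ g hg).2]; rfl

theorem eK_ne {a : GaussianInt} (ha : a ≠ 0) : eK.symm a ≠ 0 := by simpa using ha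

theorem eK_ne' {a : GaussianInt} (ha : a ≠ 0) : ((eK.symm a : 𝓞 KK) : KK) ≠ 0 := by
  simpa using eK_ne ha

theorem supp_fin {a : GaussianInt} (ha : a ≠ 0) (f : HeightOneSpectrum (𝓞 KK) → ZMod 8) :
    (Function.support fun v => ordv v ((eK.symm a : 𝓞 KK) : KK) • f v).Finite := by
  refine (H48.finite_supp (eK_ne ha)).subset fun v hv h0 => hv ?_
  show ordv v ((eK.symm a : 𝓞 KK) : KK) • f v = 0
  rw [h0, zero_smul]

theorem recg : RECG := by
  intro i hi
  refine ⟨fun π h => exists_frG hi h, fun θ m hθ hm hu => ?_⟩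
  obtain ⟨L, _, _, _, hgal, jL, res, n', σ, g₀, D, hk, hcyc, hσ, hpow⟩ :=
    H916.exists_Cyc (jK hi) (φ := chH hi hθ) (chH_open hi hθ)
  have hall : ∀ g : GK (jK hi), ∃ e : ℕ, res g = σ ^ e := by
    intro g
    have hfd : FiniteDimensional KK L := Module.Finite.of_restrictScalars_finite ℚ KK L
    have hcard : Nat.card (L ≃ₐ[KK] L) = n' := by
      rw [IsGalois.card_aut_eq_finrank, hcyc.rank]
    have h1 : Subgroup.zpowers σ = ⊤ := by
      apply Subgroup.eq_top_of_card_eq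
      rw [Nat.card_zpowers, hcyc.ord, hcard]
    have h2 : res g ∈ Subgroup.zpowers σ := by rw [h1]; trivial
    rw [← mem_powers_iff_mem_zpowers] at h2
    obtain ⟨e, he⟩ := h2
    exact ⟨e, he.symm⟩
  have hcomm : ∀ s t : L ≃ₐ[KK] L, s * t = t * s := by
    intro s t
    obtain ⟨g, rfl⟩ := D.surj s
    obtain ⟨h, rfl⟩ := D.surj t
    obtain ⟨a, ha⟩ := hall g
    obtain ⟨b, hb⟩ := hall h
    rw [ha, hb, ← pow_add, ← pow_add, add_comm]
  have h8 : n' ∣ 2 ^ 3 := by
    rw [← hcyc.ord]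
    refine orderOf_dvd_of_pow_eq_one ?_
    have h1 : chH hi hθ 1 = chH hi hθ g₀ ^ 8 := by
      rw [map_one]
      generalize chH hi hθ g₀ = x
      revert x; decide
    rw [← map_one res]
    exact ((hpow 1 8).2 h1).symm
  obtain ⟨r, hr, rfl⟩ := (Nat.dvd_prime_pow Nat.prime_two).1 h8
  have hpt : ∀ e : ℕ, Multiplicative.toAdd (chH hi hθ g₀ ^ e) = e • θ g₀ := fun e => rfl
  have hA : ∀ v : HeightOneSpectrum (𝓞 KK), ∃ (a : ℕ) (Q : Ideal (𝓞 Qb)) (g : GK (jK hi)),
      FrI (jK hi) v Q g ∧ θ g = a • θ g₀ ∧ ∀ P : Ideal (𝓞 L), P.IsPrime → dn KK P = v.asIdeal →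
        Frob (σ ^ a) (Ideal.absNorm v.asIdeal) P := by
    intro v
    obtain ⟨Q, g, hF⟩ := H651.exists_frI (jK hi) v
    obtain ⟨a, ha⟩ := hall g
    refine ⟨a, Q, g, hF, ?_, fun P hP hPv => ?_⟩
    · rw [← hpt, ← (hpow g a).1 ha]; rfl
    · rw [← ha]
      exact H651.frob_all D hF hcomm hP hPv
  choose a Q fr hF ha1 ha2 using hA
  have hunit : ∀ u, IsUnit u →
      ∑ᶠ v, ordv v ((eK.symm u : 𝓞 KK) : KK) • θ (fr v) = 0 := by
    intro u hu'
    refine finsum_eq_zero_of_forall_eq_zero fun v => ?_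
    rw [H269.ordv_eq_zero v fun h => v.isPrime.ne_top
      (Ideal.eq_top_of_isUnit_mem _ h (hu'.map eK.symm)), zero_smul]
  refine ⟨fun x => ∑ᶠ v, ordv v ((eK.symm x : 𝓞 KK) : KK) • θ (fr v), ?_, hunit, ?_, ?_⟩
  · intro x y hx hy
    rw [← finsum_add_distrib (supp_fin hx _) (supp_fin hy _)]
    refine finsum_congr fun v => ?_
    rw [← add_smul, ← H269.ordv_mul v (eK_ne' hx) (eK_ne' hy), map_mul]
    rfl
  · intro π P g hπ hd hg
    have hgK : g ∈ GK (jK hi) := (mem_GK hi g).2 hg.2.2.1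
    rw [finsum_eq_single _ (vP hπ) fun v hv => by rw [ordv_prime hπ, if_neg hv, zero_smul],
      ordv_prime hπ, if_pos rfl, one_smul]
    refine Multiplicative.ofAdd.injective (H565.fre_unique (jK hi) (chH hi hθ) (vP hπ)
      (fun P' hP' hb g' hg' => ?_) _ P _ ⟨g, hgK⟩ (hF _) ((frI_iff hi hπ P ⟨g, hgK⟩).2 hg))
    show Multiplicative.ofAdd (θ g') = 1
    rw [hu P' hP' (by rwa [← mem_below hi, hb, mem_vP]) g' ((mem_GK hi _).1 g'.2) hg']
    rfl
  · intro x hx h128 hπ
    by_cases h1 : x = 1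
    · exact hunit x (h1 ▸ isUnit_one)
    have := KK_real
    have hx1 : eK.symm x - 1 = eK.symm (x - 1) := by rw [map_sub, map_one]
    have hdiv := P016Z.Art.core (K := KK) (L := L) Nat.prime_two hcyc (eK_ne hx)
      (by rw [hx1]; exact eK_ne (sub_ne_zero.2 h1))
      (by
        rw [hx1]
        have h2 : ((2 : ℕ) : 𝓞 KK) ^ (2 * r + 1) = eK.symm (2 ^ (2 * r + 1)) := by
          rw [map_pow, map_ofNat]; rfl
        rw [h2, map_dvd_iff]
        refine (pow_dvd_pow _ (show 2 * r + 1 ≤ 7 by omega)).trans ?_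
        rwa [show (2 : GaussianInt) ^ 7 = 128 by norm_num])
      (fun P hP hP0 hn e he => by
        obtain ⟨Q', hQ', hb⟩ := H916.exists_above jL P hP
        rw [← hb] at he
        obtain ⟨g, hg, hin⟩ := D.inertia_lift hQ' he
        rw [← hg]
        refine (hk g).2 ?_
        show Multiplicative.ofAdd (θ g) = 1
        rw [hu Q' hQ' (fun hmem => hn ?_) g ((mem_GK hi _).1 g.2) hin]
        · rfl
        have h3 : dn KK P = below (jK hi) Q' := by rw [← hb]; exact D.below_comap Q'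
        obtain ⟨π, hp, hv⟩ := exists_vP ⟨below (jK hi) Q', Ideal.IsPrime.comap _,
          fun h0 => by
            have h4 := (mem_below hi Q' _).2 hmem
            rw [h0, Ideal.mem_bot] at h4
            exact eK_ne (mul_ne_zero two_ne_zero hm) h4⟩
        have h5 : below (jK hi) Q' = (vP hp).asIdeal := congrArg HeightOneSpectrum.asIdeal hv
        rw [h3, h5, hx1, mem_vP]
        have h6 : π ∣ 2 * m := by rwa [← mem_vP hp, ← h5, mem_below]
        rcases hp.dvd_or_dvd h6 with h7 | h7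
        · exact (h7.trans ⟨64, by norm_num⟩).trans h128
        · exact hπ π hp h7)
      a ha2
    have h9 := H48.fsum (n' := 2 ^ r) (θ g₀) (by
        rw [← hpt, ← (hpow 1 (2 ^ r)).1 (by rw [map_one, ← hcyc.ord, pow_orderOf_eq_one]), map_one]
        rfl) (eK.symm x) (eK_ne hx) (fun v => θ (fr v)) a (fun v _ => ha1 v) (fun _ => 0)
      (fun _ => 0) (fun _ => (zero_smul _ _).symm) (by simpa using hdiv)
    simpa using h9

end Vale.Agent.P027M.F
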