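import Vale.Agent.P027M.F.PtDefs

/-!
# P027, route M, block F.pts: the divisor of the tangent is divisible by three
-/

set_option linter.all false

namespace Vale.Agent.P027M.F

open Vale.Agent.P019P

theorem PtB.core {k F : Type} [Field k] [Field F] [Algebra k F] [CFF k F] (P : Plk k F)
    {h h' t : F} {a l : k} (t0 : t ≠ 0) (a0 : a ≠ 0) (e : h * h' = t ^ 3)
    (d : h' - h = algebraMap k F a + l • t) : (3 : ℤ) ∣ ord P h := by
  have n := e ▸ pow_ne_zero 3 t0
  have h0 := left_ne_zero_of_mul n
  have h1 := right_ne_zero_of_mul n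
  have s : ord P h + ord P h' = 3 * ord P t := by
    rw [← ord_mul P h0 h1, e, ord_pow]
    rfl
  have c0 : algebraMap k F a ≠ 0 := by simpa using a0
  have m1 : h' - h ∈ Mge P (min 0 (ord P t)) := by
    rw [d]
    exact add_mem (Or.inr (by rw [ord_const]; omega))
      (Submodule.smul_mem _ l (Or.inr (min_le_right _ _)))
  have m2 : 0 < ord P t → ord P (h' - h) = 0 := fun c => by
    rw [d, (ord_add_of_lt c0 (Submodule.smul_mem _ l (Or.inr (by rw [ord_const]; omega)))).2,
      ord_const]
  rcases lt_trichotomy (ord P h) (ord P h') with c | c | c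
  · have := ord_add_of_lt (P := P) (neg_ne_zero.2 h0) (w := h')
      (Or.inr (by rw [ord_neg]; omega))
    rw [neg_add_eq_sub, ord_neg] at this
    have := m1.resolve_left this.1
    omega
  · omega
  · have := ord_add_of_lt (P := P) h1 (w := -h) (Or.inr (by rw [ord_neg]; omega))
    rw [← sub_eq_add_neg] at this
    have := m1.resolve_left this.1
    omega

theorem ptb (alg : ALG) (pta : PTA) : PTB := by
  intro k F _ _ _ _ D N Y p h6 hD hp hN hY
  have : IsAlgClosed k := CFF.ac (k := k) (F := F)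
  obtain ⟨i, hi⟩ := IsAlgClosed.exists_pow_nat_eq (-1 : k) two_pos
  have e := (pta k F i D N Y p h6 hi hD hp hY).1
  have t0 : N - algebraMap k F p.1 ≠ 0 := fun c =>
    hN (sub_eq_zero.1 c ▸ isAlgebraic_algebraMap p.1)
  have h2 : (2 : k) ≠ 0 := fun c => h6 (by rw [show (6 : k) = 2 * 3 by norm_num, c, zero_mul])
  refine ⟨left_ne_zero_of_mul (e ▸ pow_ne_zero 3 t0), fun P => PtB.core P (l := 2 * tg D p) t0
    (mul_ne_zero h2 (alg k i D p h6 hi hD hp).2.1) e ?_⟩
  simp only [hP, ln, tg, Algebra.smul_def, map_mul, map_neg, mul_neg, div_neg, map_ofNat]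
  ring

end Vale.Agent.P027M.F
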