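import Vale.Agent.P027M.F.PtA
import Vale.Agent.P027M.F.PtB
import Vale.Agent.P027M.F.PtC
import Vale.Agent.P027M.F.ChiAlg
import Vale.Agent.P027M.K.TT

/-! # P027M, block F: the action on the three-torsion of the elliptic curve -/

set_option linter.all false

noncomputable section

namespace Vale.Agent.P027M.F

open Vale.Agent.P019P P025H492 P025H816 _root_.P027M.K

namespace E3

section alg

variable {A : Type*} [AddCommGroup A] (J : A →+ A)

theorem iter (n : ℕ) {y : A} (h : J (J y) = -y) :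
    (fun z => z - J z)^[n] y = ((1 - gI) ^ n).re • y + ((1 - gI) ^ n).im • J y := by
  induction n with
  | zero => simp
  | succ n ih =>
    rw [Function.iterate_succ_apply', ih, pow_succ]
    simp only [map_add, map_zsmul, h, Zsqrtd.re_mul, Zsqrtd.im_mul, Zsqrtd.re_sub, Zsqrtd.im_sub,
      Zsqrtd.re_one, Zsqrtd.im_one, gI]
    module

theorem dvd3 {x : A} (h3 : 3 • x = 0) (h0 : x ≠ 0) {a : ℤ} (h : a • x = 0) : (3 : ℤ) ∣ a := by
  by_contra k
  obtain ⟨u, v, huv⟩ := (Int.prime_three.coprime_iff_not_dvd.2 k)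
  apply h0
  have h3' : (3 : ℤ) • x = 0 := by exact_mod_cast h3
  rw [← one_smul ℤ x, ← huv, add_smul, mul_smul, mul_smul, h3', h, smul_zero, smul_zero, add_zero]

theorem span (hc : Nat.card (tors A 3) = 9) {x : A} (h3 : 3 • x = 0) (h0 : x ≠ 0)
    (h : J (J x) = -x) {y : A} (hy : 3 • y = 0) : ∃ a b : ℕ, y = a • x + b • J x := by
  have : Finite (tors A 3) := Nat.finite_of_card_ne_zero (by rw [hc]; norm_num)
  let f : Fin 3 × Fin 3 → tors A 3 := fun v => ⟨v.1.val • x + v.2.val • J x, by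
    rw [mem_tors, smul_add, smul_comm 3, smul_comm 3, ← map_nsmul, h3, map_zero]; simp⟩
  have hf : Function.Injective f := by
    rintro ⟨a, b⟩ ⟨a', b'⟩ e
    have e1 : a.val • x + b.val • J x = a'.val • x + b'.val • J x := congrArg Subtype.val e
    have e2 := congrArg J e1
    simp only [map_add, map_nsmul, h] at e2
    have e3 : (((a.val : ℤ) - a'.val) ^ 2 + ((b.val : ℤ) - b'.val) ^ 2) • x = 0 := by
      linear_combination (norm := module) ((a.val : ℤ) - a'.val) • e1 - ((b.val : ℤ) - b'.val) • e2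
    exact (by decide : ∀ a b a' b' : Fin 3, (3 : ℤ) ∣ ((a.val : ℤ) - a'.val) ^ 2 +
      ((b.val : ℤ) - b'.val) ^ 2 → (a, b) = (a', b')) a b a' b' (dvd3 h3 h0 e3)
  obtain ⟨v, hv⟩ := (hf.bijective_of_nat_card_le (by rw [hc]; simp)).2 ⟨y, hy⟩
  exact ⟨v.1, v.2, (congrArg Subtype.val hv).symm⟩

end alg

variable {k E : Type} [Field k] [Field E] [Algebra k E] [CFF k E]

variable (k) in
/-- nonzero with divisor divisible by three -/
def Dv (f : E) : Prop := f ≠ 0 ∧ ∀ P : Plk k E, (3 : ℤ) ∣ ord P f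

open Classical in
variable (k) in
/-- the class of one third of the divisor -/
def cl (f : E) : Pc k E := if h : f ≠ 0 then tP k 3 (Units.mk0 f h) else 0

theorem cl_eq {f : E} (h : f ≠ 0) : cl k f = tP k 3 (Units.mk0 f h) := dif_pos h

theorem Dv.mem {f : E} (h : Dv k f) : Units.mk0 f h.1 ∈ divU k E 3 := h.2

theorem Dv.mul {f g : E} (h : Dv k f) (h' : Dv k g) : Dv k (f * g) :=
  ⟨mul_ne_zero h.1 h'.1, mul_mem h.mem h'.mem⟩

theorem cl_mul {f g : E} (h : Dv k f) (h' : Dv k g) : cl k (f * g) = cl k f + cl k g := by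
  rw [cl_eq h.1, cl_eq h'.1, cl_eq (mul_ne_zero h.1 h'.1), ← tP_mul (by norm_num) h.mem h'.mem,
    Units.mk0_mul]

theorem dv_cube {u : E} (h : u ≠ 0) : Dv k (u ^ 3) :=
  ⟨pow_ne_zero _ h, fun P => by rw [Vale.Agent.P019P.ord_pow]; exact Dvd.intro _ rfl⟩

theorem cl_zero_iff {f : E} (h : Dv k f) : cl k f = 0 ↔ ∃ u : E, u ^ 3 = f := by
  rw [cl_eq h.1, tP_eq_zero_iff (by norm_num) h.mem, mem_powU']
  rfl

theorem cl_cube {u : E} (h : u ≠ 0) : cl k (u ^ 3) = 0 := (cl_zero_iff (dv_cube h)).2 ⟨u, rfl⟩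

theorem cl_three {f : E} (h : Dv k f) : 3 • cl k f = 0 := by
  rw [cl_eq h.1]; exact nsmul_tP (by norm_num) h.mem

theorem cl_const {a : k} (ha : a ≠ 0) {f : E} (h : Dv k f) :
    cl k (algebraMap k E a * f) = cl k f := by
  have : IsAlgClosed k := CFF.ac E
  obtain ⟨b, rfl⟩ := IsAlgClosed.exists_pow_nat_eq a (show 0 < 3 by norm_num)
  have hb : algebraMap k E b ≠ 0 := by simpa using ha
  rw [map_pow, cl_mul (dv_cube hb) h, cl_cube hb, zero_add]

theorem act_cl (θ : SL k E) {f : E} (h : Dv k f) :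
    actP θ (cl k f) = cl k ((θ : E ≃+* E) f) := by
  rw [cl_eq h.1, actP_tP θ (by norm_num) h.mem, cl_eq (by simpa using h.1)]
  rfl

theorem pt_neg {D : k} {p : k × k} (h : Pt D p) : Pt D (p.1, -p.2) :=
  ⟨h.q, by rw [neg_sq]; exact h.e⟩

theorem pt_iota {i D : k} (hi : i ^ 2 = -1) {p : k × k} (h : Pt D p) : Pt D (-p.1, i * p.2) :=
  ⟨by linear_combination h.q, by
    show (i * p.2) ^ 2 = (-p.1) ^ 3 - D * -p.1
    linear_combination p.2 ^ 2 * hi - h.e⟩

open IntermediateField Polynomial in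
/-- a quadratic extension of `k(N)` is generated by `N` and `Y` -/
theorem gen_of_two {k E : Type} [Field k] [Field E] [Algebra k E] {D : k} {N Y : E}
    (hN : Transcendental k N) (hY : Y ^ 2 = N ^ 3 - algebraMap k E D * N)
    (h2 : Module.finrank k⟮N⟯ E = 2) (u : E) : u ∈ adjoin k ({N, Y} : Set E) := by
  have := IntermediateField.isSimpleOrder_of_finrank_prime k⟮N⟯ E (by rw [h2]; exact Nat.prime_two)
  rcases eq_bot_or_eq_top (k⟮N⟯⟮Y⟯) with h | h
  · exfalso
    have h1 : Y ∈ (⊥ : IntermediateField k⟮N⟯ E) := h ▸ mem_adjoin_simple_self _ Y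
    obtain ⟨⟨y, hy⟩, rfl⟩ := IntermediateField.mem_bot.1 h1
    obtain ⟨r, s, hrs⟩ := (mem_adjoin_simple_iff k y).1 hy
    have hf : (X ^ 3 - C D * X : k[X]).natDegree = 3 := by compute_degree!
    have hY' : y ^ 2 = aeval N (X ^ 3 - C D * X : k[X]) := by simpa using hY
    by_cases s0 : aeval N s = 0
    · have := (PtcAux.indep hN hf hY' (a := 0) (b := 1) (by rw [hrs, s0]; simp)).2
      exact one_ne_zero this
    · have := (PtcAux.indep hN hf hY' (a := -r) (b := s) (by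
        rw [hrs, map_neg]; field_simp; ring)).2
      exact s0 (by rw [this, map_zero])
  · rw [← adjoin_simple_adjoin_simple, h]
    trivial

section pts

variable {i D : k} {N Y : E} (h6 : (6 : k) ≠ 0) (hi : i ^ 2 = -1) (hD : D ≠ 0)
  (hN : Transcendental k N) (hY : Y ^ 2 = N ^ 3 - algebraMap k E D * N)

include h6 hD hN hY in
theorem dvP {p : k × k} (hp : Pt D p) : Dv k (hP D N Y p) :=
  ptb alg (pta alg) k E D N Y p h6 hD hp hN hY

include hN in
theorem nc (a : k) : N - algebraMap k E a ≠ 0 := fun h =>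
  hN (sub_eq_zero.1 h ▸ isAlgebraic_algebraMap a)

include h6 hi hD hN hY in
theorem cNeg {p : k × k} (hp : Pt D p) :
    cl k (hP D N Y (p.1, -p.2)) = -cl k (hP D N Y p) := by
  rw [eq_neg_iff_add_eq_zero, add_comm, ← cl_mul (dvP h6 hD hN hY hp) (dvP h6 hD hN hY (pt_neg hp)),
    (pta alg k E i D N Y p h6 hi hD hp hY).1, cl_cube (nc hN _)]

variable {J : SL k E} (Jc : ∀ a, (J : E ≃+* E) (algebraMap k E a) = algebraMap k E a)
  (JN : (J : E ≃+* E) N = -N) (JY : (J : E ≃+* E) Y = algebraMap k E i * Y)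

include h6 hi hD hN hY Jc JN JY

theorem cJ {p : k × k} (hp : Pt D p) :
    actP J (cl k (hP D N Y p)) = cl k (hP D N Y (-p.1, -i * p.2)) := by
  have hi' : (-i) ^ 2 = -1 := by rw [neg_sq, hi]
  have i0 : i ≠ 0 := by rintro rfl; norm_num at hi
  rw [act_cl J (dvP h6 hD hN hY hp), ← cl_const i0 (dvP h6 hD hN hY (pt_iota hi' hp)),
    ← (pta alg k E i D N Y p h6 hi hD hp hY).2.1]
  simp only [hP, ln, map_sub, map_mul, Jc, JN, JY]

theorem cJJ {p : k × k} (hp : Pt D p) :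
    actP J (actP J (cl k (hP D N Y p))) = -cl k (hP D N Y p) := by
  have hi' : (-i) ^ 2 = -1 := by rw [neg_sq, hi]
  rw [cJ h6 hi hD hN hY Jc JN JY hp, cJ h6 hi hD hN hY Jc JN JY (pt_iota hi' hp),
    ← cNeg h6 hi hD hN hY hp]
  congr 2
  exact Prod.ext (neg_neg _) (by show -i * (-i * p.2) = -p.2; linear_combination p.2 * hi)

theorem cM {p : k × k} (hp : Pt D p) :
    cl k (hP D N Y (mu i p)) = cl k (hP D N Y p) - actP J (cl k (hP D N Y p)) := by
  have dv := fun {q : k × k} (hq : Pt D q) => dvP h6 hD hN hY hq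
  have e := (pta alg k E i D N Y p h6 hi hD hp hY).2.2
  have d1 := (dv hp).mul (dv (pt_iota hi hp))
  have l0 : ln N Y (sl i p) p ≠ 0 := fun h0 =>
    (d1.mul (dv_cube (nc hN (mu i p).1))).1 (by rw [e, h0]; simp)
  have e2 := congrArg (cl k) e
  rw [cl_mul d1 (dv_cube (nc hN _)), cl_cube (nc hN _), add_zero,
    cl_mul (dv_cube l0) (dv (alg k i D p h6 hi hD hp).2.2.1), cl_cube l0, zero_add,
    cl_mul (dv hp) (dv (pt_iota hi hp))] at e2
  rw [← e2, cJ h6 hi hD hN hY Jc JN JY hp, sub_eq_add_neg, neg_mul,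
    cNeg h6 hi hD hN hY (pt_iota hi hp), neg_neg]

theorem cI (m : ℕ) {p : k × k} (hp : Pt D p) : Pt D ((mu i)^[m] p) ∧
    cl k (hP D N Y ((mu i)^[m] p)) = (fun z => z - actP J z)^[m] (cl k (hP D N Y p)) := by
  induction m with
  | zero => exact ⟨hp, rfl⟩
  | succ m ih =>
    rw [Function.iterate_succ_apply', Function.iterate_succ_apply', ← ih.2]
    exact ⟨(alg k i D _ h6 hi hD ih.1).2.2.1, cM h6 hi hD hN hY Jc JN JY ih.1⟩

omit hi Jc JN JY in
theorem cR {R : SL k E} (RN : (R : E ≃+* E) N = N) (RY : (R : E ≃+* E) Y = Y) {p : k × k}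
    (hp : Pt D p) : actP R (cl k (hP D N Y p)) = cl k (hP D N Y (res0 R p.1, res0 R p.2)) := by
  have sD : res0 R D = D := by
    have h := congrArg (R : E ≃+* E) hY
    rw [map_pow, map_sub, map_pow, map_mul, res0_spec, RN, RY, hY] at h
    have h0 : N ≠ 0 := by simpa using nc hN 0
    exact (algebraMap k E).injective (mul_right_cancel₀ h0 (sub_right_injective h)).symm
  rw [act_cl R (dvP h6 hD hN hY hp)]
  simp only [hP, ln, tg, map_sub, map_mul, res0_spec, RN, RY, map_div₀, map_pow, map_ofNat, sD]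

omit hi Jc JN JY in
theorem cl_ne (hE : ∀ u : E, u ∈ IntermediateField.adjoin k ({N, Y} : Set E)) {p : k × k}
    (hp : Pt D p) : cl k (hP D N Y p) ≠ 0 := fun h => by
  have : IsAlgClosed k := CFF.ac E
  obtain ⟨u, hu⟩ := (cl_zero_iff (dvP h6 hD hN hY hp)).1 h
  exact ptc' k E D N Y u p h6 hD hp hN hY (hE u) hu

end pts

end E3

open E3

/-- **the action on the three-torsion**: an automorphism fixing the coordinates and acting on the
points by `(1 + i) ^ n` acts on the classes by `(1 - ι) ^ n` -/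
theorem e3P {k E : Type} [Field k] [Field E] [Algebra k E] [CFF k E] {i D : k} {N Y : E}
    (h6 : (6 : k) ≠ 0) (hi : i ^ 2 = -1) (hD : D ≠ 0) (hN : Transcendental k N)
    (hY : Y ^ 2 = N ^ 3 - algebraMap k E D * N)
    (hE : ∀ u : E, u ∈ IntermediateField.adjoin k ({N, Y} : Set E)) (hg : gen k E = 1)
    {J R : SL k E} (Jc : ∀ a, (J : E ≃+* E) (algebraMap k E a) = algebraMap k E a)
    (JN : (J : E ≃+* E) N = -N) (JY : (J : E ≃+* E) Y = algebraMap k E i * Y)
    (RN : (R : E ≃+* E) N = N) (RY : (R : E ≃+* E) Y = Y) {n : ℕ}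
    (hs : ∀ p, Pt D p → (res0 R p.1, res0 R p.2) = (mu i)^[n] p) (hp : ∃ p, Pt D p)
    {y : Pc k E} (hy : 3 • y = 0) :
    actP R y = ((1 - gI) ^ n).re • y + ((1 - gI) ^ n).im • actP J y := by
  have hi' : (-i) ^ 2 = -1 := by rw [neg_sq, hi]
  have h3 : ((3 : ℕ) : k) ≠ 0 := fun h => h6 (by push_cast at h; linear_combination 2 * h)
  have cR' : ∀ p, Pt D p → actP R (cl k (hP D N Y p)) = ((1 - gI) ^ n).re • cl k (hP D N Y p) +
      ((1 - gI) ^ n).im • actP J (cl k (hP D N Y p)) := by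
    intro p hp
    rw [← iter _ n (cJJ h6 hi hD hN hY Jc JN JY hp), ← (cI h6 hi hD hN hY Jc JN JY n hp).2,
      ← hs p hp, cR h6 hD hN hY RN RY hp]
  obtain ⟨p, hp⟩ := hp
  obtain ⟨a, b, rfl⟩ := span (actP J) (by rw [card_pic_tors h3, hg]; norm_num)
    (cl_three (dvP h6 hD hN hY hp)) (cl_ne h6 hD hN hY hE hp) (cJJ h6 hi hD hN hY Jc JN JY hp) hy
  have c2 := cR' _ (pt_iota hi' hp)
  rw [← cJ h6 hi hD hN hY Jc JN JY hp] at c2
  simp only [map_add, map_nsmul, cR' p hp, c2]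
  module

/-- the same on Tate modules, after pull-back to an extension -/
theorem e3T {k E L : Type} [Field k] [Field E] [Field L] [Algebra k E] [Algebra k L] [Algebra E L]
    [IsScalarTower k E L] [CFF k E] [CFF k L] [FiniteDimensional E L] [Fact (Nat.Prime 3)]
    {J R : SL k E} {J' R' : SL k L} {a b : ℤ}
    (hJ : ∀ z : E, (J' : L ≃+* L) (algebraMap E L z) = algebraMap E L ((J : E ≃+* E) z))
    (hR : ∀ z : E, (R' : L ≃+* L) (algebraMap E L z) = algebraMap E L ((R : E ≃+* E) z))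
    (h : ∀ y : Pc k E, 3 • y = 0 → actP R y = a • y + b • actP J y) (ξ : TT 3 k E) :
    ∃ z, act 3 k L R' (jT 3 k E L ξ) - (a • jT 3 k E L ξ + b • act 3 k L J' (jT 3 k E L ξ)) =
      (3 : ℤ_[3]) • z := by
  obtain ⟨z, hz⟩ := (TM.cp_eq_zero_iff (r := 1)
    (x := act 3 k E R ξ - (a • ξ + b • act 3 k E J ξ))).1 (by
      rw [map_sub, map_add, map_zsmul, map_zsmul, cp_act, cp_act, h _ (TM.pow_smul_cp ξ 1),
        sub_self])
  refine ⟨jT 3 k E L z, ?_⟩
  rw [act_jT hR, act_jT hJ, ← map_zsmul, ← map_zsmul, ← map_add, ← map_sub, hz, map_smul, pow_one]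
  rfl

end Vale.Agent.P027M.F
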