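import Vale.Agent.P027M.F.Sym

/-! # P027 route M, block F: the endomorphisms of `FF` -/

namespace Vale.Agent.P027M.F

open Polynomial

variable {k : Type*} [Field k]

section rel

variable {L : Type*} [Field L] {c G D A B C' Y : L}

theorem Rel.rot (h : Rel c G D A B C' Y) : Rel c G D B C' A Y :=
  ⟨by linear_combination h.e2, by linear_combination h.e3, by linear_combination h.eY⟩

theorem Rel.swap (h : Rel c G D A B C' Y) : Rel c G D A C' B Y :=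
  ⟨by linear_combination h.e2, by linear_combination h.e3, by linear_combination h.eY⟩

theorem Rel.neg (h : Rel c G D A B C' Y) {i : L} (hi : i ^ 2 = -1) :
    Rel c G D (-A) (-B) (-C') (i * Y) :=
  ⟨by linear_combination h.e2, by linear_combination -h.e3,
    by linear_combination Y ^ 2 * hi - h.eY⟩

theorem Rel.disc (h : Rel c G D A B C' Y) {b1 b2 : L} (h1 : b1 * b2 = c ^ 3)
    (h2 : 4 * (b1 + b2) = 27 - 18 * c - c ^ 2) :
    ((A - B) * (B - C') * (C' - A)) ^ 2 =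
      4 * G * ((A + B + C') ^ 2 - b1 * G) * ((A + B + C') ^ 2 - b2 * G) := by
  have h3 : ((A - B) * (B - C') * (C' - A)) ^ 2 =
      (A + B + C') ^ 2 * (A * B + B * C' + C' * A) ^ 2 - 4 * (A * B + B * C' + C' * A) ^ 3 -
      4 * (A + B + C') ^ 3 * (A * B * C') +
      18 * (A + B + C') * (A * B + B * C' + C' * A) * (A * B * C') - 27 * (A * B * C') ^ 2 := by
    ring
  rw [h3, h.e2, h.e3]
  linear_combination G ^ 2 * (A + B + C') ^ 2 * h2 - 4 * G ^ 3 * h1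

theorem Rel.inv_sum (h : Rel c G D A B C' Y) (hA : A ≠ 0) (hB : B ≠ 0) (hC : C' ≠ 0)
    (hG : G ≠ 0) (hN : A + B + C' ≠ 0) (ν : L) :
    ν / A + ν / B + ν / C' = ν * c / (A + B + C') := by
  have h1 : ν / A + ν / B + ν / C' = ν * (A * B + B * C' + C' * A) / (A * B * C') := by
    field_simp; ring
  rw [h1, h.e2, h.e3]
  field_simp

theorem Rel.inv_de (h : Rel c G D A B C' Y) (hA : A ≠ 0) (hB : B ≠ 0) (hC : C' ≠ 0) (ν : L) :
    (ν / A - ν / B) * (ν / B - ν / C') * (ν / C' - ν / A) =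
      -(ν ^ 3 * ((A - B) * (B - C') * (C' - A)) / (G * (A + B + C')) ^ 2) := by
  have h1 : (G * (A + B + C')) ^ 2 = (A * B * C') ^ 2 := by rw [h.e3]; ring
  rw [h1]
  field_simp
  ring

theorem Rel.inv {b1 b2 G' ν θ : L} (h : Rel c G (b2 * G) A B C' Y) (hA : A ≠ 0) (hB : B ≠ 0)
    (hC : C' ≠ 0) (hG : G ≠ 0) (hN : A + B + C' ≠ 0) (h2' : (2 : L) ≠ 0)
    (hb : (A + B + C') ^ 2 - b2 * G ≠ 0)
    (h1 : b1 * b2 = c ^ 3) (h2 : 4 * (b1 + b2) = 27 - 18 * c - c ^ 2) (hν : ν ^ 2 = c * G * G')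
    (hθ : θ ^ 2 * G = -(ν * c * b2 * G')) :
    Rel c G' (b2 * G') (ν / A) (ν / B) (ν / C')
      (θ * ((A - B) * (B - C') * (C' - A)) / (2 * (A + B + C') * Y)) := by
  refine ⟨?_, ?_, ?_⟩
  · have h3 : ν / A * (ν / B) + ν / B * (ν / C') + ν / C' * (ν / A) =
        ν ^ 2 * (A + B + C') / (A * B * C') := by field_simp; ring
    rw [h3, h.e3, hν]
    field_simp
  · have h3 : ν / A * (ν / B) * (ν / C') = ν ^ 2 * ν / (A * B * C') := by field_simp
    rw [h.inv_sum hA hB hC hG hN, h3, h.e3, hν]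
    field_simp
  · have h3 : Y ^ 2 = (A + B + C') * ((A + B + C') ^ 2 - b2 * G) := by
      rw [h.eY]; ring
    rw [h.inv_sum hA hB hC hG hN, div_pow, mul_pow θ, h.disc h1 h2, mul_pow _ Y, h3]
    generalize A + B + C' = N at *
    have h4 : θ ^ 2 * (4 * G * (N ^ 2 - b1 * G) * (N ^ 2 - b2 * G)) /
        ((2 * N) ^ 2 * (N * (N ^ 2 - b2 * G))) = θ ^ 2 * G * (N ^ 2 - b1 * G) / N ^ 3 := by
      generalize N ^ 2 - b2 * G = u at *
      field_simp
      ring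
    rw [h4, hθ]
    field_simp
    linear_combination (-(ν * c ^ 3)) * hν + ν * c * G * G' * h1

end rel

namespace Par

variable (P : Par k) [IsAlgClosed k]

theorem tr_of_nc (σ : k →+* k) {A : P.FF} (hA : ∀ a : k, A ≠ P.ι a) (p : k[X]) (hp : p ≠ 0) :
    eval₂ ((algebraMap k P.FF).comp σ) A p ≠ 0 := by
  intro h
  rw [← eval₂_map] at h
  have h1 : IsAlgebraic k A := ⟨p.map σ, (Polynomial.map_ne_zero_iff σ.injective).2 hp, h⟩
  obtain ⟨a, ha⟩ := (IsAlgClosed.algebraMap_bijective_of_isIntegral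
    (k := k) (K := algebraicClosure k P.FF)).2 ⟨A, (mem_algebraicClosure_iff).2 h1⟩
  exact hA a (congrArg Subtype.val ha).symm

theorem M1_nc (a : k) : P.M1 ≠ P.ι a := fun h => P.M1_tr (h ▸ isAlgebraic_algebraMap a)

theorem nc_of_rel {B C' Y : P.FF} (h : Rel (P.ι P.c) (P.ι P.g0) (P.ι P.D) P.M1 B C' Y) (a : k) :
    B ≠ P.ι a := by
  rintro rfl
  have h1 := P.M1_tr' (C (a ^ 2 - P.g0) * X ^ 2 + C ((P.c - 1) * P.g0 * a) * X +
    C (P.g0 * (P.c * P.g0 - a ^ 2))) (by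
      intro h0
      have h2 := congrArg (coeff · 2) h0
      have h3 := congrArg (coeff · 1) h0
      simp only [coeff_add, coeff_C_mul, coeff_X_pow, coeff_X, coeff_C, coeff_zero] at h2 h3
      norm_num at h2 h3
      rcases h3 with (h3 | h3) | h3
      · exact P.c_ne_one h3
      · exact P.hg0 h3
      · rw [h3] at h2
        exact P.hg0 (by linear_combination -h2))
  apply h1
  simp only [eval₂_add, eval₂_mul, eval₂_pow, eval₂_X, eval₂_C]
  simp only [map_mul, map_sub, map_pow, map_one]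
  linear_combination (P.M1 * P.ι a + P.ι P.g0) * h.e2 - (P.M1 + P.ι a) * h.e3

theorem M2_nc (a : k) : P.M2 ≠ P.ι a := P.nc_of_rel P.rel a
theorem M3_nc (a : k) : P.M3 ≠ P.ι a := P.nc_of_rel P.rel.swap a
theorem M1_ne : P.M1 ≠ 0 := by simpa using P.M1_nc 0
theorem M2_ne : P.M2 ≠ 0 := by simpa using P.M2_nc 0
theorem M3_ne : P.M3 ≠ 0 := by simpa using P.M3_nc 0

theorem ι_ne {a : k} (ha : a ≠ 0) : P.ι a ≠ 0 := (_root_.map_ne_zero _).2 ha

theorem N_ne : P.N ≠ 0 := by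
  rw [N_eq, ← map_mul]
  exact div_ne_zero (mul_ne_zero P.M1_ne (sq_sub_ne P.M1_tr' _)) (sq_sub_ne P.M1_tr' _)

theorem W_ne : P.W ≠ 0 := by
  intro h
  have h1 := P.W_sq'
  rw [h, ← map_mul, ← map_mul] at h1
  exact mul_ne_zero (mul_ne_zero (mul_ne_zero P.M1_ne (sq_sub_ne P.M1_tr' _))
    (sq_sub_ne P.M1_tr' _)) (sq_sub_ne P.M1_tr' _) (by rw [← h1]; ring)

theorem Z_ne : P.Z ≠ 0 := by
  intro h
  have h1 := P.Z_sq'
  rw [h, ← map_mul, ← map_mul] at h1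
  have h4 : (4 : P.FF) ≠ 0 := by
    have := P.ι_ne P.h4
    rwa [ι, map_ofNat] at this
  exact mul_ne_zero (mul_ne_zero (mul_ne_zero h4 (P.ι_ne P.hg0)) (sq_sub_ne P.M1_tr' _))
    (sq_sub_ne P.M1_tr' _) (by rw [← h1]; ring)

theorem Y_ne : P.Y ≠ 0 :=
  div_ne_zero (mul_ne_zero P.W_ne (sq_sub_ne P.M1_tr' _)) (pow_ne_zero _ (sq_sub_ne P.M1_tr' _))

theorem Y_sq : P.Y ^ 2 = P.N ^ 3 - P.ι P.D * P.N := P.rel.eY

theorem N_sq_sub_ne : P.N ^ 2 - P.ι P.b2 * P.ι P.g0 ≠ 0 := by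
  intro h
  have h1 := P.Y_sq
  rw [D, ι, map_mul] at h1
  exact pow_ne_zero 2 P.Y_ne (by linear_combination h1 + P.N * h)

theorem M2_ne_M3 : P.M2 ≠ P.M3 := by
  intro h
  apply P.Z_ne
  rw [Z_eq, h, sub_self, mul_zero]

/-- a homomorphism of `FF` with prescribed values -/
structure Vals (φ : P.FF →+* P.FF) (σ : k →+* k) (A B C' Y' : P.FF) : Prop where
  c : ∀ a, φ (P.ι a) = P.ι (σ a)
  m1 : φ P.M1 = A
  m2 : φ P.M2 = B
  m3 : φ P.M3 = C'
  y : φ P.Y = Y'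

theorem exists_vals (σ : k →+* k) {A B C' Y' : P.FF} (hA : ∀ a : k, A ≠ P.ι a)
    (h : Rel (P.ι (σ P.c)) (P.ι (σ P.g0)) (P.ι (σ P.D)) A B C' Y') :
    ∃ φ, P.Vals φ σ A B C' Y' := by
  obtain ⟨φ, h0, h1, h2, h3, h4⟩ :=
    P.exists_hom ((algebraMap k P.FF).comp σ) A B C' Y' (P.tr_of_nc σ hA) h
  exact ⟨φ, h0, h1, h2, h3, h4⟩

variable {P}

theorem Vals.n {φ : P.FF →+* P.FF} {σ : k →+* k} {A B C' Y' : P.FF} (h : P.Vals φ σ A B C' Y') :
    φ P.N = A + B + C' := by rw [N, map_add, map_add, h.m1, h.m2, h.m3]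

theorem Vals.de {φ : P.FF →+* P.FF} {σ : k →+* k} {A B C' Y' : P.FF} (h : P.Vals φ σ A B C' Y') :
    φ P.De = (A - B) * (B - C') * (C' - A) := by
  simp only [De, map_mul, map_sub, h.m1, h.m2, h.m3]

theorem Vals.unique {φ ψ : P.FF →+* P.FF} {σ : k →+* k} {A B C' Y' : P.FF}
    (h : P.Vals φ σ A B C' Y') (h' : P.Vals ψ σ A B C' Y') : φ = ψ :=
  P.hom_ext (fun a => (h.c a).trans (h'.c a).symm) (h.m1.trans h'.m1.symm) (h.m2.trans h'.m2.symm)
    (h.y.trans h'.y.symm)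

omit [IsAlgClosed k] in
theorem map_c {σ : k →+* k} (h : σ P.g = P.g) : σ P.c = P.c := by
  simp only [c, map_div₀, map_mul, map_sub, map_add, map_ofNat, map_one, h]

omit [IsAlgClosed k] in
theorem map_b2 {σ : k →+* k} (h : σ P.g = P.g) : σ P.b2 = P.b2 := by
  simp only [b2, map_div₀, map_mul, map_pow, map_add, map_ofNat, map_one, h]

variable (P)

theorem exists_tau : ∃ φ, P.Vals φ (RingHom.id k) P.M1 P.M3 P.M2 P.Y :=
  P.exists_vals _ P.M1_nc P.rel.swap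

theorem exists_rho : ∃ φ, P.Vals φ (RingHom.id k) P.M2 P.M3 P.M1 P.Y :=
  P.exists_vals _ P.M2_nc P.rel.rot

theorem ιi_sq : P.ι P.i ^ 2 = -1 := by rw [← map_pow, P.hi, map_neg, map_one]

theorem exists_iota : ∃ φ, P.Vals φ (RingHom.id k) (-P.M1) (-P.M2) (-P.M3) (P.ι P.i * P.Y) :=
  P.exists_vals _ (fun a h => P.M1_nc (-a) (by rw [ι, map_neg]; exact neg_eq_iff_eq_neg.1 h)) (P.rel.neg P.ιi_sq)

theorem exists_coef (σ : k →+* k) (hg : σ P.g = P.g) (h0 : σ P.g0 = P.g0) :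
    ∃ φ, P.Vals φ σ P.M1 P.M2 P.M3 P.Y :=
  P.exists_vals _ P.M1_nc (by rw [D, map_mul, map_c hg, map_b2 hg, h0]; exact P.rel)

theorem exists_inv (σ : k →+* k) (hg : σ P.g = P.g) {ν θ : k} (hν : ν ^ 2 = P.c * P.g0 * σ P.g0)
    (hθ : θ ^ 2 * P.g0 = -(ν * P.c * P.b2 * σ P.g0)) :
    ∃ φ, P.Vals φ σ (P.ι ν / P.M1) (P.ι ν / P.M2) (P.ι ν / P.M3)
      (P.ι θ * P.De / (2 * P.N * P.Y)) := by
  have hν0 : ν ≠ 0 := by
    rintro rfl
    exact mul_ne_zero (mul_ne_zero P.c_ne P.hg0) ((_root_.map_ne_zero σ).2 P.hg0) (by rw [← hν]; ring)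
  refine P.exists_vals _ (fun a h => P.M1_nc (ν / a) ?_) ?_
  · rw [ι, map_div₀, ← ι, ← ι, ← h]
    have := P.M1_ne
    have := P.ι_ne hν0
    field_simp
  · have h1 := congrArg P.ι P.b1_mul_b2
    have h2 := congrArg P.ι P.b1_add_b2
    have h3 := congrArg P.ι hν
    have h4 := congrArg P.ι hθ
    have h5 := P.rel
    rw [D, ι, ι, ι, map_mul] at h5
    simp only [map_mul, map_add, map_sub, map_pow, map_ofNat, map_neg] at h1 h2 h3 h4
    rw [D, map_mul, map_c hg, map_b2 hg, ι, ι, ι, map_mul]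
    exact h5.inv P.M1_ne P.M2_ne P.M3_ne (P.ι_ne P.hg0) P.N_ne P.two_ne P.N_sq_sub_ne
      h1 h2 h3 h4

end Par

end Vale.Agent.P027M.F
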