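import Vale.Agent.P027M.F.Defs

/-! # P027 route M, block F: the three-torsion of `E` injects into that of the Galois closure -/

set_option linter.all false

noncomputable section

namespace Vale.Agent.P027M.F

open Polynomial Vale.Agent.P019P P025H816 _root_.P027M.K

namespace Par

variable {k : Type} [Field k] [IsAlgClosed k] (P : Par k)

theorem cube_const {a : P.FF} (h : a ^ 3 = 1) : ∃ c : k, P.ι c = a := by
  have hi : IsIntegral k a := ⟨X ^ 3 - C 1, monic_X_pow_sub_C _ (by norm_num), by simp [h]⟩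
  exact minpoly.mem_range_of_degree_eq_one k a
    (IsAlgClosed.degree_eq_one_of_irreducible k (minpoly.irreducible hi))

theorem mem_FE_of_cube {u : P.FF} (h : u ^ 3 ∈ P.FE) : u ∈ P.FE := by
  rcases eq_or_ne u 0 with rfl | u0
  · exact zero_mem _
  obtain ⟨h1, h2⟩ := P.mem_FE.1 h
  have q : ∀ e : RingAut P.FF, e (u ^ 3) = u ^ 3 → ∃ c : k, P.ι c ^ 3 = 1 ∧ e u = P.ι c * u :=
    fun e he => by
      have a3 : (e u / u) ^ 3 = 1 := by rw [div_pow, ← map_pow, he, div_self (pow_ne_zero _ u0)]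
      obtain ⟨c, hc⟩ := P.cube_const a3
      exact ⟨c, hc ▸ a3, by rw [hc, div_mul_cancel₀ _ u0]⟩
  obtain ⟨a, a3, ha⟩ := q _ h1
  obtain ⟨b, b3, hb⟩ := q _ h2
  have e1 := DFunLike.congr_fun P.tau_sq u
  have e2 := DFunLike.congr_fun P.tau_rho u
  simp only [mul_ap, one_ap, ha, hb, map_mul, tau_c, rho_c] at e1 e2
  have a1 : P.ι a = 1 := mul_right_cancel₀ u0 (by
    linear_combination -P.ι a * e1 + u * a3)
  have b1 : P.ι b = 1 := mul_right_cancel₀ u0 (by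
    rw [a1] at e2
    linear_combination -P.ι b ^ 2 * e2 - (P.ι b - 1) * u * b3)
  exact P.mem_FE.2 ⟨by rw [ha, a1, one_mul], by rw [hb, b1, one_mul]⟩

theorem j3 (x : TT 3 k P.FE) (z : P.H) (h : jT 3 k P.FE P.FF x = (3 : ℤ_[3]) • z) :
    ∃ y, x = (3 : ℤ_[3]) • y := by
  have n0 := lp_ne 3 1
  obtain ⟨f, hf, e⟩ := exists_cp_tP x 1
  have h1 : TM.cp 1 (jT 3 k P.FE P.FF x) = 0 := TM.cp_eq_zero_iff.2 ⟨z, by rw [h, pow_one]; rfl⟩
  rw [cp_jT, ← e, pullP_tP n0 hf, tP_eq_zero_iff n0 (jU_mem hf), mem_powU'] at h1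
  obtain ⟨u, hu⟩ := h1
  have hm : u ∈ P.FE := P.mem_FE_of_cube (by
    rw [show u ^ 3 = ((f : P.FE) : P.FF) from hu]; exact (f : P.FE).2)
  obtain ⟨y, hy⟩ := (TM.cp_eq_zero_iff (x := x) (r := 1)).1 (by
    rw [← e, tP_eq_zero_iff n0 hf, mem_powU']
    exact ⟨⟨u, hm⟩, Subtype.ext hu⟩)
  exact ⟨y, by rw [hy, pow_one]; rfl⟩

end Par

end Vale.Agent.P027M.F
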