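import Vale.Agent.P027M.K.TT
import Vale.Agent.P027M.X.ToPc

/-! # P027 route M, block F: pull back, push forward and automorphisms on all divisor classes -/

set_option linter.all false

noncomputable section

namespace Vale.Agent.P027M.F.Mate

open Polynomial Vale.Agent.P019P P025H492 P025H816 _root_.P027M.K

universe u

section val

variable {k F : Type*} [Field k] [Field F] [Algebra k F] [CFF k F]

theorem val_ord {P : Plk k F} {z : F} {c : k} (h : Val P z c) : 0 ≤ ord P z :=
  ord_nonneg_of_sub h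

theorem val_inv {P : Plk k F} {z : F} {c : k} (h : Val P z c) (hc : c ≠ 0) : Val P z⁻¹ c⁻¹ := by
  obtain ⟨h0, h1⟩ := h.unit hc
  have h2 : Val P z⁻¹ (vl P z⁻¹) := val_vl (by rw [ord_inv, h1, neg_zero])
  have h3 := h.mul h2
  rw [mul_inv_cancel₀ h0] at h3
  rwa [eq_inv_of_mul_eq_one_right (h3.unique (Val.one P))] at h2

theorem val_div {P : Plk k F} {z w : F} {c d : k} (h : Val P z c) (h' : Val P w d) (hd : d ≠ 0) :
    Val P (z / w) (c / d) := by
  rw [div_eq_mul_inv, div_eq_mul_inv]
  exact h.mul (val_inv h' hd)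

theorem val_sqrt {P : Plk k F} {z : F} {c : k} (h : Val P (z ^ 2) c) : Val P z (vl P z) := by
  have h1 := val_ord h
  rw [ord_pow] at h1
  exact val_vl (by push_cast at h1; omega)

/-- the values of two functions with given sum and product -/
theorem val_pair {P : Plk k F} {x y : F} {b c : k} (h2 : (2 : k) ≠ 0) (hs : Val P (x + y) (b + c))
    (hp : Val P (x * y) (b * c)) : (Val P x b ∧ Val P y c) ∨ (Val P x c ∧ Val P y b) := by
  have h1 : Val P ((x - y) ^ 2) ((b - c) ^ 2) := by
    have := (hs.pow 2).sub ((hp.add hp).add (hp.add hp))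
    rwa [show (x + y) ^ 2 - (x * y + x * y + (x * y + x * y)) = (x - y) ^ 2 by ring,
      show (b + c) ^ 2 - (b * c + b * c + (b * c + b * c)) = (b - c) ^ 2 by ring] at this
  have h3 := val_sqrt h1
  have h4 := (h3.pow 2).unique h1
  have h5 : Val P (2 : F) 2 := by
    have := Val.const P (2 : k)
    rwa [map_ofNat] at this
  have h6 : (2 : F) ≠ 0 := (h5.unit h2).1
  have hx := val_div (hs.add h3) h5 h2
  have hy := val_div (hs.sub h3) h5 h2
  rw [show (x + y + (x - y)) / 2 = x by field_simp; ring] at hx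
  rw [show (x + y - (x - y)) / 2 = y by field_simp; ring] at hy
  rcases sq_eq_sq_iff_eq_or_eq_neg.1 h4 with e | e <;> rw [e] at hx hy
  · rw [show (b + c + (b - c)) / 2 = b by field_simp; ring] at hx
    rw [show (b + c - (b - c)) / 2 = c by field_simp; ring] at hy
    exact Or.inl ⟨hx, hy⟩
  · rw [show (b + c + -(b - c)) / 2 = c by field_simp; ring] at hx
    rw [show (b + c - -(b - c)) / 2 = b by field_simp; ring] at hy
    exact Or.inr ⟨hx, hy⟩

end val

section ext

variable {k K L : Type u} [Field k] [Field K] [Field L] [Algebra k K] [Algebra k L]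
  [Algebra K L] [IsScalarTower k K L] [CFF k K] [CFF k L] [FiniteDimensional K L]

theorem val_down {Q : Plk k L} {z : K} {c : k} :
    Val (down K Q) z c ↔ Val Q (algebraMap K L z) c := by
  unfold Val
  rw [IsScalarTower.algebraMap_apply k K L, ← map_sub, mem_Mge_up]

/-- the action on places -/
def pl (θ : SL k L) : Plk k L ≃ Plk k L := plEquiv (θ : L ≃+* L) (res0 θ) (res0_spec θ)

theorem actP_mk (θ : SL k L) (D : Plk k L →₀ ℤ) :
    actP θ (QuotientAddGroup.mk D) = QuotientAddGroup.mk (D.mapDomain (pl θ)) := rfl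

theorem val_pl (θ : SL k L) {Q : Plk k L} {z : L} {c : k} (h : Val Q z c) :
    Val (pl θ Q) ((θ : L ≃+* L) z) (res0 θ c) := h.semi (res0_spec θ)

theorem pl_aut (σ : L ≃ₐ[K] L) (Q : Plk k L) : pl (autSL k σ) Q = conj k σ Q := rfl

theorem dgP_actP (θ : SL k L) (x : Pc k L) : X.dgP (actP θ x) = X.dgP x := by
  obtain ⟨D, rfl⟩ := QuotientAddGroup.mk_surjective x
  rw [actP_mk, X.dgP_mk, X.dgP_mk]
  induction D using Finsupp.induction_linear with
  | zero => rw [Finsupp.mapDomain_zero]
  | add f g hf hg => rw [Finsupp.mapDomain_add, map_add, map_add, hf, hg]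
  | single Q n => rw [Finsupp.mapDomain_single, dg_sgl, dg_sgl]

theorem dgP_pushP (x : Pc k L) : X.dgP (pushP K x) = X.dgP x := by
  obtain ⟨D, rfl⟩ := QuotientAddGroup.mk_surjective x
  rw [pushP_mk, X.dgP_mk, X.dgP_mk, dg_push]

theorem dgP_pullP (x : Pc k K) : X.dgP (pullP L x) = Module.finrank K L * X.dgP x := by
  obtain ⟨D, rfl⟩ := QuotientAddGroup.mk_surjective x
  rw [pullP_mk, X.dgP_mk, X.dgP_mk, dg_pull]

section semi

variable {θ : SL k L} {s : K ≃+* K} {s₀ : k ≃+* k}
  (hs : ∀ a, s (algebraMap k K a) = algebraMap k K (s₀ a))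
  (hθ : ∀ z, (θ : L ≃+* L) (algebraMap K L z) = algebraMap K L (s z))

include hθ

theorem down_pl (Q : Plk k L) : down K (pl θ Q) = plEquiv s s₀ hs (down K Q) := by
  refine Subtype.ext (ValuationSubring.ext _ _ fun z => ?_)
  obtain ⟨z, rfl⟩ := s.surjective z
  rw [mem_down, AuxFAct.mem_plEquiv, mem_down, pl, AuxFAct.mem_plEquiv, ← hθ,
    RingEquiv.symm_apply_apply, RingEquiv.symm_apply_apply]

include hs in
theorem ram_pl (Q : Plk k L) : ram K (pl θ Q) = ram K Q := by
  obtain ⟨π, -, hπ⟩ := exists_unif (down K Q)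
  have h1 : ord (down K (pl θ Q)) (s π) = 1 := by rw [down_pl hs hθ, ord_plEquiv, hπ]
  refine ram_eq (z := s π) (by omega) ?_
  rw [← hθ, pl, ord_plEquiv, ord_algebraMap, ← pl, h1, hπ]

/-- push forward commutes with compatible semilinear automorphisms -/
theorem pushP_actP (y : Pc k L) : pushP K (actP θ y) = semiP hs (pushP K y) := by
  obtain ⟨D, rfl⟩ := QuotientAddGroup.mk_surjective y
  rw [actP_mk, pushP_mk, pushP_mk, semiP_mk, push, Finsupp.mapDomain.addMonoidHom_apply,
    Finsupp.mapDomain.addMonoidHom_apply, ← Finsupp.mapDomain_comp, ← Finsupp.mapDomain_comp]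
  exact congrArg (fun f => QuotientAddGroup.mk (D.mapDomain f)) (funext (down_pl hs hθ))

/-- pull back commutes with compatible semilinear automorphisms -/
theorem actP_pullP (x : Pc k K) : actP θ (pullP L x) = pullP L (semiP hs x) := by
  obtain ⟨D, rfl⟩ := QuotientAddGroup.mk_surjective x
  rw [pullP_mk, actP_mk, semiP_mk, pullP_mk]
  refine congrArg _ (Finsupp.ext fun Q => ?_)
  obtain ⟨Q, rfl⟩ := (pl θ).surjective Q
  rw [Finsupp.mapDomain_apply (pl θ).injective, pull_apply, pull_apply, ram_pl hs hθ,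
    down_pl hs hθ, Finsupp.mapDomain_apply (plEquiv s s₀ hs).injective]

end semi

theorem pushP_aut (σ : L ≃ₐ[K] L) (y : Pc k L) : pushP K (actP (autSL k σ) y) = pushP K y := by
  obtain ⟨D, rfl⟩ := QuotientAddGroup.mk_surjective y
  rw [actP_mk, pushP_mk, pushP_mk, push, Finsupp.mapDomain.addMonoidHom_apply,
    Finsupp.mapDomain.addMonoidHom_apply, ← Finsupp.mapDomain_comp]
  exact congrArg (fun f => QuotientAddGroup.mk (D.mapDomain f)) (funext (down_conj σ))

variable [IsGalois K L]

theorem pull_single (Q : Plk k L) (n : ℤ) : pull L (Finsupp.single (down K Q) n) =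
    ∑ σ : L ≃ₐ[K] L, Finsupp.single (conj k σ Q) n := by
  classical
  ext Q'
  rw [pull_apply, Finsupp.finset_sum_apply]
  simp only [Finsupp.single_apply]
  by_cases h : down K Q = down K Q'
  · obtain ⟨s, rfl⟩ := exists_conj_eq h
    rw [if_pos h, ← Finset.sum_filter, Finset.sum_const, nsmul_eq_mul, ← card_inertia,
      ← Nat.subtype_card (p := fun σ : L ≃ₐ[K] L => conj k σ Q = conj k s Q) _ (by simp)]
    refine congrArg (fun m : ℕ => (m : ℤ) * n) (Nat.card_congr
      (Equiv.subtypeEquiv (Equiv.mulRight s) fun σ => ?_))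
    rw [mem_inertia, Equiv.coe_mulRight, P025H492.conj_mul]
  · rw [if_neg h, mul_zero]
    exact (Finset.sum_eq_zero fun σ _ => if_neg fun e => h (by rw [← e, down_conj])).symm

/-- pull back after push forward is the trace -/
theorem pullP_pushP (y : Pc k L) :
    pullP L (pushP K y) = ∑ σ : L ≃ₐ[K] L, actP (autSL k σ) y := by
  obtain ⟨D, rfl⟩ := QuotientAddGroup.mk_surjective y
  induction D using Finsupp.induction_linear with
  | zero => simp
  | add f g hf hg => simp only [QuotientAddGroup.mk_add, map_add, hf, hg, Finset.sum_add_distrib]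
  | single Q n =>
    rw [pushP_mk, pullP_mk, push_single, pull_single, QuotientAddGroup.mk_sum]
    exact Finset.sum_congr rfl fun σ _ => by rw [actP_mk, Finsupp.mapDomain_single, pl_aut]

end ext

end Vale.Agent.P027M.F.Mate
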