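import Mathlib

/-! # P027 route M, block F: the parameters of the family -/

namespace Vale.Agent.P027M.F

/-- the parameters: the point `g` of the base, the twist `g0`, a square root `i` of `-1`. -/
structure Par (k : Type*) [Field k] where
  g : k
  g0 : k
  i : k
  hi : i ^ 2 = -1
  h2 : (2 : k) ≠ 0
  h3 : (3 : k) ≠ 0
  hg0 : g0 ≠ 0
  hg : g ≠ 0
  hp1 : g + 1 ≠ 0
  hm3 : 3 - g ≠ 0
  hm1 : g - 1 ≠ 0
  hp3 : g + 3 ≠ 0

namespace Par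

variable {k : Type*} [Field k] (P : Par k)

/-- `c = c₃` -/
def c : k := P.g * (3 - P.g) / (P.g + 1)
/-- `d₁` -/
def d1 : k := (3 - P.g) * (P.g + 1) / 4
/-- `d₂` -/
def d2 : k := 4 * P.g / (P.g + 1) ^ 2
/-- `b₁` -/
def b1 : k := (3 - P.g) ^ 3 / (4 * (P.g + 1))
/-- `b₂` -/
def b2 : k := 4 * P.g ^ 3 / (P.g + 1) ^ 2
/-- the elliptic curve is `Y² = N³ - D N` -/
def D : k := P.b2 * P.g0

include P in
theorem h4 : (4 : k) ≠ 0 := by
  have h : (4 : k) = 2 * 2 := by norm_num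
  rw [h]; exact mul_ne_zero P.h2 P.h2

theorem i_ne : P.i ≠ 0 := by
  intro h
  have := P.hi
  rw [h] at this
  norm_num at this

theorem c_ne : P.c ≠ 0 := div_ne_zero (mul_ne_zero P.hg P.hm3) P.hp1
theorem d1_ne : P.d1 ≠ 0 := div_ne_zero (mul_ne_zero P.hm3 P.hp1) P.h4
theorem d2_ne : P.d2 ≠ 0 := div_ne_zero (mul_ne_zero P.h4 P.hg) (pow_ne_zero _ P.hp1)
theorem b1_ne : P.b1 ≠ 0 := div_ne_zero (pow_ne_zero _ P.hm3) (mul_ne_zero P.h4 P.hp1)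
theorem b2_ne : P.b2 ≠ 0 :=
  div_ne_zero (mul_ne_zero P.h4 (pow_ne_zero _ P.hg)) (pow_ne_zero _ P.hp1)
theorem D_ne : P.D ≠ 0 := mul_ne_zero P.b2_ne P.hg0

theorem c_sub_one : P.c - 1 = -(P.g - 1) ^ 2 / (P.g + 1) := by
  have := P.hp1
  unfold c; field_simp; ring
theorem d2_sub_one : P.d2 - 1 = -(P.g - 1) ^ 2 / (P.g + 1) ^ 2 := by
  have := P.hp1
  unfold d2; field_simp; ring
theorem c_sub_d2 : P.c - P.d2 = -(P.g * (P.g - 1) ^ 2) / (P.g + 1) ^ 2 := by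
  have := P.hp1
  unfold c d2; field_simp; ring
theorem d1_sub_one : P.d1 - 1 = -(P.g - 1) ^ 2 / 4 := by
  have := P.h4
  unfold d1; field_simp; ring
theorem d1_sub_c : P.d1 - P.c = (3 - P.g) * (P.g - 1) ^ 2 / (4 * (P.g + 1)) := by
  have := P.h4
  have := P.hp1
  unfold d1 c; field_simp; ring
theorem d1_sub_d2 : P.d1 - P.d2 = -((P.g - 1) ^ 3 * (P.g + 3)) / (4 * (P.g + 1) ^ 2) := by
  have := P.h4
  have := P.hp1
  unfold d1 d2; field_simp; ring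

theorem c_ne_one : P.c - 1 ≠ 0 := by
  rw [c_sub_one]; exact div_ne_zero (neg_ne_zero.2 (pow_ne_zero _ P.hm1)) P.hp1
theorem d2_ne_one : P.d2 - 1 ≠ 0 := by
  rw [d2_sub_one]; exact div_ne_zero (neg_ne_zero.2 (pow_ne_zero _ P.hm1)) (pow_ne_zero _ P.hp1)
theorem c_ne_d2 : P.c - P.d2 ≠ 0 := by
  rw [c_sub_d2]
  exact div_ne_zero (neg_ne_zero.2 (mul_ne_zero P.hg (pow_ne_zero _ P.hm1))) (pow_ne_zero _ P.hp1)
theorem d1_ne_one : P.d1 - 1 ≠ 0 := by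
  rw [d1_sub_one]; exact div_ne_zero (neg_ne_zero.2 (pow_ne_zero _ P.hm1)) P.h4
theorem d1_ne_c : P.d1 - P.c ≠ 0 := by
  rw [d1_sub_c]
  exact div_ne_zero (mul_ne_zero P.hm3 (pow_ne_zero _ P.hm1)) (mul_ne_zero P.h4 P.hp1)
theorem d1_ne_d2 : P.d1 - P.d2 ≠ 0 := by
  rw [d1_sub_d2]
  exact div_ne_zero (neg_ne_zero.2 (mul_ne_zero (pow_ne_zero _ P.hm1) P.hp3))
    (mul_ne_zero P.h4 (pow_ne_zero _ P.hp1))

theorem d1_mul_d2 : P.d1 * P.d2 = P.c := by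
  have := P.h4
  have := P.hp1
  unfold d1 d2 c; field_simp
theorem d1_add_d2 : 4 * (P.d1 + P.d2) = 4 * (P.c + 1) - (P.c - 1) ^ 2 := by
  have := P.h4
  have := P.hp1
  unfold d1 d2 c; field_simp; ring
theorem b1_mul_b2 : P.b1 * P.b2 = P.c ^ 3 := by
  have := P.h4
  have := P.hp1
  unfold b1 b2 c; field_simp
theorem b1_add_b2 : 4 * (P.b1 + P.b2) = 27 - 18 * P.c - P.c ^ 2 := by
  have := P.h4
  have := P.hp1
  unfold b1 b2 c; field_simp; ring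
theorem b2_eq : P.b2 = P.g ^ 2 * P.d2 := by
  unfold b2 d2; ring
theorem crit1 : 2 * P.g + P.d2 = 2 * P.c + P.b2 := by
  have := P.hp1
  unfold d2 c b2; field_simp; ring
theorem crit2 : P.g ^ 2 + 2 * P.g * P.d2 = P.c ^ 2 + 2 * P.b2 := by
  have := P.hp1
  unfold d2 c b2; field_simp; ring

end Par

end Vale.Agent.P027M.F
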