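import Vale.Agent.P027M.F.ArDefs

/-!
# P027, route M, row F.PTA: the identities between the tangents at the points of order three
-/

set_option linter.all false

noncomputable section

namespace Vale.Agent.P027M.F

namespace PtA

lemma key1 {F : Type} [CommRing F] (Y N r t : F) (hY : Y ^ 2 = N ^ 3 - 16 * r ^ 4 * (2 * t - 1) * N)
    (ht : t ^ 2 = 2 - 2 * t) :
    (Y - 8 * t * r ^ 3 - 2 * r * (1 + t) * (N - 4 * r ^ 2)) *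
      (Y + 8 * t * r ^ 3 + 2 * r * (1 + t) * (N - 4 * r ^ 2)) = (N - 4 * r ^ 2) ^ 3 := by
  linear_combination hY - 4 * N ^ 2 * r ^ 2 * ht

lemma key3 {F : Type} [CommRing F] (Y N r t i : F)
    (hY : Y ^ 2 = N ^ 3 - 16 * r ^ 4 * (2 * t - 1) * N) (hi : i ^ 2 = -1)
    (ht' : t ^ 2 = 2 - 2 * t) :
    (Y - 8 * t * r ^ 3 - 2 * r * (1 + t) * (N - 4 * r ^ 2)) *
      (Y - i * (8 * t * r ^ 3) - -i * (2 * r * (1 + t)) * (N + 4 * r ^ 2)) *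
      (N - -4 * i * (1 - t) * r ^ 2) ^ 3 =
    (Y - 8 * t * r ^ 3 - (1 - i) * t * r * (N - 4 * r ^ 2)) ^ 3 *
      (Y - -8 * (1 + i) * (1 - t) * r ^ 3 - r * (2 - t) * (1 - i) * (N - -4 * i * (1 - t) * r ^ 2)) := by
  linear_combination
      (-Y ^ 2 - 2 * Y * N * r * t * i + 2 * Y * N * r * t - 2 * Y * N * r * i + 2 * Y * N * r -
      4 * Y * r ^ 3 * t ^ 2 * i ^ 2 + 4 * Y * r ^ 3 * t ^ 2 * i + 12 * Y * r ^ 3 * t * i ^ 2 + 8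
      * Y * r ^ 3 * t * i + 20 * Y * r ^ 3 * t - 8 * Y * r ^ 3 * i ^ 2 - 8 * Y * r ^ 3 - 6 * N ^
      2 * r ^ 2 * t * i ^ 2 - 6 * N ^ 2 * r ^ 2 * t + 12 * N ^ 2 * r ^ 2 * i - 12 * N * r ^ 4 *
      t ^ 3 * i ^ 3 + 24 * N * r ^ 4 * t ^ 3 * i ^ 2 - 12 * N * r ^ 4 * t ^ 3 * i + 36 * N * r ^
      4 * t ^ 2 * i ^ 3 + 12 * N * r ^ 4 * t ^ 2 * i ^ 2 + 36 * N * r ^ 4 * t ^ 2 * i - 36 * N *
      r ^ 4 * t ^ 2 - 24 * N * r ^ 4 * t * i ^ 3 - 48 * N * r ^ 4 * t * i ^ 2 - 24 * N * r ^ 4 *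
      t * i + 32 * N * r ^ 4 * t + 48 * N * r ^ 4 * i ^ 2 - 16 * N * r ^ 4 - 16 * r ^ 6 * t ^ 3
      * i ^ 3 - 48 * r ^ 6 * t ^ 3 * i + 48 * r ^ 6 * t ^ 2 * i ^ 3 - 144 * r ^ 6 * t ^ 2 * i ^
      2 - 144 * r ^ 6 * t ^ 2 * i - 144 * r ^ 6 * t ^ 2 - 96 * r ^ 6 * t * i ^ 3 + 96 * r ^ 6 *
      t * i ^ 2 + 96 * r ^ 6 * t * i + 96 * r ^ 6 * t + 64 * r ^ 6 * i ^ 3) * hY + (2 * Y * N ^
      3 * r ^ 3 * t ^ 3 * i - 6 * Y * N ^ 3 * r ^ 3 * t ^ 3 - 6 * Y * N ^ 3 * r ^ 3 * t ^ 2 * i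
      - 10 * Y * N ^ 3 * r ^ 3 * t ^ 2 + 12 * Y * N ^ 3 * r ^ 3 * t + 16 * Y * N ^ 3 * r ^ 3 -
      12 * Y * N ^ 2 * r ^ 5 * t ^ 4 * i ^ 2 + 36 * Y * N ^ 2 * r ^ 5 * t ^ 4 * i - 24 * Y * N ^
      2 * r ^ 5 * t ^ 4 + 36 * Y * N ^ 2 * r ^ 5 * t ^ 3 * i ^ 2 - 36 * Y * N ^ 2 * r ^ 5 * t ^
      3 - 24 * Y * N ^ 2 * r ^ 5 * t ^ 2 * i ^ 2 + 24 * Y * N ^ 2 * r ^ 5 * t ^ 2 - 96 * Y * N ^
      2 * r ^ 5 * t * i + 96 * Y * N ^ 2 * r ^ 5 * i - 32 * Y * N * r ^ 7 * t ^ 4 * i ^ 2 + 32 *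
      Y * N * r ^ 7 * t ^ 4 * i - 64 * Y * N * r ^ 7 * t ^ 4 - 32 * Y * N * r ^ 7 * t ^ 3 * i ^
      2 - 160 * Y * N * r ^ 7 * t ^ 3 * i + 256 * Y * N * r ^ 7 * t ^ 3 + 192 * Y * N * r ^ 7 *
      t ^ 2 * i ^ 2 + 288 * Y * N * r ^ 7 * t ^ 2 * i - 352 * Y * N * r ^ 7 * t ^ 2 - 256 * Y *
      N * r ^ 7 * t * i ^ 2 - 512 * Y * N * r ^ 7 * t * i - 64 * Y * N * r ^ 7 * t + 128 * Y * N
      * r ^ 7 * i ^ 2 + 256 * Y * N * r ^ 7 * i + 128 * Y * N * r ^ 7 - 192 * Y * r ^ 9 * t ^ 4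
      * i ^ 2 - 192 * Y * r ^ 9 * t ^ 4 * i + 384 * Y * r ^ 9 * t ^ 4 + 64 * Y * r ^ 9 * t ^ 3 *
      i ^ 2 + 512 * Y * r ^ 9 * t ^ 3 * i + 704 * Y * r ^ 9 * t ^ 3 + 1152 * Y * r ^ 9 * t ^ 2 *
      i ^ 2 + 768 * Y * r ^ 9 * t ^ 2 * i - 1920 * Y * r ^ 9 * t ^ 2 - 1536 * Y * r ^ 9 * t * i
      ^ 2 - 1536 * Y * r ^ 9 * t * i + 1536 * Y * r ^ 9 * t + 512 * Y * r ^ 9 * i ^ 2 + 512 * Y
      * r ^ 9 * i - 512 * Y * r ^ 9 - 6 * N ^ 5 * r ^ 2 * t + N ^ 4 * r ^ 4 * t ^ 4 * i ^ 2 - 4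
      * N ^ 4 * r ^ 4 * t ^ 4 * i + 5 * N ^ 4 * r ^ 4 * t ^ 4 - 2 * N ^ 4 * r ^ 4 * t ^ 3 * i ^
      2 - 4 * N ^ 4 * r ^ 4 * t ^ 3 * i + 62 * N ^ 4 * r ^ 4 * t ^ 3 + 36 * N ^ 4 * r ^ 4 * t ^
      2 * i + 60 * N ^ 4 * r ^ 4 * t ^ 2 - 24 * N ^ 4 * r ^ 4 * t * i - 96 * N ^ 4 * r ^ 4 * t -
      4 * N ^ 3 * r ^ 6 * t ^ 5 * i ^ 3 + 16 * N ^ 3 * r ^ 6 * t ^ 5 * i ^ 2 - 20 * N ^ 3 * r ^
      6 * t ^ 5 * i + 12 * N ^ 3 * r ^ 6 * t ^ 4 * i ^ 3 - 52 * N ^ 3 * r ^ 6 * t ^ 4 * i ^ 2 -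
      124 * N ^ 3 * r ^ 6 * t ^ 4 * i + 4 * N ^ 3 * r ^ 6 * t ^ 4 - 8 * N ^ 3 * r ^ 6 * t ^ 3 *
      i ^ 3 + 48 * N ^ 3 * r ^ 6 * t ^ 3 * i ^ 2 - 88 * N ^ 3 * r ^ 6 * t ^ 3 * i - 16 * N ^ 3 *
      r ^ 6 * t ^ 3 + 432 * N ^ 3 * r ^ 6 * t ^ 2 * i + 48 * N ^ 3 * r ^ 6 * t ^ 2 - 96 * N ^ 3
      * r ^ 6 * t * i - 128 * N ^ 3 * r ^ 6 * i + 48 * N ^ 2 * r ^ 8 * t ^ 5 * i ^ 3 + 160 * N ^
      2 * r ^ 8 * t ^ 5 * i ^ 2 - 48 * N ^ 2 * r ^ 8 * t ^ 5 * i - 64 * N ^ 2 * r ^ 8 * t ^ 5 -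
      144 * N ^ 2 * r ^ 8 * t ^ 4 * i ^ 3 - 16 * N ^ 2 * r ^ 8 * t ^ 4 * i ^ 2 + 528 * N ^ 2 * r
      ^ 8 * t ^ 4 * i - 944 * N ^ 2 * r ^ 8 * t ^ 4 + 96 * N ^ 2 * r ^ 8 * t ^ 3 * i ^ 3 - 704 *
      N ^ 2 * r ^ 8 * t ^ 3 * i ^ 2 - 1440 * N ^ 2 * r ^ 8 * t ^ 3 * i + 896 * N ^ 2 * r ^ 8 * t
      ^ 3 + 512 * N ^ 2 * r ^ 8 * t ^ 2 * i ^ 2 + 1344 * N ^ 2 * r ^ 8 * t ^ 2 * i + 1216 * N ^
      2 * r ^ 8 * t ^ 2 + 256 * N ^ 2 * r ^ 8 * t * i ^ 2 - 384 * N ^ 2 * r ^ 8 * t * i - 3328 *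
      N ^ 2 * r ^ 8 * t - 256 * N ^ 2 * r ^ 8 * i ^ 2 + 1792 * N ^ 2 * r ^ 8 - 192 * N * r ^ 10
      * t ^ 5 * i ^ 3 + 576 * N * r ^ 10 * t ^ 5 * i + 576 * N * r ^ 10 * t ^ 4 * i ^ 3 + 320 *
      N * r ^ 10 * t ^ 4 * i ^ 2 - 576 * N * r ^ 10 * t ^ 4 * i - 320 * N * r ^ 10 * t ^ 4 - 384
      * N * r ^ 10 * t ^ 3 * i ^ 3 - 256 * N * r ^ 10 * t ^ 3 * i ^ 2 - 1152 * N * r ^ 10 * t ^
      3 * i + 4864 * N * r ^ 10 * t ^ 3 + 6912 * N * r ^ 10 * t ^ 2 * i - 5376 * N * r ^ 10 * t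
      ^ 2 - 9728 * N * r ^ 10 * t * i + 1536 * N * r ^ 10 * t + 4096 * N * r ^ 10 * i + 256 * r
      ^ 12 * t ^ 5 * i ^ 3 + 512 * r ^ 12 * t ^ 5 * i ^ 2 - 256 * r ^ 12 * t ^ 5 * i - 1024 * r
      ^ 12 * t ^ 5 - 768 * r ^ 12 * t ^ 4 * i ^ 3 - 2048 * r ^ 12 * t ^ 4 * i ^ 2 - 1280 * r ^
      12 * t ^ 4 * i + 512 * r ^ 12 * t ^ 4 + 512 * r ^ 12 * t ^ 3 * i ^ 3 - 2560 * r ^ 12 * t ^
      3 * i ^ 2 + 1536 * r ^ 12 * t ^ 3 * i + 4608 * r ^ 12 * t ^ 3 + 12288 * r ^ 12 * t ^ 2 * i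
      ^ 2 - 12288 * r ^ 12 * t ^ 2 - 12288 * r ^ 12 * t * i ^ 2 + 12288 * r ^ 12 * t + 4096 * r
      ^ 12 * i ^ 2 - 4096 * r ^ 12) * hi + (4 * Y * N ^ 3 * r ^ 3 * t * i + 4 * Y * N ^ 3 * r ^
      3 * t + 8 * Y * N ^ 3 * r ^ 3 * i + 8 * Y * N ^ 3 * r ^ 3 - 24 * Y * N ^ 2 * r ^ 5 * t ^ 2
      * i + 24 * Y * N ^ 2 * r ^ 5 * t ^ 2 + 16 * Y * N ^ 2 * r ^ 5 * i - 16 * Y * N ^ 2 * r ^ 5
      + 64 * Y * N * r ^ 7 * t ^ 2 * i + 64 * Y * N * r ^ 7 * t ^ 2 - 192 * Y * N * r ^ 7 * t *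
      i - 192 * Y * N * r ^ 7 * t + 128 * Y * N * r ^ 7 * i + 128 * Y * N * r ^ 7 + 384 * Y * r
      ^ 9 * t ^ 2 * i - 384 * Y * r ^ 9 * t ^ 2 - 512 * Y * r ^ 9 * t * i + 512 * Y * r ^ 9 * t
      + 256 * Y * r ^ 9 * i - 256 * Y * r ^ 9 - 4 * N ^ 5 * r ^ 2 * i - 4 * N ^ 4 * r ^ 4 * t ^
      2 - 56 * N ^ 4 * r ^ 4 * t + 8 * N ^ 4 * r ^ 4 + 16 * N ^ 3 * r ^ 6 * t ^ 3 * i + 96 * N ^
      3 * r ^ 6 * t ^ 2 * i - 96 * N ^ 3 * r ^ 6 * t * i - 192 * N ^ 3 * r ^ 6 * i + 64 * N ^ 2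
      * r ^ 8 * t ^ 3 + 768 * N ^ 2 * r ^ 8 * t ^ 2 - 1152 * N ^ 2 * r ^ 8 * t + 1024 * N ^ 2 *
      r ^ 8 - 768 * N * r ^ 10 * t ^ 3 * i + 3584 * N * r ^ 10 * t ^ 2 * i - 3584 * N * r ^ 10 *
      t * i + 2048 * N * r ^ 10 * i + 1024 * r ^ 12 * t ^ 3 - 3072 * r ^ 12 * t ^ 2 + 4096 * r ^
      12 * t - 2048 * r ^ 12) * ht'

lemma par {k : Type} [Field k] {D : k} {p : k × k} (h2 : (2 : k) ≠ 0) (hx : p.1 ≠ 0)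
    (h : Pt D p) : ∃ r t : k, t ^ 2 = 2 - 2 * t ∧ p.1 = 4 * r ^ 2 ∧ p.2 = 8 * t * r ^ 3 ∧
      D = 16 * r ^ 4 * (2 * t - 1) := by
  obtain ⟨t, ht⟩ : ∃ t : k, t = (p.1 ^ 2 + D) / (2 * p.1 ^ 2) := ⟨_, rfl⟩
  have e1 : D = p.1 ^ 2 * (2 * t - 1) := by
    rw [ht]; field_simp; ring
  have e2 : t ^ 2 = 2 - 2 * t := by
    have hq := h.q
    rw [e1] at hq
    have h4 : (4 : k) * p.1 ^ 4 ≠ 0 := by
      refine mul_ne_zero ?_ (pow_ne_zero _ hx)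
      have : (4 : k) = 2 * 2 := by norm_num
      rw [this]; exact mul_ne_zero h2 h2
    apply mul_left_cancel₀ h4
    linear_combination -hq
  have ht0 : t ≠ 0 := by
    intro h0
    apply h2
    rw [h0] at e2
    linear_combination -e2
  obtain ⟨r, hr⟩ : ∃ r : k, r = p.2 / (2 * t * p.1) := ⟨_, rfl⟩
  have e3 : p.2 = 2 * t * p.1 * r := by
    rw [hr]; field_simp
  have e4 : p.1 = 4 * r ^ 2 := by
    have he := h.e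
    rw [e3, e1] at he
    apply mul_left_cancel₀ (mul_ne_zero (pow_ne_zero 2 ht0) (pow_ne_zero 2 hx))
    linear_combination -he + p.1 ^ 3 * e2
  refine ⟨r, t, e2, e4, ?_, ?_⟩
  · rw [e3, e4]; ring
  · rw [e1, e4]; ring

end PtA

open PtA in
theorem pta (hA : ALG) : PTA := by
  intro k F _ _ _ i D N Y p h6 hi hD h hY
  have h2 : (2 : k) ≠ 0 := fun h => h6 (by linear_combination 3 * h)
  obtain ⟨hx, hy, hm, -⟩ := hA k i D p h6 hi hD h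
  have hmy : (mu i p).2 ≠ 0 := (hA k i D (mu i p) h6 hi hD hm).2.1
  have hi0 : i ≠ 0 := by
    intro h0
    rw [h0] at hi
    apply h2
    linear_combination 2 * hi
  obtain ⟨r, t, ht, e1, e2, e3⟩ := par h2 hx h
  have hr : r ≠ 0 := by
    intro h0
    apply hx
    rw [e1, h0]; ring
  have l1 : tg D p = 2 * r * (1 + t) := by
    unfold tg
    rw [div_eq_iff (mul_ne_zero h2 hy), e1, e2, e3]
    linear_combination (-32 * r ^ 4) * ht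
  have l2 : tg D (p.1, -p.2) = -(2 * r * (1 + t)) := by
    unfold tg
    rw [div_eq_iff (mul_ne_zero h2 (neg_ne_zero.mpr hy))]
    simp only
    rw [e1, e2, e3]
    linear_combination (-32 * r ^ 4) * ht
  have l3 : tg D (-p.1, i * p.2) = -i * (2 * r * (1 + t)) := by
    unfold tg
    rw [div_eq_iff (mul_ne_zero h2 (mul_ne_zero hi0 hy))]
    simp only
    rw [e1, e2, e3]
    linear_combination (32 * r ^ 4 * t ^ 2 + 32 * r ^ 4 * t) * hi + (-32 * r ^ 4) * ht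
  have l4 : tg D (-p.1, -i * p.2) = i * (2 * r * (1 + t)) := by
    unfold tg
    rw [div_eq_iff (mul_ne_zero h2 (mul_ne_zero (neg_ne_zero.mpr hi0) hy))]
    simp only
    rw [e1, e2, e3]
    linear_combination (32 * r ^ 4 * t ^ 2 + 32 * r ^ 4 * t) * hi + (-32 * r ^ 4) * ht
  have s1 : sl i p = (1 - i) * t * r := by
    unfold sl
    rw [div_eq_iff (mul_ne_zero h2 hx), e1, e2]
    ring
  have m1 : (mu i p).1 = -4 * i * (1 - t) * r ^ 2 := by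
    show sl i p ^ 2 = _
    rw [s1]
    linear_combination (r ^ 2 * t ^ 2) * hi + (-2 * r ^ 2 * i) * ht
  have m2 : (mu i p).2 = -8 * (1 + i) * (1 - t) * r ^ 3 := by
    show sl i p * (p.1 - sl i p ^ 2) - p.2 = _
    rw [s1, e1, e2]
    linear_combination (r ^ 3 * t ^ 3 * i - 3 * r ^ 3 * t ^ 3) * hi +
      (2 * r ^ 3 * t * i + 2 * r ^ 3 * t - 4 * r ^ 3 * i - 4 * r ^ 3) * ht
  have l5 : tg D (mu i p) = r * (2 - t) * (1 - i) := by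
    unfold tg
    rw [div_eq_iff (mul_ne_zero h2 hmy), m1, m2, e3]
    linear_combination (32 * r ^ 4 * t ^ 2 - 48 * r ^ 4 * t + 16 * r ^ 4) * hi +
      (-16 * r ^ 4) * ht
  have hi' : algebraMap k F i ^ 2 = -1 := by
    rw [← map_pow, hi, map_neg, map_one]
  have ht' : algebraMap k F t ^ 2 = 2 - 2 * algebraMap k F t := by
    rw [← map_pow, ht, map_sub, map_mul, map_ofNat]
  have hY' : Y ^ 2 = N ^ 3 - 16 * algebraMap k F r ^ 4 * (2 * algebraMap k F t - 1) * N := by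
    rw [hY, e3]
    simp only [map_mul, map_pow, map_sub, map_one, map_ofNat]
  refine ⟨?_, ?_, ?_⟩
  · unfold hP ln
    rw [l1, l2]
    simp only
    rw [e1, e2]
    simp only [map_mul, map_pow, map_add, map_neg, map_one, map_ofNat]
    linear_combination key1 Y N _ _ hY' ht'
  · unfold hP ln
    rw [l1, l4]
    simp only
    rw [e1, e2]
    simp only [map_mul, map_pow, map_add, map_neg, map_one, map_ofNat]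
    linear_combination (-(8 * algebraMap k F t * algebraMap k F r ^ 3) +
      2 * algebraMap k F r * (1 + algebraMap k F t) * (N + 4 * algebraMap k F r ^ 2)) * hi'
  · unfold hP ln
    rw [l1, l3, l5, s1, m1, m2]
    simp only
    rw [e1, e2]
    simp only [map_mul, map_pow, map_add, map_sub, map_neg, map_one, map_ofNat]
    linear_combination key3 Y N _ _ _ hY' hi' ht'

end Vale.Agent.P027M.F
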