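import Vale.Agent.P027M.F.ArDefs
import Vale.Agent.P025.R2.H816.HK

/-!
# P027, route M, block F.pts: the tangent has divisor divisible by three
-/

set_option linter.all false

namespace Vale.Agent.P027M.F

open Vale.Agent.P019P

/-- row PTB -/
def PTB : Prop := ∀ (k F : Type) [Field k] [Field F] [Algebra k F] [CFF k F] (D : k) (N Y : F)
  (p : k × k), (6 : k) ≠ 0 → D ≠ 0 → Pt D p → Transcendental k N →
  Y ^ 2 = N ^ 3 - algebraMap k F D * N →
  hP D N Y p ≠ 0 ∧ ∀ P : Plk k F, (3 : ℤ) ∣ ord P (hP D N Y p)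

end Vale.Agent.P027M.F
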